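import Mathlib

/-!
# P033B, module ASYM2
-/

namespace P033

theorem as2_z {L : ℝ} (hL : 10 ^ 31 ≤ L) :
    150 * (((⌈L ^ 40⌉₊ : ℕ) : ℝ)) ^ (1 / 50 : ℝ) ≤ L / 4500 := by
  have hL0 : 0 < L := by linarith [(by norm_num : (0 : ℝ) < 10 ^ 31)]
  have hL1 : 1 ≤ L := by linarith [(by norm_num : (1 : ℝ) ≤ 10 ^ 31)]
  have h1 : (((⌈L ^ 40⌉₊ : ℕ) : ℝ)) ≤ 2 * L ^ 40 := by
    have h2 := (Nat.ceil_lt_add_one (by positivity : 0 ≤ L ^ 40)).le
    have h3 : 1 ≤ L ^ 40 := one_le_pow₀ hL1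
    linarith
  have h2 : (((⌈L ^ 40⌉₊ : ℕ) : ℝ)) ^ (1 / 50 : ℝ) ≤ (2 * L ^ 40) ^ (1 / 50 : ℝ) :=
    Real.rpow_le_rpow (Nat.cast_nonneg _) h1 (by norm_num)
  have h3 : (2 * L ^ 40) ^ (1 / 50 : ℝ) = 2 ^ (1 / 50 : ℝ) * L ^ (4 / 5 : ℝ) := by
    rw [Real.mul_rpow (by norm_num) (by positivity), ← Real.rpow_natCast L 40,
      ← Real.rpow_mul hL0.le]
    congr 2
    norm_num
  have h4 : (2 : ℝ) ^ (1 / 50 : ℝ) ≤ 2 := by
    conv_rhs => rw [← Real.rpow_one 2]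
    exact Real.rpow_le_rpow_of_exponent_le (by norm_num) (by norm_num)
  have h5 : (1350000 : ℝ) ≤ L ^ (1 / 5 : ℝ) := by
    have h6 : ((1350000 : ℝ) ^ 5) ^ (1 / 5 : ℝ) ≤ L ^ (1 / 5 : ℝ) := by
      apply Real.rpow_le_rpow (by positivity) _ (by norm_num)
      refine le_trans ?_ hL
      norm_num
    have h7 : ((1350000 : ℝ) ^ 5) ^ (1 / 5 : ℝ) = 1350000 := by
      rw [← Real.rpow_natCast, ← Real.rpow_mul (by norm_num)]
      norm_num
    rwa [h7] at h6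
  have h6 : L = L ^ (4 / 5 : ℝ) * L ^ (1 / 5 : ℝ) := by
    rw [← Real.rpow_add hL0]
    norm_num
  have h7 : 0 < L ^ (4 / 5 : ℝ) := by positivity
  rw [h3] at h2
  have h8 : 2 ^ (1 / 50 : ℝ) * L ^ (4 / 5 : ℝ) ≤ 2 * L ^ (4 / 5 : ℝ) :=
    mul_le_mul_of_nonneg_right h4 h7.le
  have h9 : L ^ (4 / 5 : ℝ) * 1350000 ≤ L ^ (4 / 5 : ℝ) * L ^ (1 / 5 : ℝ) :=
    mul_le_mul_of_nonneg_left h5 h7.le
  rw [← h6] at h9
  linarith

theorem as2_lin {L : ℝ} (hL : 10 ^ 31 ≤ L) :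
    (1 + L) * Real.exp 1 ≤ Real.exp (L * (7 / 7200)) := by
  have hL0 : 0 < L := by linarith [(by norm_num : (0 : ℝ) < 10 ^ 31)]
  have h1 : Real.exp (L * (7 / 7200)) = Real.exp (L * (7 / 14400)) ^ 2 := by
    rw [← Real.exp_nat_mul]
    congr 1
    push_cast
    ring
  have h2 : L * (7 / 14400) ≤ Real.exp (L * (7 / 14400)) := by
    have := Real.add_one_le_exp (L * (7 / 14400))
    linarith
  have h3 : (L * (7 / 14400)) ^ 2 ≤ Real.exp (L * (7 / 14400)) ^ 2 :=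
    pow_le_pow_left₀ (by positivity) h2 2
  have h4 := Real.exp_one_lt_d9
  have h5 : (1 + L) * Real.exp 1 ≤ (2 * L) * 3 := by
    apply mul_le_mul _ (by linarith) (Real.exp_pos 1).le (by linarith)
    linarith [(by norm_num : (1 : ℝ) ≤ 10 ^ 31)]
  rw [h1]
  refine h5.trans (le_trans ?_ h3)
  have h6 : (10 : ℝ) ^ 31 * L ≤ L * L := mul_le_mul_of_nonneg_right hL hL0.le
  have h7 : (L * (7 / 14400)) ^ 2 = 49 / 207360000 * (L * L) := by ring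
  rw [h7]
  have h8 : (2 * L) * 3 ≤ 49 / 207360000 * ((10 : ℝ) ^ 31 * L) := by
    have : 49 / 207360000 * ((10 : ℝ) ^ 31 * L) = (49 / 207360000 * (10 : ℝ) ^ 31) * L := by ring
    rw [this]
    have h9 : (6 : ℝ) ≤ 49 / 207360000 * (10 : ℝ) ^ 31 := by norm_num
    have := mul_le_mul_of_nonneg_right h9 hL0.le
    linarith
  have h9 := mul_le_mul_of_nonneg_left h6 (by norm_num : (0 : ℝ) ≤ 49 / 207360000)
  linarith

/-- With `L = log x`, `z = ⌈L ^ 40⌉`. -/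
theorem asym2 : ∃ x₀ : ℕ, ∀ x : ℕ, x₀ ≤ x → ∃ z : ℕ, 200 ≤ Real.log x ∧
    (Real.log x) ^ 40 ≤ z ∧
    (x : ℝ) ^ (1 - 1 / 900 : ℝ) +
      x * (((x : ℝ) ^ (1 / 15 : ℝ)) ^ (-(1 / 50) : ℝ) *
        Real.exp (150 * (z : ℝ) ^ (1 / 50 : ℝ))) +
      x * (2 / (x : ℝ) ^ (1 / 900 : ℝ)) +
      x * ((1 + Real.log x) * Real.exp (1 - (Real.log x / 120) / 4)) ≤
      (x : ℝ) ^ (1 - 1 / 1000 : ℝ) := by
  refine ⟨⌈Real.exp (10 ^ 31)⌉₊, fun x hx => ⟨⌈Real.log x ^ 40⌉₊, ?_⟩⟩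
  have hx1 : Real.exp (10 ^ 31) ≤ x := (Nat.le_ceil _).trans (by exact_mod_cast hx)
  have hx0 : (0 : ℝ) < x := lt_of_lt_of_le (Real.exp_pos _) hx1
  have hL : 10 ^ 31 ≤ Real.log x := by
    rw [Real.le_log_iff_exp_le hx0]; exact hx1
  have hz := as2_z hL
  have hl := as2_lin hL
  set L := Real.log x with hLdef
  have hL0 : 0 < L := by linarith [(by norm_num : (0 : ℝ) < 10 ^ 31)]
  refine ⟨by linarith [(by norm_num : (200 : ℝ) ≤ 10 ^ 31)], Nat.le_ceil _, ?_⟩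
  have hpow : ∀ a : ℝ, (x : ℝ) ^ a = Real.exp (L * a) := fun a => by
    rw [Real.rpow_def_of_pos hx0]
  have hxe : (x : ℝ) = Real.exp L := by rw [hLdef, Real.exp_log hx0]
  set E := Real.exp (L * (1 - 1 / 900)) with hE
  have hE0 : 0 < E := Real.exp_pos _
  have t1 : (x : ℝ) ^ (1 - 1 / 900 : ℝ) = E := hpow _
  have t2 : x * (((x : ℝ) ^ (1 / 15 : ℝ)) ^ (-(1 / 50) : ℝ) *
      Real.exp (150 * (((⌈L ^ 40⌉₊ : ℕ) : ℝ)) ^ (1 / 50 : ℝ))) ≤ E := by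
    rw [← Real.rpow_mul hx0.le, hpow, ← Real.exp_add]
    conv_lhs => rw [hxe]
    rw [← Real.exp_add, hE]
    apply Real.exp_le_exp.2
    linarith
  have t3 : x * (2 / (x : ℝ) ^ (1 / 900 : ℝ)) = 2 * E := by
    rw [hpow, hE]
    have : Real.exp (L * (1 - 1 / 900)) = x / Real.exp (L * (1 / 900)) := by
      conv_rhs => rw [hxe]
      rw [← Real.exp_sub]
      congr 1
      ring
    rw [this]
    ring
  have t4 : x * ((1 + L) * Real.exp (1 - (L / 120) / 4)) ≤ E := by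
    have h1 : Real.exp (1 - (L / 120) / 4) = Real.exp 1 * Real.exp (-(L / 480)) := by
      rw [← Real.exp_add]
      congr 1
      ring
    rw [h1]
    calc x * ((1 + L) * (Real.exp 1 * Real.exp (-(L / 480)))) =
        (x * Real.exp (-(L / 480))) * ((1 + L) * Real.exp 1) := by ring
      _ ≤ (x * Real.exp (-(L / 480))) * Real.exp (L * (7 / 7200)) :=
          mul_le_mul_of_nonneg_left hl (by positivity)
      _ = E := by
          conv_lhs => rw [hxe]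
          rw [← Real.exp_add, ← Real.exp_add, hE]
          congr 1
          ring
  have t5 : (5 : ℝ) ≤ Real.exp (L / 9000) := by
    have := Real.add_one_le_exp (L / 9000)
    linarith [(by norm_num : (9000 * 5 : ℝ) ≤ 10 ^ 31)]
  have t6 : (x : ℝ) ^ (1 - 1 / 1000 : ℝ) = E * Real.exp (L / 9000) := by
    rw [hpow, hE, ← Real.exp_add]
    congr 1
    ring
  rw [t1, t3, t6]
  have t7 : E * 5 ≤ E * Real.exp (L / 9000) := mul_le_mul_of_nonneg_left t5 hE0.le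
  linarith

end P033
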