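import Mathlib

/-!
# P033B, module EULER
-/

namespace P033

open Finset

/-- Expand the product over subsets of `S` and use `#{m ≤ x : d ∣ m} ≤ x / d`. -/
theorem euler_bound (S : Finset ℕ) (hS : ∀ q ∈ S, q.Prime) (a : ℕ → ℝ)
    (ha : ∀ q ∈ S, 0 ≤ a q) (x : ℕ) :
    ∑ m ∈ Icc 1 x, ∏ q ∈ S.filter (fun q => q ∣ m), (1 + a q) ≤ x * ∏ q ∈ S, (1 + a q / q) := by
  have h1 : ∀ m ∈ Icc 1 x, ∏ q ∈ S.filter (fun q => q ∣ m), (1 + a q) =
      ∑ T ∈ S.powerset, if (∏ q ∈ T, q) ∣ m then ∏ q ∈ T, a q else 0 := by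
    intro m _
    rw [Finset.prod_one_add, ← Finset.sum_filter]
    refine Finset.sum_congr ?_ fun _ _ => rfl
    ext T
    simp only [mem_powerset, mem_filter]
    constructor
    · intro h
      refine ⟨h.trans (filter_subset _ _), ?_⟩
      exact Finset.prod_primes_dvd m (fun q hq => (hS q (mem_filter.1 (h hq)).1).prime)
        (fun q hq => (mem_filter.1 (h hq)).2)
    · rintro ⟨h1, h2⟩ q hq
      exact mem_filter.2 ⟨h1 hq, (dvd_prod_of_mem _ hq).trans h2⟩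
  rw [sum_congr rfl h1, sum_comm]
  have h2 : ∀ T ∈ S.powerset, ∑ m ∈ Icc 1 x, (if (∏ q ∈ T, q) ∣ m then ∏ q ∈ T, a q else 0) ≤
      x * ∏ q ∈ T, (a q / q) := by
    intro T hT
    rw [mem_powerset] at hT
    rw [← sum_filter, sum_const, nsmul_eq_mul]
    have h3 : ((Icc 1 x).filter (fun m => (∏ q ∈ T, q) ∣ m)).card = x / ∏ q ∈ T, q := by
      rw [← Nat.Ioc_filter_dvd_card_eq_div]
      rfl
    rw [h3, prod_div_distrib]
    have h4 : ((x / ∏ q ∈ T, q : ℕ) : ℝ) ≤ (x : ℝ) / ∏ q ∈ T, (q : ℝ) := by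
      refine Nat.cast_div_le.trans (le_of_eq ?_)
      rw [Nat.cast_prod]
    calc ((x / ∏ q ∈ T, q : ℕ) : ℝ) * ∏ q ∈ T, a q
        ≤ (x : ℝ) / (∏ q ∈ T, (q : ℝ)) * ∏ q ∈ T, a q :=
          mul_le_mul_of_nonneg_right h4 (prod_nonneg fun q hq => ha q (hT hq))
      _ = x * ((∏ q ∈ T, a q) / ∏ q ∈ T, (q : ℝ)) := by ring
  refine (sum_le_sum h2).trans (le_of_eq ?_)
  rw [← mul_sum, Finset.prod_one_add]

end P033
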