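import Vale.Agent.P033B.Defs
import Vale.Agent.P033B.Euler
import Vale.Agent.P033.Union

/-!
# P033B, module COUNTM
-/

namespace P033

open Finset

/-- Rankin with exponent `1/4` (`euler_bound`, `1 + t ≤ exp t`). -/
theorem count_m {R z x y : ℕ} (hyx : y ≤ x) (s : ℝ) :
    (((Icc 1 y).filter fun m => s ≤ GR z R m).card : ℝ) ≤ y * Real.exp (Sg R z x - s / 4) := by
  classical
  set S : Finset ℕ := (Ioc z x).filter (fun q => q.Prime ∧ ¬ q ∣ R) with hS
  set a : ℕ → ℝ := fun q => Real.exp (mW R.primeFactors q / 4) - 1 with ha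
  have ha0 : ∀ q, 0 ≤ a q := by
    intro q
    have h1 : 1 ≤ Real.exp (mW R.primeFactors q / 4) :=
      Real.one_le_exp (div_nonneg (mW_nonneg _ _) (by norm_num))
    show 0 ≤ Real.exp (mW R.primeFactors q / 4) - 1
    linarith
  have hprod : ∀ m ∈ Icc 1 y, ∏ q ∈ S.filter (fun q => q ∣ m), (1 + a q) = Real.exp (GR z R m / 4) := by
    intro m hm
    rw [mem_Icc] at hm
    have h1 : S.filter (fun q => q ∣ m) = m.primeFactors.filter (fun q => z < q ∧ ¬ q ∣ R) := by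
      ext q
      simp only [hS, mem_filter, mem_Ioc, Nat.mem_primeFactors]
      constructor
      · rintro ⟨⟨⟨h1, h2⟩, h3, h4⟩, h5⟩
        exact ⟨⟨h3, h5, by omega⟩, h1, h4⟩
      · rintro ⟨⟨h1, h2, h3⟩, h4, h5⟩
        exact ⟨⟨⟨h4, (Nat.le_of_dvd (by omega) h2).trans (hm.2.trans hyx)⟩, h1, h5⟩, h2⟩
    rw [h1]
    unfold GR
    rw [sum_div, Real.exp_sum]
    refine prod_congr rfl fun q _ => ?_
    show 1 + (Real.exp (mW R.primeFactors q / 4) - 1) = _
    ring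
  have heul := euler_bound S (fun q hq => (mem_filter.1 hq).2.1) a (fun q _ => ha0 q) y
  rw [sum_congr rfl hprod] at heul
  have h2 : ∏ q ∈ S, (1 + a q / q) ≤ Real.exp (Sg R z x) := by
    unfold Sg
    rw [Real.exp_sum]
    refine prod_le_prod (fun q _ => ?_) fun q _ => ?_
    · have := ha0 q
      positivity
    · have := Real.add_one_le_exp ((Real.exp (mW R.primeFactors q / 4) - 1) / q)
      show 1 + (Real.exp (mW R.primeFactors q / 4) - 1) / q ≤ _
      linarith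
  have h3 : (((Icc 1 y).filter fun m => s ≤ GR z R m).card : ℝ) * Real.exp (s / 4)
      ≤ ∑ m ∈ Icc 1 y, Real.exp (GR z R m / 4) := by
    calc (((Icc 1 y).filter fun m => s ≤ GR z R m).card : ℝ) * Real.exp (s / 4)
        = ∑ m ∈ (Icc 1 y).filter (fun m => s ≤ GR z R m), Real.exp (s / 4) := by
          rw [sum_const, nsmul_eq_mul]
      _ ≤ ∑ m ∈ (Icc 1 y).filter (fun m => s ≤ GR z R m), Real.exp (GR z R m / 4) := by
          refine sum_le_sum fun m hm => ?_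
          rw [Real.exp_le_exp]
          have := (mem_filter.1 hm).2
          linarith
      _ ≤ _ := sum_le_sum_of_subset_of_nonneg (filter_subset _ _) fun m _ _ => (Real.exp_pos _).le
  have h4 : (((Icc 1 y).filter fun m => s ≤ GR z R m).card : ℝ) * Real.exp (s / 4)
      ≤ y * Real.exp (Sg R z x) :=
    (h3.trans heul).trans (mul_le_mul_of_nonneg_left h2 (Nat.cast_nonneg _))
  rw [Real.exp_sub, mul_div_assoc', le_div_iff₀ (Real.exp_pos _)]
  exact h4

/-- Summing over `R`. -/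
theorem count_T3 {x z : ℕ} (hSg : ∀ R, R ≤ x → Squarefree R → (∀ P ∈ R.primeFactors, z < P) →
      Sg R z x ≤ 1) (s : ℝ) (F : Finset ℕ)
    (hF : ∀ u ∈ F, 1 ≤ u ∧ u ≤ x ∧ ∃ R, R ∣ u ∧ Squarefree R ∧
      (∀ P ∈ R.primeFactors, z < P) ∧ s ≤ GR z R (u / R)) :
    (F.card : ℝ) ≤ x * ((1 + Real.log x) * Real.exp (1 - s / 4)) := by
  classical
  set 𝓡 : Finset ℕ := (Icc 1 x).filter (fun R => Squarefree R ∧ ∀ P ∈ R.primeFactors, z < P) with h𝓡
  set A : ℕ → Finset ℕ := fun R =>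
    ((Icc 1 (x / R)).filter fun m => s ≤ GR z R m).image (fun m => R * m) with hA
  have h1 : (F.card : ℝ) ≤ ∑ R ∈ 𝓡, ((A R).card : ℝ) := by
    refine Union.card_biUnion_real 𝓡 A F fun u hu => ?_
    obtain ⟨hu1, hux, R, hRu, hsq, hz, hs⟩ := hF u hu
    have hR0 : 0 < R := Nat.pos_of_dvd_of_pos hRu hu1
    refine ⟨R, ?_, ?_⟩
    · rw [h𝓡, mem_filter, mem_Icc]
      exact ⟨⟨hR0, (Nat.le_of_dvd hu1 hRu).trans hux⟩, hsq, hz⟩
    · rw [hA, mem_image]
      refine ⟨u / R, ?_, Nat.mul_div_cancel' hRu⟩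
      rw [mem_filter, mem_Icc]
      refine ⟨⟨?_, Nat.div_le_div_right hux⟩, hs⟩
      exact Nat.div_pos (Nat.le_of_dvd hu1 hRu) hR0
  have h2 : ∀ R ∈ 𝓡, ((A R).card : ℝ) ≤ (x * Real.exp (1 - s / 4)) * (R : ℝ)⁻¹ := by
    intro R hR
    rw [h𝓡, mem_filter, mem_Icc] at hR
    obtain ⟨⟨hR1, hRx⟩, hsq, hz⟩ := hR
    have hR0 : (0 : ℝ) < R := by exact_mod_cast hR1
    calc ((A R).card : ℝ) ≤ (((Icc 1 (x / R)).filter fun m => s ≤ GR z R m).card : ℝ) := by
          exact_mod_cast card_image_le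
      _ ≤ (x / R : ℕ) * Real.exp (Sg R z x - s / 4) := count_m (Nat.div_le_self x R) s
      _ ≤ ((x : ℝ) / R) * Real.exp (1 - s / 4) := by
          refine mul_le_mul Nat.cast_div_le ?_ (Real.exp_pos _).le (by positivity)
          rw [Real.exp_le_exp]
          have := hSg R hRx hsq hz
          linarith
      _ = _ := by
          rw [div_eq_mul_inv]
          ring
  have h3 : ∑ R ∈ 𝓡, (R : ℝ)⁻¹ ≤ 1 + Real.log x := by
    calc ∑ R ∈ 𝓡, (R : ℝ)⁻¹ ≤ ∑ R ∈ Icc 1 x, (R : ℝ)⁻¹ :=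
          sum_le_sum_of_subset_of_nonneg (filter_subset _ _) fun R _ _ => by positivity
      _ = (harmonic x : ℝ) := by
          rw [harmonic_eq_sum_Icc]
          push_cast
          rfl
      _ ≤ 1 + Real.log x := harmonic_le_one_add_log x
  calc (F.card : ℝ) ≤ ∑ R ∈ 𝓡, ((A R).card : ℝ) := h1
    _ ≤ ∑ R ∈ 𝓡, (x * Real.exp (1 - s / 4)) * (R : ℝ)⁻¹ := sum_le_sum h2
    _ = (x * Real.exp (1 - s / 4)) * ∑ R ∈ 𝓡, (R : ℝ)⁻¹ := by rw [mul_sum]
    _ ≤ (x * Real.exp (1 - s / 4)) * (1 + Real.log x) :=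
        mul_le_mul_of_nonneg_left h3 (mul_nonneg (Nat.cast_nonneg _) (Real.exp_pos _).le)
    _ = _ := by ring

end P033
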