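import Vale.Agent.P033B.Defs
import Vale.Agent.P033.Union

/-!
# P033B, module SQCNT
-/

namespace P033

open Finset

theorem SqCnt.sum_inv (Y x : ℕ) (hY : 1 ≤ Y) : ∑ s ∈ Icc Y x, (1 : ℝ) / (s : ℝ) ^ 2 ≤ 2 / Y := by
  rcases lt_or_ge x Y with h | h
  · rw [Icc_eq_empty (by omega), sum_empty]
    positivity
  have h1 : Icc Y x = insert Y (Ioc Y x) := by
    ext m
    simp only [mem_Icc, mem_insert, mem_Ioc]
    omega
  rw [h1, sum_insert (by simp)]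
  have h2 := Union.sum_inv_sq Y x hY
  have hYR : (1 : ℝ) ≤ Y := by exact_mod_cast hY
  have h3 : (1 : ℝ) / (Y : ℝ) ^ 2 ≤ 1 / Y := by
    refine one_div_le_one_div_of_le (by positivity) ?_
    nlinarith
  have h4 : (2 : ℝ) / Y = 1 / Y + 1 / Y := by ring
  rw [h4]
  linarith

/-- Numbers `u ≤ x` divisible by a large square. -/
theorem count_T2 {x : ℕ} {y : ℝ} (hy : 0 < y) (F : Finset ℕ)
    (hF : ∀ u ∈ F, 1 ≤ u ∧ u ≤ x ∧ ∃ s : ℕ, y ≤ s ∧ s ^ 2 ∣ u) :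
    (F.card : ℝ) ≤ x * (2 / y) := by
  classical
  set Y := ⌈y⌉₊ with hY
  have hY1 : 1 ≤ Y := Nat.one_le_iff_ne_zero.2 (Nat.ceil_pos.2 hy).ne'
  have h1 := Union.card_biUnion_real (Icc Y x) (fun s => (Icc 1 x).filter fun u => s ^ 2 ∣ u) F (by
    intro u hu
    obtain ⟨hu1, hux, s, hs, hsu⟩ := hF u hu
    refine ⟨s, ?_, ?_⟩
    · rw [mem_Icc]
      refine ⟨Nat.ceil_le.2 hs, ?_⟩
      have h2 := Nat.le_of_dvd (by omega) hsu
      have h3 : s ≤ s ^ 2 := Nat.le_self_pow (by norm_num) s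
      omega
    · rw [mem_filter, mem_Icc]
      exact ⟨⟨hu1, hux⟩, hsu⟩)
  refine h1.trans ?_
  calc ∑ s ∈ Icc Y x, (((Icc 1 x).filter fun u => s ^ 2 ∣ u).card : ℝ)
      ≤ ∑ s ∈ Icc Y x, (x : ℝ) * (1 / (s : ℝ) ^ 2) := by
        apply sum_le_sum
        intro s hs
        have h2 := Union.card_multiples x (s ^ 2)
        have e : (((Icc 1 x).filter fun u => s ^ 2 ∣ u).card : ℝ) ≤ (x : ℝ) / ((s ^ 2 : ℕ) : ℝ) := by
          convert h2
        refine e.trans (le_of_eq ?_)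
        push_cast
        ring
    _ = x * ∑ s ∈ Icc Y x, (1 : ℝ) / (s : ℝ) ^ 2 := by rw [mul_sum]
    _ ≤ x * (2 / Y) := by
        apply mul_le_mul_of_nonneg_left (SqCnt.sum_inv Y x hY1) (Nat.cast_nonneg x)
    _ ≤ x * (2 / y) := by
        apply mul_le_mul_of_nonneg_left _ (Nat.cast_nonneg x)
        exact div_le_div_of_nonneg_left (by norm_num) hy (Nat.le_ceil y)

end P033
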