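import Vale.Agent.P033B.Defs

/-!
# P033B, module COVER
-/

namespace P033

open Finset

/-- Cover argument: `Q₁ = {q : Wt Q q ≥ log q / 2}`,
`C = {P : ∃ q ∈ Q \ Q₁, q ≠ P, Rel q P}`, `T = Q \ (Q₁ ∪ C)`. -/
theorem cover (Q : Finset ℕ) : ∃ T ⊆ Q, (∀ p ∈ T, ∀ P ∈ T, p ≠ P → ¬ Rel p P) ∧
    ∑ q ∈ Q, Real.log q - 2 * ∑ q ∈ Q, mW Q q ≤ ∑ q ∈ T, Real.log q := by
  classical
  set Q₁ := Q.filter (fun q : ℕ => Real.log q / 2 ≤ Wt Q q) with hQ₁
  set N := Q.filter (fun q : ℕ => ¬ Real.log q / 2 ≤ Wt Q q) with hN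
  set C := Q.filter (fun P : ℕ => ∃ q ∈ N, P ≠ q ∧ Rel q P) with hC
  have hlog : ∀ q : ℕ, 0 ≤ Real.log q := fun q => Real.log_natCast_nonneg q
  refine ⟨Q \ (Q₁ ∪ C), sdiff_subset, ?_, ?_⟩
  · intro p hp P hP hne hrel
    rw [mem_sdiff, mem_union, not_or] at hp hP
    apply hP.2.2
    rw [hC, mem_filter]
    refine ⟨hP.1, p, ?_, hne.symm, hrel⟩
    rw [hN, mem_filter]
    refine ⟨hp.1, fun h => hp.2.1 ?_⟩
    rw [hQ₁, mem_filter]
    exact ⟨hp.1, h⟩
  · have hsub : Q₁ ∪ C ⊆ Q := union_subset (filter_subset _ _) (filter_subset _ _)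
    have h1 := sum_sdiff hsub (f := fun q : ℕ => Real.log q)
    have h2 : ∑ q ∈ Q₁ ∪ C, Real.log q ≤ ∑ q ∈ Q₁, Real.log q + ∑ q ∈ C, Real.log q := by
      rw [← sum_union_inter (s₁ := Q₁) (s₂ := C)]
      linarith [sum_nonneg (s := Q₁ ∩ C) (f := fun q : ℕ => Real.log q) fun q _ => hlog q]
    have h3 : ∑ q ∈ Q₁, Real.log q ≤ 2 * ∑ q ∈ Q₁, mW Q q := by
      rw [mul_sum]
      refine sum_le_sum fun q hq => ?_
      rw [hQ₁, mem_filter] at hq
      unfold mW
      rw [min_eq_right hq.2]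
      linarith
    have h4 : ∑ P ∈ C, Real.log P ≤ ∑ q ∈ N, mW Q q := by
      calc ∑ P ∈ C, Real.log P ≤ ∑ P ∈ C, ∑ q ∈ N, (if P ≠ q ∧ Rel q P then Real.log P else 0) := by
            refine sum_le_sum fun P hP => ?_
            rw [hC, mem_filter] at hP
            obtain ⟨q, hq, hPq⟩ := hP.2
            have h5 := single_le_sum (f := fun q : ℕ => if P ≠ q ∧ Rel q P then Real.log P else 0)
              (fun q _ => by
                show (0:ℝ) ≤ if P ≠ q ∧ Rel q P then Real.log P else 0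
                split_ifs
                · exact hlog P
                · exact le_rfl) hq
            rw [if_pos hPq] at h5
            exact h5
        _ ≤ ∑ P ∈ Q, ∑ q ∈ N, (if P ≠ q ∧ Rel q P then Real.log P else 0) := by
            refine sum_le_sum_of_subset_of_nonneg (filter_subset _ _) fun P _ _ => ?_
            refine sum_nonneg fun q _ => ?_
            split_ifs
            · exact hlog P
            · exact le_rfl
        _ = ∑ q ∈ N, Wt Q q := by
            rw [sum_comm]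
            refine sum_congr rfl fun q _ => ?_
            unfold Wt
            rw [sum_filter]
        _ = ∑ q ∈ N, mW Q q := by
            refine sum_congr rfl fun q hq => ?_
            rw [hN, mem_filter] at hq
            unfold mW
            rw [min_eq_left]
            push Not at hq
            exact hq.2.le
    have h6 : ∑ q ∈ Q, mW Q q = ∑ q ∈ Q₁, mW Q q + ∑ q ∈ N, mW Q q :=
      (sum_filter_add_sum_filter_not Q _ _).symm
    have h7 : 0 ≤ ∑ q ∈ N, mW Q q := sum_nonneg fun q _ => mW_nonneg Q q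
    linarith

end P033
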