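import Vale.Agent.P033.Good

/-!
# P033B, module GOODPAIR
-/

namespace P033

theorem gp_not_dvd_totient {P M : ℕ} (hP : P.Prime) (hM : ¬ P ∣ M)
    (h : ∀ r, r.Prime → r ∣ M → ¬ P ∣ r - 1) : ¬ P ∣ Nat.totient M := by
  intro hd
  rw [Nat.totient_eq_div_primeFactors_mul] at hd
  rcases hP.dvd_mul.mp hd with h1 | h1
  · exact hM (h1.trans (Nat.div_dvd_of_dvd (Nat.prod_primeFactors_dvd M)))
  · obtain ⟨r, hr, h2⟩ := (hP.prime.dvd_finsetProd_iff _).mp h1
    exact h r (Nat.prime_of_mem_primeFactors hr) (Nat.dvd_of_mem_primeFactors hr) h2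

/-- `1 + N / P` is a power of `p` modulo the prime-to-`p` part of `N`
(compare `good_of_not_wief` in `Vale/Agent/P033/Good.lean`, whose proof adapts).
Write `ordCompl[p] N = P ^ 2 * M`, `P ∤ M`, `E = φ(M) (P - 1)`, `P ∤ φ(M)` by `h1`;
`p ^ E ≡ 1 mod M`, `p ^ (P - 1) = 1 + c P`, `P ∤ c`, `p ^ (E j) ≡ 1 + j φ(M) c P mod P ^ 2`. -/
theorem good_pair {N P p : ℕ} (hN : 0 < N) (hP : P.Prime) (hP2 : P ^ 2 ∣ N) (hP3 : ¬ P ^ 3 ∣ N)
    (hp : p.Prime) (hpP : p ≠ P) (h1 : ∀ r ∈ N.primeFactors, r ≠ P → ¬ P ∣ r - 1)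
    (h2 : p ^ (P - 1) % P ^ 2 ≠ 1) :
    ∃ k, 1 + N / P ≡ p ^ k [MOD ordCompl[p] N] := by
  obtain ⟨m, rfl⟩ := hP2
  have hm0 : m ≠ 0 := by rintro rfl; simp at hN
  have hnP : P ^ 2 * m / P = P * m := by
    rw [pow_two, mul_assoc, Nat.mul_div_cancel_left _ hP.pos]
  have hPm : ¬ P ∣ m := by
    rintro ⟨s, rfl⟩
    exact hP3 ⟨s, by ring⟩
  set M : ℕ := ordCompl[p] m with hM
  have hM0 : M ≠ 0 := (Nat.ordCompl_pos p hm0).ne'
  have hMm : M ∣ m := Nat.ordCompl_dvd m p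
  have hord : ordCompl[p] (P ^ 2 * m) = P ^ 2 * M := by
    rw [Nat.ordCompl_mul]
    congr 1
    have h1 : ¬ p ∣ P ^ 2 := fun h =>
      hpP ((Nat.prime_dvd_prime_iff_eq hp hP).mp (hp.dvd_of_dvd_pow h))
    rw [Nat.factorization_eq_zero_of_not_dvd h1, pow_zero, Nat.div_one]
  have hqM : Nat.Coprime p M := Nat.coprime_ordCompl hp hm0
  have hPM : Nat.Coprime (P ^ 2) M :=
    Nat.Coprime.pow_left 2 ((Nat.Prime.coprime_iff_not_dvd hP).mpr fun h => hPm (h.trans hMm))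
  have hphi : ¬ P ∣ Nat.totient M := by
    apply gp_not_dvd_totient hP (fun h => hPm (h.trans hMm))
    intro r hr hrM
    have h3 : r ∣ m := hrM.trans hMm
    refine h1 r ?_ ?_
    · rw [Nat.mem_primeFactors]
      exact ⟨hr, h3.mul_left _, hN.ne'⟩
    · rintro rfl; exact hPm h3
  -- Fermat
  have hqPc : Nat.Coprime p P := (Nat.coprime_primes hp hP).mpr hpP
  have hF : p ^ (P - 1) ≡ 1 [MOD P] := by
    have := Nat.ModEq.pow_totient hqPc
    rwa [Nat.totient_prime hP] at this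
  have hpos : 1 ≤ p ^ (P - 1) := Nat.one_le_pow _ _ hp.pos
  obtain ⟨c, hc⟩ := (Nat.modEq_iff_dvd' hpos).mp hF.symm
  have hc' : p ^ (P - 1) = 1 + P * c := by omega
  have hP4 : 1 < P ^ 2 := Nat.one_lt_pow two_ne_zero hP.one_lt
  have hPc : ¬ P ∣ c := by
    rintro ⟨d, rfl⟩
    apply h2
    rw [hc']
    have : 1 + P * (P * d) = 1 + P ^ 2 * d := by ring
    rw [this, Nat.add_mul_mod_self_left, Nat.mod_eq_of_lt hP4]
  -- solve for the exponent
  have := Fact.mk hP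
  have hne : ((Nat.totient M * c : ℕ) : ZMod P) ≠ 0 := by
    rw [Ne, ZMod.natCast_eq_zero_iff]
    intro h
    rcases hP.dvd_mul.mp h with h1 | h1
    · exact hphi h1
    · exact hPc h1
  set k' : ℕ := ((m : ZMod P) * ((Nat.totient M * c : ℕ) : ZMod P)⁻¹).val with hk'
  have hk : Nat.totient M * k' * c ≡ m [MOD P] := by
    rw [← ZMod.natCast_eq_natCast_iff]
    have e1 : ((Nat.totient M * k' * c : ℕ) : ZMod P) =
        ((Nat.totient M * c : ℕ) : ZMod P) * (k' : ZMod P) := by push_cast; ring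
    rw [e1, hk', ZMod.natCast_val, ZMod.cast_id', id, mul_comm, mul_assoc, inv_mul_cancel₀ hne,
      mul_one]
  refine ⟨(P - 1) * (Nat.totient M * k'), ?_⟩
  rw [hord, hnP, ← Nat.modEq_and_modEq_iff_modEq_mul hPM]
  constructor
  · rw [pow_mul, hc']
    have h1 : (1 + P * c) ^ (Nat.totient M * k') ≡ 1 + P * (Nat.totient M * k' * c) [MOD P ^ 2] := by
      rw [← ZMod.natCast_eq_natCast_iff]
      have he : ((P : ℕ) : ZMod (P ^ 2)) ^ 2 = 0 := by
        rw [← Nat.cast_pow, ZMod.natCast_self]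
      have := good_one_add_pow he (c : ZMod (P ^ 2)) (Nat.totient M * k')
      push_cast at this ⊢
      rw [mul_comm (P : ZMod (P ^ 2)) (c : ZMod (P ^ 2)), this]
      ring
    have h2 : P * (Nat.totient M * k' * c) ≡ P * m [MOD P ^ 2] := by
      rw [pow_two]
      exact Nat.ModEq.mul_left' P hk
    exact ((h1.trans (Nat.ModEq.add_left 1 h2))).symm
  · have h1 : p ^ ((P - 1) * (Nat.totient M * k')) ≡ 1 [MOD M] := by
      have e : (P - 1) * (Nat.totient M * k') = Nat.totient M * ((P - 1) * k') := by ring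
      rw [e, pow_mul]
      have := (Nat.ModEq.pow_totient hqM).pow ((P - 1) * k')
      rwa [one_pow] at this
    have h2 : 1 + P * m ≡ 1 [MOD M] := by
      have : P * m ≡ 0 [MOD M] := (Nat.modEq_zero_iff_dvd).mpr (hMm.mul_left P)
      simpa using Nat.ModEq.add_left 1 this
    exact h2.trans h1.symm

end P033
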