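import Vale.Agent.P033B.ThmD
import Vale.Agent.P033B.GoodPair

/-!
# P033B, module CRIT2: the general criterion in arithmetic form
-/

namespace P033

/-- `P` odd, `P ^ 2 ∣ N`, no prime factor of `N` is `≡ 1 mod P`, `q ^ (P - 1) ≢ 1 mod P ^ 2`:
then `1 + N / P` is a power of `q` modulo the prime-to-`q` part of `N`. -/
theorem good_pair_gen {N P q : ℕ} (hN : 0 < N) (hP : P.Prime) (hPodd : Odd P) (hP2 : P ^ 2 ∣ N)
    (hq : q.Prime) (hqP : q ≠ P) (h1 : ∀ r ∈ N.primeFactors, r ≠ P → ¬ P ∣ r - 1)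
    (h2 : q ^ (P - 1) % P ^ 2 ≠ 1) :
    ∃ k, 1 + N / P ≡ q ^ k [MOD ordCompl[q] N] := by
  have hPf : Fact P.Prime := ⟨hP⟩
  -- N = P ^ (b + 2) * m with P ∤ m
  obtain ⟨a, m, hPm, hNm⟩ := Nat.exists_eq_pow_mul_and_not_dvd hN.ne' P hP.ne_one
  have ha2 : 2 ≤ a := by
    by_contra hcon
    have hcop : (P ^ 2).Coprime m :=
      Nat.Coprime.pow_left 2 ((Nat.Prime.coprime_iff_not_dvd hP).mpr hPm)
    rw [hNm] at hP2
    have h3 := hcop.dvd_of_dvd_mul_right hP2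
    have h4 := (Nat.pow_dvd_pow_iff_le_right hP.one_lt).1 h3
    omega
  obtain ⟨b, rfl⟩ : ∃ b, a = b + 2 := ⟨a - 2, by omega⟩
  have hm0 : m ≠ 0 := by rintro rfl; simp at hPm
  have hnP : N / P = P ^ (b + 1) * m := by
    rw [hNm, pow_succ, mul_assoc, mul_comm P m, ← mul_assoc, Nat.mul_div_cancel _ hP.pos]
  obtain ⟨M, hM⟩ : ∃ M, M = ordCompl[q] m := ⟨_, rfl⟩
  have hM0 : M ≠ 0 := by rw [hM]; exact (Nat.ordCompl_pos q hm0).ne'
  have hMm : M ∣ m := by rw [hM]; exact Nat.ordCompl_dvd m q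
  have hord : ordCompl[q] N = P ^ (b + 2) * M := by
    rw [hNm, Nat.ordCompl_mul, hM]
    congr 1
    have h1 : ¬ q ∣ P ^ (b + 2) := fun h =>
      hqP ((Nat.prime_dvd_prime_iff_eq hq hP).mp (hq.dvd_of_dvd_pow h))
    rw [Nat.factorization_eq_zero_of_not_dvd h1, pow_zero, Nat.div_one]
  have hqM : Nat.Coprime q M := by rw [hM]; exact Nat.coprime_ordCompl hq hm0
  have hPM1 : ¬ P ∣ M := fun h => hPm (h.trans hMm)
  have hPM : Nat.Coprime (P ^ (b + 2)) M :=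
    Nat.Coprime.pow_left _ ((Nat.Prime.coprime_iff_not_dvd hP).mpr hPM1)
  have hphi : ¬ P ∣ Nat.totient M := by
    apply gp_not_dvd_totient hP hPM1
    intro r hr hrM
    have h3 : r ∣ m := hrM.trans hMm
    refine h1 r ?_ ?_
    · rw [Nat.mem_primeFactors]
      exact ⟨hr, by rw [hNm]; exact h3.mul_left _, hN.ne'⟩
    · rintro rfl; exact hPm h3
  have hqPc : Nat.Coprime q P := (Nat.coprime_primes hq hP).mpr hqP
  have hF : q ^ (P - 1) ≡ 1 [MOD P] := by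
    have := Nat.ModEq.pow_totient hqPc
    rwa [Nat.totient_prime hP] at this
  have hpos : 1 ≤ q ^ (P - 1) := Nat.one_le_pow _ _ hq.pos
  have hP4 : 1 < P ^ 2 := Nat.one_lt_pow two_ne_zero hP.one_lt
  have hP3 : 2 ≤ P - 1 := by
    have h5 := hP.two_le
    have h6 : P ≠ 2 := by rintro rfl; exact absurd hPodd (by decide)
    omega
  have hgt : 1 < q ^ (P - 1) := Nat.one_lt_pow (by omega) hq.one_lt
  have hdvd : P ∣ q ^ (P - 1) - 1 := (Nat.modEq_iff_dvd' hpos).mp hF.symm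
  have hv1 : padicValNat P (q ^ (P - 1) - 1) = 1 := by
    apply le_antisymm
    · by_contra hcon
      have h5 : 2 ≤ padicValNat P (q ^ (P - 1) - 1) := by omega
      have h6 : P ^ 2 ∣ q ^ (P - 1) - 1 := (pow_dvd_pow P h5).trans pow_padicValNat_dvd
      apply h2
      obtain ⟨c, hc⟩ := h6
      have h7 : q ^ (P - 1) = 1 + P ^ 2 * c := by omega
      rw [h7, Nat.add_mul_mod_self_left, Nat.mod_eq_of_lt hP4]
    · exact one_le_padicValNat_of_dvd (by omega) hdvd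
  -- lifting the exponent
  obtain ⟨E, hE⟩ : ∃ E, E = P ^ b * Nat.totient M := ⟨_, rfl⟩
  have hE0 : E ≠ 0 := by
    rw [hE]
    exact mul_ne_zero (pow_ne_zero _ hP.ne_zero) (Nat.totient_pos.2 (Nat.pos_of_ne_zero hM0)).ne'
  have hqnd : ¬ P ∣ q ^ (P - 1) := by
    intro h
    have h5 := hP.dvd_of_dvd_pow h
    exact hqP ((Nat.prime_dvd_prime_iff_eq hP hq).mp h5).symm
  have hv2 : padicValNat P ((q ^ (P - 1)) ^ E - 1) = b + 1 := by
    have h5 := padicValNat.pow_sub_pow (p := P) (x := q ^ (P - 1)) (y := 1) hPodd hgt hdvd hqnd hE0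
    rw [one_pow, hv1, hE, padicValNat.mul (pow_ne_zero _ hP.ne_zero)
      (Nat.totient_pos.2 (Nat.pos_of_ne_zero hM0)).ne', padicValNat.prime_pow,
      padicValNat.eq_zero_of_not_dvd hphi] at h5
    rw [hE, h5]
    ring
  have hg1 : 1 ≤ (q ^ (P - 1)) ^ E := Nat.one_le_pow _ _ (by omega)
  obtain ⟨c, hc⟩ : P ^ (b + 1) ∣ (q ^ (P - 1)) ^ E - 1 := by
    rw [← hv2]; exact pow_padicValNat_dvd
  have hc' : (q ^ (P - 1)) ^ E = 1 + P ^ (b + 1) * c := by omega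
  have hPc : ¬ P ∣ c := by
    rintro ⟨d, rfl⟩
    have h5 : P ^ (b + 2) ∣ (q ^ (P - 1)) ^ E - 1 := ⟨d, by rw [hc]; ring⟩
    have h6 : (q ^ (P - 1)) ^ E - 1 ≠ 0 := by
      have : 1 < (q ^ (P - 1)) ^ E := Nat.one_lt_pow hE0 hgt
      omega
    have h7 := (padicValNat_dvd_iff_le h6).1 h5
    omega
  have hne : ((c : ℕ) : ZMod P) ≠ 0 := by
    rw [Ne, ZMod.natCast_eq_zero_iff]
    exact hPc
  obtain ⟨k', hk'⟩ : ∃ k' : ℕ, k' = ((m : ZMod P) * ((c : ℕ) : ZMod P)⁻¹).val := ⟨_, rfl⟩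
  have hk : k' * c ≡ m [MOD P] := by
    rw [← ZMod.natCast_eq_natCast_iff]
    have e1 : ((k' * c : ℕ) : ZMod P) = ((c : ℕ) : ZMod P) * (k' : ZMod P) := by push_cast; ring
    rw [e1, hk', ZMod.natCast_val, ZMod.cast_id', id, mul_comm, mul_assoc, inv_mul_cancel₀ hne,
      mul_one]
  refine ⟨(P - 1) * (E * k'), ?_⟩
  rw [hord, hnP, ← Nat.modEq_and_modEq_iff_modEq_mul hPM]
  constructor
  · rw [pow_mul, pow_mul, hc']
    have h1 : (1 + P ^ (b + 1) * c) ^ k' ≡ 1 + P ^ (b + 1) * (k' * c) [MOD P ^ (b + 2)] := by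
      rw [← ZMod.natCast_eq_natCast_iff]
      have he : (((P ^ (b + 1) : ℕ)) : ZMod (P ^ (b + 2))) ^ 2 = 0 := by
        rw [← Nat.cast_pow, ZMod.natCast_eq_zero_iff, ← pow_mul]
        exact pow_dvd_pow P (by omega)
      have := good_one_add_pow he (c : ZMod (P ^ (b + 2))) k'
      push_cast at this ⊢
      rw [mul_comm ((P : ZMod (P ^ (b + 2))) ^ (b + 1)) (c : ZMod (P ^ (b + 2))), this]
      ring
    have h2 : P ^ (b + 1) * (k' * c) ≡ P ^ (b + 1) * m [MOD P ^ (b + 2)] := by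
      have h5 := Nat.ModEq.mul_left' (P ^ (b + 1)) hk
      rwa [← pow_succ] at h5
    exact ((h1.trans (Nat.ModEq.add_left 1 h2))).symm
  · have h1 : q ^ ((P - 1) * (E * k')) ≡ 1 [MOD M] := by
      have e : (P - 1) * (E * k') = Nat.totient M * ((P - 1) * P ^ b * k') := by rw [hE]; ring
      rw [e, pow_mul]
      have := (Nat.ModEq.pow_totient hqM).pow ((P - 1) * P ^ b * k')
      rwa [one_pow] at this
    have h2 : 1 + P ^ (b + 1) * m ≡ 1 [MOD M] := by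
      have : P ^ (b + 1) * m ≡ 0 [MOD M] := (Nat.modEq_zero_iff_dvd).mpr (hMm.mul_left _)
      simpa using Nat.ModEq.add_left 1 this
    exact h2.trans h1.symm

/-- The general criterion. -/
theorem criterionD {u N R D : ℕ} (hu : 0 < u) (hN1 : 1 < N) (hNn : N ∣ 4 * u ^ 2) (hDu : D ∣ u)
    (hR : Squarefree R) (hRodd : Odd R) (hRN : R ^ 2 ∣ N)
    (h1 : ∀ P ∈ R.primeFactors, ∀ r ∈ N.primeFactors, r ≠ P → ¬ P ∣ r - 1)
    (h2 : ∀ P ∈ R.primeFactors, ∀ q ∈ D.primeFactors, q ≠ P → q ^ (P - 1) % P ^ 2 ≠ 1)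
    (hperf : HasPerf (4 * u ^ 2)) :
    D ^ 4 * R * N.totient ≤ 4 ^ (R.primeFactors.card + 1) * u ^ 6 := by
  refine thmD hu hR hDu hRN hN1 hNn ?_ hperf
  intro P hP q hq hqP
  have hPp := Nat.prime_of_mem_primeFactors hP
  have hPR := Nat.dvd_of_mem_primeFactors hP
  exact good_pair_gen (by omega) hPp (hRodd.of_dvd_nat hPR) ((pow_dvd_pow_of_dvd hPR 2).trans hRN)
    (Nat.prime_of_mem_primeFactors hq) hqP (h1 P hP) (h2 P hP q hq hqP)

end P033
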