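import Mathlib

/-!
# P033B: definitions for the power saving
-/

namespace P033

open Finset

/-- The bad relation between two primes: `P ∣ q - 1` or `q ^ (P - 1) ≡ 1 mod P ^ 2`. -/
def Rel (q P : ℕ) : Prop := P ∣ q - 1 ∨ q ^ (P - 1) % P ^ 2 = 1

instance Rel.dec (q P : ℕ) : Decidable (Rel q P) := inferInstanceAs (Decidable (_ ∨ _))

/-- Total weight of the `P ∈ S`, `P ≠ q`, to which `q` is related. -/
noncomputable def Wt (S : Finset ℕ) (q : ℕ) : ℝ :=
  ∑ P ∈ S.filter (fun P => P ≠ q ∧ Rel q P), Real.log P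

/-- The truncated weight. -/
noncomputable def mW (S : Finset ℕ) (q : ℕ) : ℝ := min (Wt S q) (Real.log q / 2)

/-- The Rankin sum attached to `R`. -/
noncomputable def Sg (R z x : ℕ) : ℝ :=
  ∑ q ∈ (Ioc z x).filter (fun q => q.Prime ∧ ¬ q ∣ R),
    (Real.exp (mW R.primeFactors q / 4) - 1) / q

/-- The `z`-smooth part of `u`. -/
def sm (z u : ℕ) : ℕ := ∏ p ∈ u.primeFactors.filter (fun p => p ≤ z), p ^ u.factorization p

/-- The additive function attached to `R`. -/
noncomputable def GR (z R m : ℕ) : ℝ :=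
  ∑ q ∈ m.primeFactors.filter (fun q => z < q ∧ ¬ q ∣ R), mW R.primeFactors q

theorem Wt_nonneg (S : Finset ℕ) (q : ℕ) : 0 ≤ Wt S q :=
  sum_nonneg fun P _ => Real.log_natCast_nonneg P

theorem mW_nonneg (S : Finset ℕ) (q : ℕ) : 0 ≤ mW S q :=
  le_min (Wt_nonneg S q) (div_nonneg (Real.log_natCast_nonneg q) (by norm_num))

theorem mW_le_Wt (S : Finset ℕ) (q : ℕ) : mW S q ≤ Wt S q := min_le_left _ _

theorem mW_le_half (S : Finset ℕ) (q : ℕ) : mW S q ≤ Real.log q / 2 := min_le_right _ _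

theorem Wt_mono {S T : Finset ℕ} (h : S ⊆ T) (q : ℕ) : Wt S q ≤ Wt T q :=
  sum_le_sum_of_subset_of_nonneg (filter_subset_filter _ h)
    fun P _ _ => Real.log_natCast_nonneg P

end P033
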