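import Vale.Agent.P033B.Defs

/-!
# P033B, module QBIG
-/

namespace P033

open Finset

/-- `u = sm z u * ∏_{q > z} q ^ v_q`, `s = ∏_{q > z} q ^ (v_q / 2)`, `v_q ≤ 1 + 2 (v_q / 2)`. -/
theorem log_Q_ge {u z : ℕ} (hu : 0 < u) {a b : ℝ} (hsm : Real.log (sm z u) ≤ a)
    (hsq : ∀ s : ℕ, s ^ 2 ∣ u → Real.log s ≤ b) :
    Real.log u - a - 2 * b ≤ ∑ q ∈ u.primeFactors.filter (fun q => z < q), Real.log q := by
  set B := u.primeFactors.filter (fun q => z < q) with hB
  set s := ∏ q ∈ B, q ^ (u.factorization q / 2) with hs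
  have hfac : u = sm z u * ∏ q ∈ B, q ^ u.factorization q := by
    unfold sm
    have h1 : B = u.primeFactors.filter (fun q => ¬ q ≤ z) := by
      rw [hB]
      refine filter_congr fun q _ => ?_
      exact not_le.symm
    rw [h1, prod_filter_mul_prod_filter_not]
    exact (Nat.prod_factorization_pow_eq_self hu.ne').symm
  have hBp : ∀ q ∈ B, q.Prime := fun q hq => Nat.prime_of_mem_primeFactors (mem_filter.1 hq).1
  have hq0 : ∀ q ∈ B, (q : ℝ) ≠ 0 := fun q hq => by exact_mod_cast (hBp q hq).ne_zero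
  have hsdvd : s ^ 2 ∣ u := by
    have h2 : s ^ 2 ∣ ∏ q ∈ B, q ^ u.factorization q := by
      rw [hs, ← prod_pow]
      refine prod_dvd_prod_of_dvd _ _ fun q _ => ?_
      rw [← pow_mul]
      exact pow_dvd_pow q (Nat.div_mul_le_self _ _)
    rw [hfac]
    exact h2.trans (dvd_mul_left _ _)
  have hls := hsq s hsdvd
  have h3 : Real.log s = ∑ q ∈ B, ((u.factorization q / 2 : ℕ) : ℝ) * Real.log q := by
    rw [hs]
    push_cast
    rw [Real.log_prod (fun q hq => pow_ne_zero _ (hq0 q hq))]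
    refine sum_congr rfl fun q _ => ?_
    rw [Real.log_pow]
  have h4 : Real.log u = Real.log (sm z u) + ∑ q ∈ B, (u.factorization q : ℝ) * Real.log q := by
    have hne : (∏ q ∈ B, (q:ℝ) ^ u.factorization q) ≠ 0 :=
      prod_ne_zero_iff.2 fun q hq => pow_ne_zero _ (hq0 q hq)
    have hsm0 : (sm z u : ℝ) ≠ 0 := by
      have h5 : sm z u ≠ 0 := by
        intro h
        rw [h, zero_mul] at hfac
        omega
      exact_mod_cast h5
    conv_lhs => rw [hfac]
    push_cast
    rw [Real.log_mul hsm0 hne, Real.log_prod (fun q hq => pow_ne_zero _ (hq0 q hq))]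
    congr 1
    refine sum_congr rfl fun q _ => ?_
    rw [Real.log_pow]
  have h5 : ∑ q ∈ B, (u.factorization q : ℝ) * Real.log q
      ≤ ∑ q ∈ B, (Real.log q + 2 * (((u.factorization q / 2 : ℕ) : ℝ) * Real.log q)) := by
    refine sum_le_sum fun q _ => ?_
    have h6 : u.factorization q ≤ 1 + 2 * (u.factorization q / 2) := by omega
    have h7 : (u.factorization q : ℝ) ≤ 1 + 2 * ((u.factorization q / 2 : ℕ) : ℝ) := by
      exact_mod_cast h6
    have h8 := mul_le_mul_of_nonneg_right h7 (Real.log_natCast_nonneg q)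
    linarith
  rw [sum_add_distrib, ← mul_sum, ← h3] at h5
  linarith

end P033
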