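import Vale.Agent.P033B.Defs

/-!
# P033B, module SPLIT
-/

namespace P033

open Finset

theorem Split.Wt_add (Q T : Finset ℕ) (q : ℕ) (hT : T ⊆ Q.erase q) :
    Wt T q + Wt (Q.erase q \ T) q = Wt Q q := by
  unfold Wt
  have h1 : Q.filter (fun P => P ≠ q ∧ Rel q P) =
      T.filter (fun P => P ≠ q ∧ Rel q P) ∪ (Q.erase q \ T).filter (fun P => P ≠ q ∧ Rel q P) := by
    ext P
    simp only [mem_filter, mem_union, mem_sdiff, mem_erase]
    constructor
    · rintro ⟨hP, hq, hr⟩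
      by_cases h : P ∈ T
      · exact Or.inl ⟨h, hq, hr⟩
      · exact Or.inr ⟨⟨⟨hq, hP⟩, h⟩, hq, hr⟩
    · rintro (⟨hP, hq, hr⟩ | ⟨⟨⟨_, hP⟩, _⟩, hq, hr⟩)
      · exact ⟨(mem_erase.1 (hT hP)).2, hq, hr⟩
      · exact ⟨hP, hq, hr⟩
  have h2 : Disjoint (T.filter (fun P => P ≠ q ∧ Rel q P))
      ((Q.erase q \ T).filter (fun P => P ≠ q ∧ Rel q P)) := by
    rw [Finset.disjoint_left]
    intro P h3 h4
    simp only [mem_filter, mem_sdiff] at h3 h4
    exact h4.1.2 h3.1
  rw [h1, sum_union h2]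

theorem Split.pair (Q T : Finset ℕ) (q : ℕ) (hT : T ⊆ Q.erase q) :
    mW Q q ≤ mW T q + mW (Q.erase q \ T) q := by
  have h := Split.Wt_add Q T q hT
  have h1 := Wt_nonneg T q
  have h2 := Wt_nonneg (Q.erase q \ T) q
  have h3 : 0 ≤ Real.log q / 2 := div_nonneg (Real.log_natCast_nonneg q) (by norm_num)
  unfold mW
  rcases le_total (Wt T q) (Real.log q / 2) with h4 | h4 <;>
    rcases le_total (Wt (Q.erase q \ T) q) (Real.log q / 2) with h5 | h5
  · rw [min_eq_left h4, min_eq_left h5, h]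
    exact min_le_left _ _
  · rw [min_eq_left h4, min_eq_right h5]
    have := min_le_right (Wt Q q) (Real.log q / 2)
    linarith
  · rw [min_eq_right h4, min_eq_left h5]
    have := min_le_right (Wt Q q) (Real.log q / 2)
    linarith
  · rw [min_eq_right h4, min_eq_right h5]
    have := min_le_right (Wt Q q) (Real.log q / 2)
    linarith

theorem Split.sum_pow (Q : Finset ℕ) (q : ℕ) :
    2 ^ (Q.erase q).card * mW Q q ≤ 2 * ∑ T ∈ (Q.erase q).powerset, mW T q := by
  have h1 : ∑ T ∈ (Q.erase q).powerset, mW (Q.erase q \ T) q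
      = ∑ T ∈ (Q.erase q).powerset, mW T q := by
    refine sum_nbij' (fun T => Q.erase q \ T) (fun T => Q.erase q \ T) ?_ ?_ ?_ ?_ ?_
    · intro T _
      exact mem_powerset.2 sdiff_subset
    · intro T _
      exact mem_powerset.2 sdiff_subset
    · intro T hT
      exact Finset.sdiff_sdiff_eq_self (mem_powerset.1 hT)
    · intro T hT
      exact Finset.sdiff_sdiff_eq_self (mem_powerset.1 hT)
    · intro T _
      rfl
  have h2 : ∑ T ∈ (Q.erase q).powerset, mW Q q
      ≤ ∑ T ∈ (Q.erase q).powerset, (mW T q + mW (Q.erase q \ T) q) :=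
    sum_le_sum fun T hT => Split.pair Q T q (mem_powerset.1 hT)
  rw [sum_add_distrib, h1, sum_const, card_powerset, nsmul_eq_mul] at h2
  push_cast at h2
  linarith

/-- A random subset `T` of `Q`: for fixed `q ∈ Q` the sets `T ⊆ Q.erase q` come in complementary
pairs `T, T'` with `Wt T q + Wt T' q = Wt Q q`, so `mW T q + mW T' q ≥ mW Q q`. -/
theorem split (Q : Finset ℕ) : ∃ T ⊆ Q,
    (1 / 4) * ∑ q ∈ Q, mW Q q ≤ ∑ q ∈ Q \ T, mW T q := by
  have hswap : ∑ T ∈ Q.powerset, ∑ q ∈ Q \ T, mW T q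
      = ∑ q ∈ Q, ∑ T ∈ (Q.erase q).powerset, mW T q := by
    have h1 : ∀ T ∈ Q.powerset, ∑ q ∈ Q \ T, mW T q
        = ∑ q ∈ Q, (if T ∈ (Q.erase q).powerset then mW T q else 0) := by
      intro T hT
      rw [← sum_filter]
      refine sum_congr ?_ fun _ _ => rfl
      ext q
      simp only [mem_sdiff, mem_filter, mem_powerset]
      constructor
      · rintro ⟨h1, h2⟩
        refine ⟨h1, fun P hP => mem_erase.2 ⟨?_, mem_powerset.1 hT hP⟩⟩
        rintro rfl
        exact h2 hP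
      · rintro ⟨h1, h2⟩
        exact ⟨h1, fun h => (mem_erase.1 (h2 h)).1 rfl⟩
    rw [sum_congr rfl h1, sum_comm]
    refine sum_congr rfl fun q _ => ?_
    rw [← sum_filter]
    refine sum_congr ?_ fun _ _ => rfl
    ext T
    simp only [mem_filter, mem_powerset]
    exact ⟨fun h => h.2, fun h => ⟨h.trans (erase_subset _ _), h⟩⟩
  have hsum : ∑ T ∈ Q.powerset, ((1 / 4) * ∑ q ∈ Q, mW Q q)
      ≤ ∑ T ∈ Q.powerset, ∑ q ∈ Q \ T, mW T q := by
    rw [hswap, sum_const, card_powerset, nsmul_eq_mul, ← mul_assoc, mul_sum]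
    refine sum_le_sum fun q hq => ?_
    have h1 := Split.sum_pow Q q
    have h2 : (2:ℝ) ^ Q.card = 2 * 2 ^ (Q.erase q).card := by
      rw [← card_erase_add_one hq, pow_succ]
      ring
    push_cast
    rw [h2]
    linarith
  obtain ⟨T, hT, h⟩ := exists_le_of_sum_le ⟨∅, empty_mem_powerset Q⟩ hsum
  exact ⟨T, mem_powerset.1 hT, h⟩

end P033
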