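import Vale.Agent.P033B.ThmBF
import Vale.Agent.P033B.Cover
import Vale.Agent.P033B.Split
import Vale.Agent.P033B.QBig

/-!
# P033B, module DET2
-/

namespace P033

open Finset

theorem Det2.sqf_prod {T : Finset ℕ} (hT : ∀ p ∈ T, p.Prime) : Squarefree (∏ p ∈ T, p) := by
  induction T using Finset.induction_on with
  | empty => simp
  | insert a s ha ih =>
    rw [prod_insert ha]
    have ha' := hT a (mem_insert_self a s)
    have hs' := ih (fun p hp => hT p (mem_insert_of_mem hp))
    have hcop : a.Coprime (∏ p ∈ s, p) := by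
      rw [Nat.coprime_prod_right_iff]
      intro p hp
      exact (Nat.coprime_primes ha' (hT p (mem_insert_of_mem hp))).2 (fun h => ha (h ▸ hp))
    exact (Nat.squarefree_mul hcop).2 ⟨ha'.squarefree, hs'⟩

theorem Det2.le_two_pow_totient {R : ℕ} (hR : 0 < R) :
    R ≤ 2 ^ R.primeFactors.card * R.totient := by
  have h1 := Nat.totient_mul_prod_primeFactors R
  have h2 : ∏ p ∈ R.primeFactors, p ≤ 2 ^ R.primeFactors.card * ∏ p ∈ R.primeFactors, (p - 1) := by
    rw [← prod_const, ← prod_mul_distrib]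
    apply prod_le_prod'
    intro p hp
    have := (Nat.prime_of_mem_primeFactors hp).two_le
    omega
  have h3 : 0 < ∏ p ∈ R.primeFactors, p :=
    prod_pos fun p hp => (Nat.prime_of_mem_primeFactors hp).pos
  refine Nat.le_of_mul_le_mul_right ?_ h3
  calc R * ∏ p ∈ R.primeFactors, p
      ≤ R * (2 ^ R.primeFactors.card * ∏ p ∈ R.primeFactors, (p - 1)) := Nat.mul_le_mul_left _ h2
    _ = 2 ^ R.primeFactors.card * (R * ∏ p ∈ R.primeFactors, (p - 1)) := by ring
    _ = 2 ^ R.primeFactors.card * (R.totient * ∏ p ∈ R.primeFactors, p) := by rw [h1]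
    _ = _ := by ring

/-- Theorem B in logarithmic form: `7 log R ≤ 6 log u + (ω(R) + 1) log 8`, `ω(R) log z ≤ log R`. -/
theorem thmB_log {u R z : ℕ} (hu : 0 < u) (hR : Squarefree R) (hR1 : 1 < R) (hRu : R ∣ u)
    (hrel : ∀ p ∈ R.primeFactors, ∀ P ∈ R.primeFactors, p ≠ P → ¬ Rel p P)
    (hz : 2 ≤ z) (hRz : ∀ P ∈ R.primeFactors, z < P) (hperf : HasPerf (4 * u ^ 2)) :
    7 * Real.log R ≤ 6 * Real.log u + (Real.log R / Real.log z + 1) * Real.log 8 := by
  obtain ⟨w, hw⟩ : ∃ w, w = R.primeFactors.card := ⟨_, rfl⟩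
  have h := thmB_rel hu hR hR1 hRu hrel hperf
  have h2 := Det2.le_two_pow_totient (show 0 < R by omega)
  rw [← hw] at h h2
  have h3 : R ^ 7 ≤ 8 ^ (w + 1) * u ^ 6 := by
    calc R ^ 7 = R ^ 6 * R := by ring
      _ ≤ R ^ 6 * (2 ^ w * R.totient) := Nat.mul_le_mul_left _ h2
      _ = 2 ^ w * (R ^ 6 * R.totient) := by ring
      _ ≤ 2 ^ w * (4 ^ (w + 1) * u ^ 6) := Nat.mul_le_mul_left _ h
      _ ≤ 2 ^ (w + 1) * (4 ^ (w + 1) * u ^ 6) :=
          Nat.mul_le_mul_right _ (Nat.pow_le_pow_right (by norm_num) (by omega))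
      _ = 8 ^ (w + 1) * u ^ 6 := by
          rw [← mul_assoc, ← mul_pow]; norm_num
  have hRr : (0 : ℝ) < R := by exact_mod_cast (show 0 < R by omega)
  have hur : (0 : ℝ) < u := by exact_mod_cast hu
  have h4 : (R : ℝ) ^ 7 ≤ 8 ^ (w + 1) * (u : ℝ) ^ 6 := by exact_mod_cast h3
  have h5 := Real.log_le_log (by positivity) h4
  rw [Real.log_mul (by positivity) (by positivity), Real.log_pow, Real.log_pow, Real.log_pow] at h5
  push_cast at h5
  have hzr : (1 : ℝ) < z := by exact_mod_cast (show 1 < z by omega)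
  have hlz : 0 < Real.log z := Real.log_pos hzr
  have h6 : (w : ℝ) ≤ Real.log R / Real.log z := by
    rw [le_div_iff₀ hlz]
    have h7 : z ^ w ≤ R := by
      calc z ^ w ≤ ∏ p ∈ R.primeFactors, p := by
            rw [hw, ← prod_const]
            exact prod_le_prod' fun p hp => (hRz p hp).le
        _ = R := Nat.prod_primeFactors_of_squarefree hR
    have h8 : (z : ℝ) ^ w ≤ R := by exact_mod_cast h7
    have h9 := Real.log_le_log (by positivity) h8
    rwa [Real.log_pow] at h9
  have h10 : 0 ≤ Real.log 8 := Real.log_nonneg (by norm_num)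
  have h11 := mul_le_mul_of_nonneg_right (add_le_add_left h6 1) h10
  linarith

/-- `Q = {q ∣ u : q > z}` has `∑ log q ≥ 0.93 log x` (`log_Q_ge`).  If
`∑_{q ∈ Q} mW Q q ≥ log x / 30`, `split` gives `T`, `R = ∏ T` and a contradiction to `h3`
(`(∏ T).primeFactors = T`; the `q ∈ Q \ T` divide `u / R`).  Otherwise `cover` gives `T`, `R = ∏ T`,
`log R ≥ 0.863 log x`, a contradiction to `thmB_log`. -/
theorem det2 {x u z : ℕ} (hu : 0 < u) (hux : u ≤ x) (hL : 200 ≤ Real.log x)
    (hz : (Real.log x) ^ 40 ≤ z) (h0 : (1 - 1 / 900) * Real.log x ≤ Real.log u)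
    (h1 : Real.log (sm z u) ≤ Real.log x / 15)
    (h2 : ∀ s : ℕ, s ^ 2 ∣ u → Real.log s ≤ Real.log x / 900)
    (h3 : ∀ R, R ∣ u → Squarefree R → (∀ P ∈ R.primeFactors, z < P) →
      GR z R (u / R) < Real.log x / 120) : ¬ HasPerf (4 * u ^ 2) := by
  intro hperf
  obtain ⟨L, hLdef⟩ : ∃ L, L = Real.log x := ⟨_, rfl⟩
  rw [← hLdef] at hL hz h0 h1 h2 h3
  have hLz : 5 ≤ Real.log L := by
    rw [Real.le_log_iff_exp_le (by linarith)]
    have h4 : Real.exp 5 = Real.exp 1 ^ 5 := by
      rw [← Real.exp_nat_mul]; norm_num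
    have h5 := Real.exp_one_lt_d9
    have h6 : Real.exp 1 ^ 5 ≤ 2.7182818286 ^ 5 :=
      pow_le_pow_left₀ (Real.exp_pos 1).le h5.le 5
    rw [h4]
    have h7 : (2.7182818286 : ℝ) ^ 5 ≤ 200 := by norm_num
    linarith
  have hL40 : (2 : ℝ) ≤ L ^ 40 := by
    calc (2 : ℝ) ≤ 200 ^ 40 := by norm_num
      _ ≤ L ^ 40 := pow_le_pow_left₀ (by norm_num) hL 40
  have hz2 : 2 ≤ z := by
    have : (2 : ℝ) ≤ z := hL40.trans hz
    exact_mod_cast this
  have hlz : 200 ≤ Real.log z := by
    have h4 := Real.log_le_log (by positivity) hz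
    rw [Real.log_pow] at h4
    push_cast at h4
    linarith
  obtain ⟨Q, hQdef⟩ : ∃ Q, Q = u.primeFactors.filter (fun q => z < q) := ⟨_, rfl⟩
  have hQ := log_Q_ge hu h1 h2
  rw [← hQdef] at hQ
  have hQp : ∀ q ∈ Q, q.Prime := by
    intro q hq
    rw [hQdef, mem_filter] at hq
    exact Nat.prime_of_mem_primeFactors hq.1
  have hQz : ∀ q ∈ Q, z < q := by
    intro q hq
    rw [hQdef, mem_filter] at hq
    exact hq.2
  have hQu : ∀ q ∈ Q, q ∣ u := by
    intro q hq
    rw [hQdef, mem_filter] at hq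
    exact Nat.dvd_of_mem_primeFactors hq.1
  have hprod : ∀ T ⊆ Q, (∏ p ∈ T, p) ∣ u ∧ Squarefree (∏ p ∈ T, p) ∧
      (∏ p ∈ T, p).primeFactors = T := by
    intro T hT
    refine ⟨?_, Det2.sqf_prod fun p hp => hQp p (hT hp), Nat.primeFactors_prod
      fun p hp => hQp p (hT hp)⟩
    have h4 : T ⊆ u.primeFactors := by
      intro p hp
      have := hT hp
      rw [hQdef] at this
      exact (mem_filter.1 this).1
    exact (prod_dvd_prod_of_subset _ _ _ h4).trans (Nat.prod_primeFactors_dvd u)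
  by_cases hc : L / 30 ≤ ∑ q ∈ Q, mW Q q
  · obtain ⟨T, hT, hTs⟩ := split Q
    obtain ⟨hR1, hR2, hR3⟩ := hprod T hT
    obtain ⟨R, hRdef⟩ : ∃ R, R = ∏ p ∈ T, p := ⟨_, rfl⟩
    rw [← hRdef] at hR1 hR2 hR3
    have h4 := h3 R hR1 hR2 (by rw [hR3]; exact fun P hP => hQz P (hT hP))
    have h5 : ∑ q ∈ Q \ T, mW T q ≤ GR z R (u / R) := by
      unfold GR
      rw [hR3]
      apply sum_le_sum_of_subset_of_nonneg
      · intro q hq
        rw [mem_sdiff] at hq
        have hqp := hQp q hq.1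
        have hqR : ¬ q ∣ R := by
          intro hd
          have : q ∈ R.primeFactors := Nat.mem_primeFactors.2 ⟨hqp, hd, hR2.ne_zero⟩
          rw [hR3] at this
          exact hq.2 this
        rw [mem_filter, Nat.mem_primeFactors]
        have h6 : u = R * (u / R) := (Nat.mul_div_cancel' hR1).symm
        have h7 : q ∣ R * (u / R) := by rw [← h6]; exact hQu q hq.1
        refine ⟨⟨hqp, (hqp.dvd_mul.1 h7).resolve_left hqR, ?_⟩, hQz q hq.1, hqR⟩
        intro h8
        rw [h8, mul_zero] at h6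
        omega
      · intro q _ _
        exact mW_nonneg T q
    linarith
  · obtain ⟨T, hT, hTrel, hTs⟩ := cover Q
    obtain ⟨hR1, hR2, hR3⟩ := hprod T hT
    obtain ⟨R, hRdef⟩ : ∃ R, R = ∏ p ∈ T, p := ⟨_, rfl⟩
    rw [← hRdef] at hR1 hR2 hR3
    have hlogR : Real.log R = ∑ q ∈ T, Real.log q := by
      rw [hRdef]
      push_cast
      rw [Real.log_prod]
      intro p hp
      have := (hQp p (hT hp)).pos
      positivity
    have h4 : L * (863 / 1000) ≤ Real.log R := by
      rw [hlogR]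
      push Not at hc
      linarith
    have hRne : R ≠ 0 := hR2.ne_zero
    have hR1' : 1 < R := by
      by_contra hcon
      have : R = 1 := by omega
      rw [this] at h4
      norm_num at h4
      linarith
    have h5 := thmB_log hu hR2 hR1' hR1 (by rw [hR3]; exact hTrel) hz2
      (by rw [hR3]; exact fun P hP => hQz P (hT hP)) hperf
    have hlu : Real.log u ≤ L := by
      rw [hLdef]
      exact Real.log_le_log (by exact_mod_cast hu) (by exact_mod_cast hux)
    have hlR : Real.log R ≤ L := by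
      refine le_trans ?_ hlu
      exact Real.log_le_log (by exact_mod_cast (show 0 < R by omega))
        (by exact_mod_cast Nat.le_of_dvd hu hR1)
    have hlR0 : 0 ≤ Real.log R := Real.log_natCast_nonneg R
    have h6 : Real.log R / Real.log z ≤ L / 200 :=
      div_le_div₀ (by linarith) hlR (by norm_num) hlz
    have h8 : Real.log 8 ≤ 2.08 := by
      have h9 : Real.log 8 = 3 * Real.log 2 := by
        rw [show (8 : ℝ) = 2 ^ 3 by norm_num, Real.log_pow]; norm_num
      have h10 := Real.log_two_lt_d9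
      rw [h9]
      linarith
    have h80 : 0 ≤ Real.log 8 := Real.log_nonneg (by norm_num)
    have h9 : (Real.log R / Real.log z + 1) * Real.log 8 ≤ (L / 200 + 1) * 2.08 :=
      mul_le_mul (by linarith) h8 h80 (by positivity)
    linarith

end P033
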