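import Vale.Agent.P033.Parseval
import Vale.Agent.P033.Field

/-!
# P033B, module EMBPAR
-/

namespace P033

open Finset

variable {N : ℕ} [NeZero N] {K : Type*} [Field K] [NumberField K]
  [IsCyclotomicExtension {N} ℚ K] {ζ : K}

/-- embeddings are determined by the image of `ζ` -/
theorem ep_emb_ext (hζ : IsPrimitiveRoot ζ N) {φ ψ : K →+* ℂ} (h : φ ζ = ψ ζ) : φ = ψ := by
  have key : RingHom.toRatAlgHom φ = RingHom.toRatAlgHom ψ := by
    apply (hζ.powerBasis ℚ).algHom_ext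
    rw [IsPrimitiveRoot.powerBasis_gen]
    exact h
  ext x
  exact DFunLike.congr_fun key x

/-- Parseval: the embeddings send `ζ` to distinct primitive `N`-th roots of unity `η ^ s`
(compare the proof of `final_ineq` in `Vale/Agent/P033/ThmAF.lean`). -/
theorem emb_parseval_le (hζ : IsPrimitiveRoot ζ N) (b : ZMod N → ℤ) {W : K}
    (hW : W = ∑ y : ZMod N, (b y : K) * ζ ^ y.val) :
    ∑ φ : K →+* ℂ, ‖φ W‖ ^ 2 ≤ N * ∑ y, (b y : ℝ) ^ 2 := by
  classical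
  obtain ⟨φ₀⟩ : Nonempty (K →+* ℂ) := inferInstance
  have hη : IsPrimitiveRoot (φ₀ ζ) N := hζ.map_of_injective φ₀.injective
  have hpars := parseval hη (fun y => (b y : ℂ))
  have hex : ∀ φ : K →+* ℂ, ∃ s : ZMod N, φ ζ = φ₀ ζ ^ s.val := by
    intro φ
    have h1 : (φ ζ) ^ N = 1 := by rw [← map_pow, hζ.pow_eq_one, map_one]
    obtain ⟨i, hi, hi'⟩ := hη.eq_pow_of_pow_eq_one h1
    exact ⟨(i : ZMod N), by rw [ZMod.val_natCast, Nat.mod_eq_of_lt hi]; exact hi'.symm⟩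
  choose s hs using hex
  have hinj : Function.Injective s := by
    intro φ ψ h
    apply ep_emb_ext hζ
    rw [hs φ, hs ψ, h]
  have hval : ∀ φ : K →+* ℂ, ‖φ W‖ ^ 2 =
      ‖∑ x : ZMod N, (b x : ℂ) * φ₀ ζ ^ ((s φ).val * x.val)‖ ^ 2 := by
    intro φ
    congr 2
    rw [hW, map_sum]
    refine sum_congr rfl fun x _ => ?_
    rw [map_mul, map_pow, hs φ, map_intCast, ← pow_mul]
  have h2 : ∑ x : ZMod N, ‖((b x : ℤ) : ℂ)‖ ^ 2 = ∑ y, (b y : ℝ) ^ 2 := by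
    refine sum_congr rfl fun y _ => ?_
    rw [Complex.norm_intCast, sq_abs]
  rw [← h2, ← hpars, sum_congr rfl fun φ _ => hval φ]
  have h3 : ∑ φ : K →+* ℂ, ‖∑ x : ZMod N, (b x : ℂ) * φ₀ ζ ^ ((s φ).val * x.val)‖ ^ 2 =
      ∑ t ∈ univ.image s, ‖∑ x : ZMod N, (b x : ℂ) * φ₀ ζ ^ (t.val * x.val)‖ ^ 2 := by
    rw [sum_image fun a _ b _ h => hinj h]
  rw [h3]
  exact sum_le_sum_of_subset_of_nonneg (subset_univ _) fun _ _ _ => by positivity

end P033
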