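import Vale.Agent.P033B.Defs

/-!
# P033B, module EXD
-/

namespace P033

open Finset

private theorem exd_log_prod (D : Finset ℕ) (hD : ∀ p ∈ D, p.Prime) :
    Real.log ((∏ p ∈ D, p : ℕ) : ℝ) = ∑ p ∈ D, Real.log p := by
  push_cast
  rw [Real.log_prod]
  intro p hp
  exact_mod_cast (hD p hp).ne_zero

private theorem exd_prod_dvd (D : Finset ℕ) (R : ℕ) (hD : ∀ p ∈ D, p.Prime) (hdv : ∀ p ∈ D, p ∣ R) :
    ∏ p ∈ D, p ∣ R :=
  Finset.prod_primes_dvd R (fun p hp => (hD p hp).prime) hdv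

private theorem exd_prod_squarefree (D : Finset ℕ) (hD : ∀ p ∈ D, p.Prime) :
    Squarefree (∏ p ∈ D, p) := by
  induction D using Finset.induction_on with
  | empty => simp
  | insert a s ha ih =>
    rw [prod_insert ha, Nat.squarefree_mul]
    · exact ⟨(hD a (mem_insert_self a s)).prime.squarefree,
        ih fun p hp => hD p (mem_insert_of_mem hp)⟩
    · rw [Nat.Coprime.eq_1]
      apply Nat.Coprime.prod_right
      intro p hp
      exact (Nat.coprime_primes (hD a (mem_insert_self a s)) (hD p (mem_insert_of_mem hp))).2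
        fun h => ha (h ▸ hp)

/-- Let `D` be the set of `P ∣ R`, `P ≠ q`, `Rel q P`, nonempty, all with `P ^ 4 ≤ q`.  If
`∏ D ≤ sqrt q` take `d = ∏ D`; otherwise a maximal product `d` of elements of `D` with `d ^ 2 ≤ q`
has `d ≥ q ^ (1/4)`. -/
theorem exists_d {R q : ℕ} (hR : 0 < R) (hq : 1 ≤ q)
    (hne : (R.primeFactors.filter (fun P => P ≠ q ∧ Rel q P)).Nonempty)
    (h4 : ∀ P ∈ R.primeFactors, P ≠ q → Rel q P → P ^ 4 ≤ q) :
    ∃ d, d ∣ R ∧ Squarefree d ∧ 1 < d ∧ d ^ 2 ≤ q ∧ (∀ P ∈ d.primeFactors, Rel q P) ∧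
      mW R.primeFactors q ≤ 2 * Real.log d := by
  classical
  set D := R.primeFactors.filter (fun P => P ≠ q ∧ Rel q P) with hDdef
  have hDp : ∀ p ∈ D, p.Prime := fun p hp => Nat.prime_of_mem_primeFactors (mem_filter.1 hp).1
  have hDR : ∀ p ∈ D, p ∣ R := fun p hp => Nat.dvd_of_mem_primeFactors (mem_filter.1 hp).1
  have hDrel : ∀ p ∈ D, Rel q p := fun p hp => (mem_filter.1 hp).2.2
  have hD4 : ∀ p ∈ D, p ^ 4 ≤ q := fun p hp =>
    h4 p (mem_filter.1 hp).1 (mem_filter.1 hp).2.1 (mem_filter.1 hp).2.2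
  obtain ⟨S, hS, hmax⟩ := exists_max_image (D.powerset.filter (fun S => (∏ p ∈ S, p) ^ 2 ≤ q))
    Finset.card ⟨∅, by simpa using hq⟩
  rw [mem_filter, mem_powerset] at hS
  have hSp : ∀ p ∈ S, p.Prime := fun p hp => hDp p (hS.1 hp)
  have hSne : S.Nonempty := by
    by_contra hcon
    rw [not_nonempty_iff_eq_empty] at hcon
    obtain ⟨P, hP⟩ := hne
    have h1 := hmax {P} (by
      rw [mem_filter, mem_powerset, singleton_subset_iff]
      refine ⟨hP, ?_⟩
      rw [prod_singleton]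
      refine le_trans ?_ (hD4 P hP)
      exact Nat.pow_le_pow_right (hDp P hP).pos (by norm_num))
    rw [hcon] at h1
    simp at h1
  have hS1 : 1 < ∏ p ∈ S, p := by
    obtain ⟨P, hP⟩ := hSne
    have h1 : P ∣ ∏ p ∈ S, p := dvd_prod_of_mem _ hP
    have h2 : 0 < ∏ p ∈ S, p := prod_pos fun p hp => (hSp p hp).pos
    exact lt_of_lt_of_le (hSp P hP).one_lt (Nat.le_of_dvd h2 h1)
  refine ⟨∏ p ∈ S, p, exd_prod_dvd S R hSp fun p hp => hDR p (hS.1 hp),
    exd_prod_squarefree S hSp, hS1, hS.2, ?_, ?_⟩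
  · intro P hP
    have h1 := Nat.dvd_of_mem_primeFactors hP
    have h2 := Nat.prime_of_mem_primeFactors hP
    rw [(h2.prime).dvd_finset_prod_iff] at h1
    obtain ⟨a, ha, hPa⟩ := h1
    rw [Nat.prime_dvd_prime_iff_eq h2 (hSp a ha)] at hPa
    rw [hPa]
    exact hDrel a (hS.1 ha)
  · by_cases hSD : S = D
    · have h1 : Wt R.primeFactors q = Real.log ((∏ p ∈ S, p : ℕ) : ℝ) := by
        rw [exd_log_prod S hSp, hSD]
        rfl
      have h2 := mW_le_Wt R.primeFactors q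
      have h3 : 0 ≤ Real.log ((∏ p ∈ S, p : ℕ) : ℝ) := Real.log_natCast_nonneg _
      linarith
    · obtain ⟨P, hPD, hPS⟩ := exists_of_ssubset (lt_of_le_of_ne hS.1 hSD)
      have h1 : ¬ (P * ∏ p ∈ S, p) ^ 2 ≤ q := by
        intro hle
        have h2 := hmax (insert P S) (by
          rw [mem_filter, mem_powerset, insert_subset_iff, prod_insert hPS]
          exact ⟨⟨hPD, hS.1⟩, hle⟩)
        rw [card_insert_of_notMem hPS] at h2
        omega
      push Not at h1
      have h2 : q < (∏ p ∈ S, p) ^ 4 := by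
        by_contra hcon
        push Not at hcon
        have h3 : ((P * ∏ p ∈ S, p) ^ 2) ^ 2 ≤ q * q := by
          calc ((P * ∏ p ∈ S, p) ^ 2) ^ 2 = P ^ 4 * (∏ p ∈ S, p) ^ 4 := by ring
            _ ≤ q * q := Nat.mul_le_mul (hD4 P hPD) hcon
        have h5 : q * q < (P * ∏ p ∈ S, p) ^ 2 * (P * ∏ p ∈ S, p) ^ 2 :=
          Nat.mul_lt_mul'' h1 h1
        nlinarith
      have h3 : Real.log q ≤ 4 * Real.log ((∏ p ∈ S, p : ℕ) : ℝ) := by
        have h5 : Real.log q ≤ Real.log (((∏ p ∈ S, p : ℕ) : ℝ) ^ 4) := by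
          apply Real.log_le_log
          · exact_mod_cast hq
          · exact_mod_cast h2.le
        rw [Real.log_pow] at h5
        exact_mod_cast h5
      have h6 := mW_le_half R.primeFactors q
      linarith

end P033
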