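import Vale.Agent.P033B.Power
import Vale.Agent.P033.Final

/-!
# P033B, module FINAL2
-/

namespace P033

open Finset

/-- `n = 4 u ^ 2 ≤ N` iff `u ≤ sqrt (N / 4)` (compare `card_le`). -/
theorem card_le' (N : ℕ) : Nat.card {n : ℕ // n ≤ N ∧ HasCirculantHadamard n} ≤
    1 + Nat.card {u : ℕ // u ∈ Icc 1 (Nat.sqrt (N / 4)) ∧ HasPerf (4 * u ^ 2)} := by
  set S : Set ℕ := {n | n ≤ N ∧ HasCirculantHadamard n} with hS
  set T : Set ℕ := {u | u ∈ Icc 1 (Nat.sqrt (N / 4)) ∧ HasPerf (4 * u ^ 2)} with hT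
  have hTf : T.Finite :=
    (Finset.finite_toSet (Icc 1 (Nat.sqrt (N / 4)))).subset fun u hu => hu.1
  have hsub : S ⊆ {1} ∪ (fun u => 4 * u ^ 2) '' T := by
    rintro n ⟨hnN, hn⟩
    by_cases h1 : n = 1
    · left; exact h1
    · right
      have h2 : 2 ≤ n := by
        have := hn.1
        omega
      have hp := hasPerf_of_circ hn
      obtain ⟨u, hu, hnu⟩ := four_sq_of_hasPerf h2 hp
      refine ⟨u, ⟨?_, ?_⟩, hnu.symm⟩
      · rw [Finset.mem_Icc]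
        refine ⟨hu, Nat.le_sqrt'.2 ?_⟩
        rw [Nat.le_div_iff_mul_le (by norm_num)]
        calc u ^ 2 * 4 = 4 * u ^ 2 := by ring
          _ ≤ N := by rw [← hnu]; exact hnN
      · rw [← hnu]; exact hp
  have h1 : S.ncard ≤ ({1} ∪ (fun u => 4 * u ^ 2) '' T).ncard :=
    Set.ncard_le_ncard hsub ((Set.finite_singleton 1).union (hTf.image _))
  have h2 : ({1} ∪ (fun u => 4 * u ^ 2) '' T).ncard ≤
      ({1} : Set ℕ).ncard + ((fun u => 4 * u ^ 2) '' T).ncard := Set.ncard_union_le _ _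
  have h3 : ((fun u => 4 * u ^ 2) '' T).ncard ≤ T.ncard := Set.ncard_image_le hTf
  have h4 : Nat.card {n : ℕ // n ≤ N ∧ HasCirculantHadamard n} = S.ncard := rfl
  have h5 : Nat.card {u : ℕ // u ∈ Icc 1 (Nat.sqrt (N / 4)) ∧ HasPerf (4 * u ^ 2)} = T.ncard := rfl
  rw [h4, h5]
  rw [Set.ncard_singleton] at h2
  omega

/-- The number of orders `n ≤ N` of circulant Hadamard matrices is at most `N ^ (1/2 - 1/2000)`
(`(sqrt N / 2) ^ (1 - 1/1000) + 1 ≤ N ^ (1/2 - 1/2000)` for large `N`). -/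
theorem main2 : ∃ N₀ : ℕ, ∀ N : ℕ, N₀ ≤ N →
    (Nat.card {n : ℕ // n ≤ N ∧ HasCirculantHadamard n} : ℝ) ≤
      (N : ℝ) ^ (1 / 2 - 1 / 2000 : ℝ) := by
  obtain ⟨x₀, hx₀⟩ := power
  refine ⟨4 * x₀ ^ 2 + 256, fun N hN => ?_⟩
  have hN256 : 256 ≤ N := by omega
  have hN1 : x₀ ^ 2 ≤ N / 4 := by
    rw [Nat.le_div_iff_mul_le (by norm_num)]; omega
  have hNR : (256 : ℝ) ≤ N := by exact_mod_cast hN256
  have hN0 : (0 : ℝ) < N := by linarith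
  have h1 := card_le' N
  have h2 := hx₀ (Nat.sqrt (N / 4)) (Nat.le_sqrt'.2 hN1)
  have h3 : ((Nat.sqrt (N / 4) : ℕ) : ℝ) ≤ (N : ℝ) ^ (1 / 2 : ℝ) / 2 := by
    have h4 : (Nat.sqrt (N / 4)) ^ 2 ≤ N / 4 := Nat.sqrt_le' _
    have h5 : ((Nat.sqrt (N / 4) : ℕ) : ℝ) ^ 2 ≤ (N : ℝ) / 4 := by
      calc ((Nat.sqrt (N / 4) : ℕ) : ℝ) ^ 2 ≤ ((N / 4 : ℕ) : ℝ) := by exact_mod_cast h4
        _ ≤ (N : ℝ) / 4 := by
            have := @Nat.cast_div_le ℝ _ _ _ N 4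
            simpa using this
    rw [← Real.sqrt_eq_rpow]
    apply le_of_sq_le_sq _ (by positivity)
    rw [div_pow, Real.sq_sqrt hN0.le]
    linarith
  have h4 : (((Nat.sqrt (N / 4) : ℕ) : ℝ)) ^ (1 - 1 / 1000 : ℝ) ≤
      3 / 4 * (N : ℝ) ^ (1 / 2 - 1 / 2000 : ℝ) := by
    have h5 : (((Nat.sqrt (N / 4) : ℕ) : ℝ)) ^ (1 - 1 / 1000 : ℝ) ≤
        ((N : ℝ) ^ (1 / 2 : ℝ) / 2) ^ (1 - 1 / 1000 : ℝ) :=
      Real.rpow_le_rpow (Nat.cast_nonneg _) h3 (by norm_num)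
    refine h5.trans ?_
    rw [div_eq_mul_inv, Real.mul_rpow (by positivity) (by norm_num), ← Real.rpow_mul hN0.le]
    have e1 : (1 / 2 : ℝ) * (1 - 1 / 1000) = 1 / 2 - 1 / 2000 := by norm_num
    rw [e1, mul_comm]
    apply mul_le_mul_of_nonneg_right _ (by positivity)
    have h6 : ((2 : ℝ)⁻¹) ^ (1 - 1 / 1000 : ℝ) ≤ ((2 : ℝ)⁻¹) ^ (1 / 2 : ℝ) :=
      Real.rpow_le_rpow_of_exponent_ge (by norm_num) (by norm_num) (by norm_num)
    refine h6.trans ?_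
    rw [← Real.sqrt_eq_rpow]
    rw [Real.sqrt_le_iff]
    norm_num
  have h5 : (1 : ℝ) ≤ 1 / 4 * (N : ℝ) ^ (1 / 2 - 1 / 2000 : ℝ) := by
    have h6 : (256 : ℝ) ^ (1 / 4 : ℝ) ≤ (N : ℝ) ^ (1 / 2 - 1 / 2000 : ℝ) :=
      (Real.rpow_le_rpow (by norm_num) hNR (by norm_num)).trans
        (Real.rpow_le_rpow_of_exponent_le (by linarith) (by norm_num))
    have h7 : (256 : ℝ) ^ (1 / 4 : ℝ) = 4 := by
      rw [show (256 : ℝ) = 4 ^ (4 : ℝ) by norm_num, ← Real.rpow_mul (by norm_num)]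
      norm_num
    rw [h7] at h6
    linarith
  calc (Nat.card {n : ℕ // n ≤ N ∧ HasCirculantHadamard n} : ℝ)
      ≤ ((1 + Nat.card {u : ℕ // u ∈ Icc 1 (Nat.sqrt (N / 4)) ∧ HasPerf (4 * u ^ 2)} : ℕ) : ℝ) := by
        exact_mod_cast h1
    _ ≤ 1 + (((Nat.sqrt (N / 4) : ℕ) : ℝ)) ^ (1 - 1 / 1000 : ℝ) := by
        push_cast
        linarith
    _ ≤ (N : ℝ) ^ (1 / 2 - 1 / 2000 : ℝ) := by linarith

end P033
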