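import Vale.Agent.P033.Grade
import Vale.Agent.P033.Field

/-!
# P033B, module GRDB
-/

namespace P033

variable {N : ℕ} [NeZero N] {K : Type*} [Field K] [NumberField K]
  [IsCyclotomicExtension {N} ℚ K] {ζ : K}

/-- The automorphism `ζ ↦ ζ ^ (1 + N / P)` for `P ^ 2 ∣ N`. -/
theorem exists_grd (hζ : IsPrimitiveRoot ζ N) {P : ℕ} (hP : P.Prime) (hPN : P ^ 2 ∣ N) :
    ∃ σ : K ≃ₐ[ℚ] K, σ ζ = ζ ^ (1 + N / P) ∧ σ ζ = ζ ^ (N / P) * ζ ∧
      Grd P σ (ζ ^ (N / P)) := by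
  have hN0 : 0 < N := NeZero.pos N
  have hPN1 : P ∣ N := (dvd_pow_self P two_ne_zero).trans hPN
  obtain ⟨m, hm⟩ := hPN
  have hP0 : 0 < P := hP.pos
  have hdiv : N / P = P * m := by
    rw [hm, pow_two, mul_assoc, Nat.mul_div_cancel_left _ hP0]
  have hNd : N ∣ (N / P) ^ 2 := by
    rw [hdiv]
    refine ⟨m, ?_⟩
    rw [hm]
    ring
  have hco : (1 + N / P).Coprime N := by
    have h1 : (1 + N / P).Coprime (N / P) := by simp
    exact Nat.Coprime.coprime_dvd_right hNd (h1.pow_right 2)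
  obtain ⟨σ, hσ⟩ := exists_aut (K := K) hζ hco
  have hσ2 : σ ζ = ζ ^ (N / P) * ζ := by
    rw [hσ, add_comm, pow_succ]
  have hfix : σ (ζ ^ (N / P)) = ζ ^ (N / P) := by
    rw [map_pow, hσ2, mul_pow, ← pow_mul, ← pow_two]
    obtain ⟨c, hc⟩ := hNd
    rw [hc, pow_mul, hζ.pow_eq_one, one_pow, one_mul]
  have hprim : IsPrimitiveRoot (ζ ^ (N / P)) P := by
    refine hζ.pow hN0 ?_
    exact (Nat.div_mul_cancel hPN1).symm
  refine ⟨σ, hσ, hσ2, ⟨hP, hprim, hfix, ?_⟩⟩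
  have hpow : ∀ i : ℕ, (σ ^ i) ζ = (ζ ^ (N / P)) ^ i * ζ := by
    intro i
    induction i with
    | zero => simp
    | succ k ih =>
      rw [pow_succ', AlgEquiv.mul_apply, ih, map_mul, map_pow, hfix, hσ2]
      ring
  apply aut_ext hζ
  rw [hpow, hprim.pow_eq_one]
  simp

end P033
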