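import Vale.Agent.P033.Grade
import Vale.Agent.P033.Frob

/-!
# P033B, module UNRAM
-/

namespace P033

open NumberField IsDedekindDomain

variable {N : ℕ} [NeZero N] {K : Type*} [Field K] [NumberField K]
  [IsCyclotomicExtension {N} ℚ K] {ζ : K}

/-- `valuation_rI_le` for the valuation on `K`. -/
theorem val_aut_le (hζ : IsPrimitiveRoot ζ N) {q : ℕ} (hq : q.Prime) {t k : ℕ}
    {τ : K ≃ₐ[ℚ] K} (hτ : τ ζ = ζ ^ t) (ht : t ≡ q ^ k [MOD ordCompl[q] N])
    (v : HeightOneSpectrum (𝓞 K)) (hv : (q : 𝓞 K) ∈ v.asIdeal) {x : K} (hx : IsIntegral ℤ x) :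
    v.valuation K (τ x) ≤ v.valuation K x := by
  obtain ⟨y, rfl⟩ : ∃ y : 𝓞 K, (algebraMap (𝓞 K) K y) = x := ⟨⟨x, hx⟩, rfl⟩
  have h1 := valuation_rI_le hζ hq hτ ht v hv y
  have e1 : τ (algebraMap (𝓞 K) K y) = algebraMap (𝓞 K) K (rI τ y) := rfl
  rw [e1, v.valuation_of_algebraMap, v.valuation_of_algebraMap]
  exact h1

omit [NeZero N] [IsCyclotomicExtension {N} ℚ K] in
/-- If `P` is a unit at `v` and `σ` does not increase the valuation of integral elements, neither
does `proj`. -/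
theorem unram_val {P : ℕ} [NeZero P] {σ : K ≃ₐ[ℚ] K} {ω : K} (G : Grd P σ ω)
    (v : HeightOneSpectrum (𝓞 K)) (hv : (P : 𝓞 K) ∉ v.asIdeal)
    (hσ : ∀ y : K, IsIntegral ℤ y → v.valuation K (σ y) ≤ v.valuation K y)
    {x : K} (hx : IsIntegral ℤ x) (l : ZMod P) :
    v.valuation K (proj P σ ω l x) ≤ v.valuation K x := by
  have hP1 : v.valuation K (P : K) = 1 := by
    have h1 : v.valuation K (algebraMap (𝓞 K) K (P : 𝓞 K)) = 1 := by
      rw [v.valuation_of_algebraMap]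
      by_contra hne
      have hlt : v.intValuation (P : 𝓞 K) < 1 := lt_of_le_of_ne (v.intValuation_le_one _) hne
      exact hv ((v.intValuation_lt_one_iff_mem _).1 hlt)
    simpa using h1
  have hω1 : v.valuation K ω = 1 := by
    have hωi : IsIntegral ℤ ω := G.prim.isIntegral G.hP.pos
    have ha : v.valuation K ω ≤ 1 := v.valuation_le_one (⟨ω, hωi⟩ : 𝓞 K)
    have hb : v.valuation K (ω ^ (P - 1)) ≤ 1 := v.valuation_le_one (⟨ω ^ (P - 1), hωi.pow _⟩ : 𝓞 K)
    have h1 : v.valuation K ω * v.valuation K (ω ^ (P - 1)) = 1 := by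
      rw [← map_mul, ← pow_succ', Nat.sub_add_cancel G.hP.one_le, G.prim.pow_eq_one, map_one]
    refine le_antisymm ha ?_
    calc (1 : _) = v.valuation K ω * v.valuation K (ω ^ (P - 1)) := h1.symm
      _ ≤ v.valuation K ω * 1 := mul_le_mul' le_rfl hb
      _ = _ := mul_one _
  have hpow : ∀ i : ℕ, IsIntegral ℤ ((σ ^ i) x) ∧ v.valuation K ((σ ^ i) x) ≤ v.valuation K x := by
    intro i
    induction i with
    | zero => exact ⟨by simpa using hx, by simp⟩
    | succ k ih =>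
      rw [pow_succ', AlgEquiv.mul_apply]
      exact ⟨map_isIntegral_int σ.toAlgHom.toRingHom ih.1, (hσ _ ih.1).trans ih.2⟩
  unfold proj
  rw [map_mul, map_inv₀, hP1, inv_one, one_mul]
  refine Valuation.map_sum_le _ fun i _ => ?_
  rw [map_mul, map_inv₀, map_pow, hω1, one_pow, inv_one, one_mul]
  exact (hpow i).2

end P033
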