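import Vale.Agent.P033B.RamC
import Vale.Agent.P033B.Unram
import Vale.Agent.P033B.GrdB

/-!
# P033B, module ITERPROJ
-/

namespace P033

open Finset NumberField IsDedekindDomain

variable {N : ℕ} [NeZero N] {K : Type*} [Field K] [NumberField K]
  [IsCyclotomicExtension {N} ℚ K] {ζ : K}

omit [NumberField K] in
theorem ip_prime_mem {R : ℕ} (hR : Squarefree R) (v : HeightOneSpectrum (𝓞 K))
    (hv : (R : 𝓞 K) ∈ v.asIdeal) : ∃ p ∈ R.primeFactors, (p : 𝓞 K) ∈ v.asIdeal := by
  have h1 : (R : 𝓞 K) = ∏ p ∈ R.primeFactors, (p : 𝓞 K) := by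
    conv_lhs => rw [← Nat.prod_primeFactors_of_squarefree hR]
    rw [Nat.cast_prod]
  rw [h1] at hv
  exact (v.isPrime.prod_mem_iff).1 hv

theorem ip_valuation_le_one (v : HeightOneSpectrum (𝓞 K)) {x : K} (hx : IsIntegral ℤ x) :
    v.valuation K x ≤ 1 :=
  v.valuation_le_one (⟨x, hx⟩ : 𝓞 K)

/-- the induction for `iter_proj` -/
theorem iter_proj_aux (hζ : IsPrimitiveRoot ζ N) {R : ℕ} (hR : Squarefree R) (hRN : R ^ 2 ∣ N)
    (hgood : ∀ P ∈ R.primeFactors, ∀ p ∈ R.primeFactors, p ≠ P →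
      ∃ k, 1 + N / P ≡ p ^ k [MOD ordCompl[p] N])
    {H : ZMod N → ℤ} {X : K} (hX : IsIntegral ℤ X) (hX0 : X ≠ 0)
    (hH : 2 * X = ∑ y : ZMod N, (H y : K) * ζ ^ y.val) (s : Finset ℕ) (hs : s ⊆ R.primeFactors) :
    ∃ (l : ℕ) (Z L : K), Z ≠ 0 ∧ L ≠ 0 ∧ IsIntegral ℤ Z ∧ IsIntegral ℤ L ∧
      2 * Z = ∑ y ∈ univ.filter (fun y : ZMod N => y.val ≡ l [MOD ∏ p ∈ s, p]), (H y : K) * ζ ^ y.val ∧
      (∀ φ : K →+* ℂ, ‖φ L‖ ≤ 2 ^ s.card) ∧
      ∀ v : HeightOneSpectrum (𝓞 K), (R : 𝓞 K) ∈ v.asIdeal →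
        v.valuation K (L * Z) ≤ v.valuation K X := by
  classical
  induction s using Finset.induction_on with
  | empty =>
    refine ⟨0, X, 1, hX0, one_ne_zero, hX, isIntegral_one, ?_, ?_, ?_⟩
    · rw [hH]
      refine sum_congr ?_ fun _ _ => rfl
      ext y
      simp [Nat.modEq_one]
    · intro φ
      simp
    · intro v _
      rw [one_mul]
  | insert P s hPs ih =>
    obtain ⟨l, Z, L, hZ0, hL0, hZi, hLi, hZ, hLn, hv⟩ := ih ((subset_insert _ _).trans hs)
    have hPR : P ∈ R.primeFactors := hs (mem_insert_self _ _)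
    have hP : P.Prime := Nat.prime_of_mem_primeFactors hPR
    have hPN : P ^ 2 ∣ N := (pow_dvd_pow_of_dvd (Nat.dvd_of_mem_primeFactors hPR) 2).trans hRN
    have hPN1 : P ∣ N := (dvd_pow_self P two_ne_zero).trans hPN
    have : NeZero P := ⟨hP.ne_zero⟩
    obtain ⟨σ, hσ1, hσ2, G⟩ := exists_grd (K := K) hζ hP hPN
    set ω := ζ ^ (N / P) with hω
    obtain ⟨j, hj⟩ := supp_nonempty G hZ0
    rw [mem_supp] at hj
    -- congruences
    have hcop : Nat.Coprime (∏ p ∈ s, p) P := by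
      refine Nat.Coprime.prod_left fun p hp => ?_
      have hp' : p.Prime := Nat.prime_of_mem_primeFactors (hs (mem_insert_of_mem hp))
      rw [Nat.coprime_primes hp' hP]
      rintro rfl
      exact hPs hp
    obtain ⟨l', hl1, hl2⟩ := Nat.chineseRemainder hcop l j.val
    have hωi : IsIntegral ℤ ω := (hζ.isIntegral (NeZero.pos N)).pow _
    have h1ω : IsIntegral ℤ (1 - ω) := isIntegral_one.sub hωi
    have h1ω0 : 1 - ω ≠ 0 := by
      intro h
      exact G.prim.ne_one hP.one_lt (sub_eq_zero.1 h).symm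
    refine ⟨l', proj P σ ω j Z, (1 - ω) * L, hj, mul_ne_zero h1ω0 hL0,
      proj_integral hζ hPN1 G hω hσ2 hZi j, h1ω.mul hLi, ?_, ?_, ?_⟩
    · have h2 : 2 * proj P σ ω j Z = proj P σ ω j (2 * Z) := by
        have := proj_zmul (P := P) (σ := σ) (ω := ω) j 2 Z
        simpa using this.symm
      rw [h2, hZ, proj_sum]
      have h3 : ∀ y : ZMod N, proj P σ ω j ((H y : K) * ζ ^ y.val) =
          if y.val ≡ j.val [MOD P] then (H y : K) * ζ ^ y.val else 0 := by
        intro y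
        rw [proj_zmul]
        have heig : σ (ζ ^ y.val) = ω ^ ((y.val : ZMod P)).val * ζ ^ y.val := by
          rw [map_pow, hσ2, mul_pow]
          congr 1
          apply G.pow_congr
          simp
        have hiff : y.val ≡ j.val [MOD P] ↔ j = (y.val : ZMod P) := by
          rw [← ZMod.natCast_eq_natCast_iff]
          rw [ZMod.natCast_val, ZMod.natCast_val, ZMod.cast_id]
          exact eq_comm
        by_cases hy : y.val ≡ j.val [MOD P]
        · rw [if_pos hy, hiff.1 hy, proj_of_eig G heig]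
        · rw [if_neg hy]
          have hne : j ≠ (y.val : ZMod P) := fun h => hy (hiff.2 h)
          rw [proj_of_eig_ne G heig hne, mul_zero]
      rw [sum_congr rfl fun y _ => h3 y, ← sum_filter, filter_filter]
      refine sum_congr ?_ fun _ _ => rfl
      ext y
      simp only [mem_filter, mem_univ, true_and]
      rw [prod_insert hPs, mul_comm P]
      constructor
      · rintro ⟨a, b⟩
        exact (Nat.modEq_and_modEq_iff_modEq_mul hcop).1 ⟨a.trans hl1.symm, b.trans hl2.symm⟩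
      · intro h
        obtain ⟨a, b⟩ := (Nat.modEq_and_modEq_iff_modEq_mul hcop).2 h
        exact ⟨a.trans hl1, b.trans hl2⟩
    · intro φ
      rw [map_mul, norm_mul, card_insert_of_notMem hPs, pow_succ, mul_comm]
      refine mul_le_mul (hLn φ) ?_ (norm_nonneg _) (by positivity)
      have hωn : ‖φ ω‖ = 1 := by
        have h1 : (φ ω) ^ P = 1 := by rw [← map_pow, G.prim.pow_eq_one, map_one]
        exact Complex.norm_eq_one_of_pow_eq_one h1 hP.ne_zero
      calc ‖φ (1 - ω)‖ = ‖1 - φ ω‖ := by rw [map_sub, map_one]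
        _ ≤ ‖(1 : ℂ)‖ + ‖φ ω‖ := norm_sub_le _ _
        _ = 2 := by rw [hωn, norm_one]; norm_num
    · intro v hvR
      have key : v.valuation K ((1 - ω) * proj P σ ω j Z) ≤ v.valuation K Z := by
        by_cases hvP : (P : 𝓞 K) ∈ v.asIdeal
        · exact ram_val hζ hPN G hω hσ2 v hvP hZi j
        · obtain ⟨p, hp, hpv⟩ := ip_prime_mem hR v hvR
          have hpP : p ≠ P := by
            rintro rfl
            exact hvP hpv
          obtain ⟨k, hk⟩ := hgood P hPR p hp hpP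
          have hval : ∀ y : K, IsIntegral ℤ y → v.valuation K (σ y) ≤ v.valuation K y :=
            fun y hy => val_aut_le hζ (Nat.prime_of_mem_primeFactors hp) hσ1 hk v hpv hy
          have h1 := unram_val G v hvP hval hZi j
          rw [map_mul]
          calc v.valuation K (1 - ω) * v.valuation K (proj P σ ω j Z)
              ≤ 1 * v.valuation K Z := mul_le_mul' (ip_valuation_le_one v h1ω) h1
            _ = _ := one_mul _
      have e1 : (1 - ω) * L * proj P σ ω j Z = L * ((1 - ω) * proj P σ ω j Z) := by ring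
      rw [e1, map_mul]
      calc v.valuation K L * v.valuation K ((1 - ω) * proj P σ ω j Z)
          ≤ v.valuation K L * v.valuation K Z := mul_le_mul_right key _
        _ = v.valuation K (L * Z) := (map_mul _ _ _).symm
        _ ≤ _ := hv v hvR

/-- Successive projections.  Induction over subsets `s` of `R.primeFactors`: there are `l`, `Z ≠ 0`,
`L = ∏_{P ∈ s} (1 - ζ ^ (N / P))` with
`2 Z = ∑_{y ≡ l mod ∏ s} H y ζ ^ y` and `v (L Z) ≤ v X` at all `v` over `R`.  Step: for `P ∉ s`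
take `σ` from `exists_grd`; some `proj P σ ω j Z ≠ 0` (`sum_proj`); `proj (ζ ^ y) = ζ ^ y` or `0`
according to `y ≡ j mod P` (as in `proj_integral`); `Nat.chineseRemainder`; valuations: `ram_val` if
`P ∈ v`, otherwise some `p ∣ R`, `p ≠ P` has `p ∈ v` and `val_aut_le`, `unram_val` apply
(`v (1 - ω) ≤ 1`). -/
theorem iter_proj (hζ : IsPrimitiveRoot ζ N) {R : ℕ} (hR : Squarefree R) (hRN : R ^ 2 ∣ N)
    (hgood : ∀ P ∈ R.primeFactors, ∀ p ∈ R.primeFactors, p ≠ P →
      ∃ k, 1 + N / P ≡ p ^ k [MOD ordCompl[p] N])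
    {H : ZMod N → ℤ} {X : K} (hX : IsIntegral ℤ X) (hX0 : X ≠ 0)
    (hH : 2 * X = ∑ y : ZMod N, (H y : K) * ζ ^ y.val) :
    ∃ (l : ℕ) (Z L : K), Z ≠ 0 ∧ L ≠ 0 ∧ IsIntegral ℤ Z ∧ IsIntegral ℤ L ∧
      2 * Z = ∑ y ∈ univ.filter (fun y : ZMod N => y.val ≡ l [MOD R]), (H y : K) * ζ ^ y.val ∧
      (∀ φ : K →+* ℂ, ‖φ L‖ ≤ 2 ^ R.primeFactors.card) ∧
      ∀ v : HeightOneSpectrum (𝓞 K), (R : 𝓞 K) ∈ v.asIdeal →
        v.valuation K (L * Z) ≤ v.valuation K X := by
  have h := iter_proj_aux hζ hR hRN hgood hX hX0 hH R.primeFactors Subset.rfl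
  rwa [Nat.prod_primeFactors_of_squarefree hR] at h

end P033
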