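import Vale.Agent.P033B.Defs
import Vale.Agent.P033.Union

/-!
# P033B, module RANK1
-/

namespace P033

open Finset

private lemma rk_sum (K : ℕ) : ∑ k ∈ Icc 1 K, (k : ℝ) ^ (-(49 / 50) : ℝ) ≤
    50 * (K : ℝ) ^ ((1 / 50) : ℝ) := by
  induction K with
  | zero => simp
  | succ K ih =>
    rw [sum_Icc_succ_top (by omega)]
    have hK : (0 : ℝ) < (K : ℝ) + 1 := by positivity
    have h1 : ((K : ℝ) / (K + 1)) ^ ((1 / 50) : ℝ) ≤ 1 + (1 / 50) * (-(1 / ((K : ℝ) + 1))) := by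
      have h2 : (K : ℝ) / (K + 1) = 1 + (-(1 / ((K : ℝ) + 1))) := by
        field_simp
        ring
      rw [h2]
      refine _root_.rpow_one_add_le_one_add_mul_self ?_ (by norm_num) (by norm_num)
      rw [neg_le_neg_iff, div_le_one hK]
      have : (0 : ℝ) ≤ K := Nat.cast_nonneg K
      linarith
    have h3 : (K : ℝ) ^ ((1 / 50) : ℝ) = ((K : ℝ) / (K + 1)) ^ ((1 / 50) : ℝ) *
        ((K : ℝ) + 1) ^ ((1 / 50) : ℝ) := by
      rw [← Real.mul_rpow (by positivity) hK.le]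
      congr 1
      field_simp
    have h4 : ((K : ℝ) + 1) ^ (-(49 / 50) : ℝ) = ((K : ℝ) + 1) ^ ((1 / 50) : ℝ) / (K + 1) := by
      rw [← Real.rpow_sub_one hK.ne']
      norm_num
    push_cast
    rw [h4]
    have h5 : (0 : ℝ) < ((K : ℝ) + 1) ^ ((1 / 50) : ℝ) := Real.rpow_pos_of_pos hK _
    have h6 : (K : ℝ) ^ ((1 / 50) : ℝ) ≤ (1 + (1 / 50) * (-(1 / ((K : ℝ) + 1)))) *
        ((K : ℝ) + 1) ^ ((1 / 50) : ℝ) := by
      rw [h3]
      exact mul_le_mul_of_nonneg_right h1 h5.le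
    have h7 : (1 + (1 / 50) * (-(1 / ((K : ℝ) + 1)))) * ((K : ℝ) + 1) ^ ((1 / 50) : ℝ) =
        ((K : ℝ) + 1) ^ ((1 / 50) : ℝ) - (1 / 50) * (((K : ℝ) + 1) ^ ((1 / 50) : ℝ) / (K + 1)) := by
      field_simp
      ring
    rw [h7] at h6
    linarith

/-- the completely multiplicative weight -/
noncomputable def rkf : ℕ →* ℝ where
  toFun n := (n : ℝ) ^ (-(49 / 50) : ℝ)
  map_one' := by simp
  map_mul' a b := by
    rw [Nat.cast_mul, Real.mul_rpow (Nat.cast_nonneg a) (Nat.cast_nonneg b)]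

theorem rkf_apply (n : ℕ) : rkf n = (n : ℝ) ^ (-(49 / 50) : ℝ) := rfl

theorem rkf_nonneg (n : ℕ) : 0 ≤ rkf n := Real.rpow_nonneg (Nat.cast_nonneg n) _

/-- `2 ^ (-49/50) ≤ 2/3` -/
theorem rk_two : (2 : ℝ) ^ (-(49 / 50) : ℝ) ≤ 2 / 3 := by
  have h1 : (2 : ℝ) ^ (-(49 / 50) : ℝ) = ((2 : ℝ) ^ (49 / 50 : ℝ))⁻¹ :=
    Real.rpow_neg (by norm_num) _
  have h2 : (3 / 2 : ℝ) ≤ (2 : ℝ) ^ (49 / 50 : ℝ) := by
    have h3 : (3 / 2 : ℝ) = ((3 / 2 : ℝ) ^ (3 : ℕ)) ^ (1 / 3 : ℝ) := by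
      rw [← Real.rpow_natCast, ← Real.rpow_mul (by norm_num)]
      norm_num
    have h4 : ((3 / 2 : ℝ) ^ (3 : ℕ)) ≤ 4 := by norm_num
    have h5 : (4 : ℝ) ^ (1 / 3 : ℝ) = (2 : ℝ) ^ (2 / 3 : ℝ) := by
      have : (4 : ℝ) = (2 : ℝ) ^ (2 : ℝ) := by norm_num
      rw [this, ← Real.rpow_mul (by norm_num)]
      norm_num
    calc (3 / 2 : ℝ) = ((3 / 2 : ℝ) ^ (3 : ℕ)) ^ (1 / 3 : ℝ) := h3
      _ ≤ (4 : ℝ) ^ (1 / 3 : ℝ) := Real.rpow_le_rpow (by norm_num) h4 (by norm_num)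
      _ = (2 : ℝ) ^ (2 / 3 : ℝ) := h5
      _ ≤ (2 : ℝ) ^ (49 / 50 : ℝ) := Real.rpow_le_rpow_of_exponent_le (by norm_num) (by norm_num)
  rw [h1]
  calc ((2 : ℝ) ^ (49 / 50 : ℝ))⁻¹ ≤ (3 / 2 : ℝ)⁻¹ := inv_anti₀ (by norm_num) h2
    _ = 2 / 3 := by norm_num

theorem rkf_le {p : ℕ} (hp : 2 ≤ p) : rkf p ≤ 2 / 3 := by
  rw [rkf_apply]
  refine le_trans ?_ rk_two
  refine Real.rpow_le_rpow_of_nonpos (by norm_num) ?_ (by norm_num)
  exact_mod_cast hp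

/-- The Euler product for smooth numbers:
`∑_{a smooth} a ^ (-49/50) = ∏_{p ≤ z} (1 - p ^ (-49/50))⁻¹ ≤ exp (150 z ^ (1/50))`
(`EulerProduct.summable_and_hasSum_smoothNumbers_prod_primesBelow_geometric` or direct induction;
`-log (1 - t) ≤ t / (1 - t)`, `∑_{m ≤ z} m ^ (-49/50) ≤ 50 z ^ (1/50)`). -/
theorem smooth_sum {z : ℕ} (hz : 1 ≤ z) (A : Finset ℕ)
    (hA : ∀ a ∈ A, 1 ≤ a ∧ ∀ p, p.Prime → p ∣ a → p ≤ z) :
    ∑ a ∈ A, (a : ℝ) ^ (-(49 / 50) : ℝ) ≤ Real.exp (150 * (z : ℝ) ^ (1 / 50 : ℝ)) := by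
  classical
  have hlt : ∀ {p : ℕ}, p.Prime → ‖rkf p‖ < 1 := by
    intro p hp
    rw [Real.norm_eq_abs, abs_of_nonneg (rkf_nonneg p)]
    have := rkf_le hp.two_le
    linarith
  obtain ⟨hsum, hhas⟩ := EulerProduct.summable_and_hasSum_smoothNumbers_prod_primesBelow_geometric
    (f := rkf) hlt (z + 1)
  -- the finite sum is at most the whole sum
  have hmem : ∀ a ∈ A, a ∈ Nat.smoothNumbers (z + 1) := by
    intro a ha
    rw [Nat.mem_smoothNumbers']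
    intro p hp hpa
    have := (hA a ha).2 p hp hpa
    omega
  have h1 : ∑ a ∈ A, (a : ℝ) ^ (-(49 / 50) : ℝ) ≤ ∏ p ∈ Nat.primesBelow (z + 1), (1 - rkf p)⁻¹ := by
    have e1 : ∑ a ∈ A, (a : ℝ) ^ (-(49 / 50) : ℝ)
        = ∑ a ∈ A.attach, rkf ((⟨a.1, hmem a.1 a.2⟩ : Nat.smoothNumbers (z + 1)) : ℕ) := by
      rw [← sum_attach]
      rfl
    have e2 : ∑ a ∈ A.attach, rkf ((⟨a.1, hmem a.1 a.2⟩ : Nat.smoothNumbers (z + 1)) : ℕ)
        = ∑ m ∈ A.attach.image (fun a => (⟨a.1, hmem a.1 a.2⟩ : Nat.smoothNumbers (z + 1))),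
          rkf (m : ℕ) := by
      rw [sum_image]
      intro a _ b _ hab
      have := congrArg Subtype.val hab
      exact Subtype.ext this
    rw [e1, e2]
    exact sum_le_hasSum _ (fun m _ => rkf_nonneg _) hhas
  refine h1.trans ?_
  have h2 : ∀ p ∈ Nat.primesBelow (z + 1), (1 - rkf p)⁻¹ ≤ Real.exp (3 * rkf p) := by
    intro p hp
    have hp2 := (Nat.prime_of_mem_primesBelow hp).two_le
    have h3 := rkf_le hp2
    have h4 := rkf_nonneg p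
    have h5 : (1 - rkf p)⁻¹ ≤ 1 + 3 * rkf p := by
      rw [inv_le_iff_one_le_mul₀ (by linarith)]
      nlinarith
    linarith [Real.add_one_le_exp (3 * rkf p)]
  calc ∏ p ∈ Nat.primesBelow (z + 1), (1 - rkf p)⁻¹
      ≤ ∏ p ∈ Nat.primesBelow (z + 1), Real.exp (3 * rkf p) := by
        refine prod_le_prod (fun p hp => ?_) h2
        have := rkf_le (Nat.prime_of_mem_primesBelow hp).two_le
        exact inv_nonneg.2 (by linarith)
    _ = Real.exp (∑ p ∈ Nat.primesBelow (z + 1), 3 * rkf p) := (Real.exp_sum _ _).symm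
    _ ≤ Real.exp (150 * (z : ℝ) ^ (1 / 50 : ℝ)) := by
        rw [Real.exp_le_exp, ← mul_sum]
        have h6 : ∑ p ∈ Nat.primesBelow (z + 1), rkf p ≤ ∑ k ∈ Icc 1 z, (k : ℝ) ^ (-(49 / 50) : ℝ) := by
          refine sum_le_sum_of_subset_of_nonneg ?_ fun k _ _ => Real.rpow_nonneg (Nat.cast_nonneg k) _
          intro p hp
          have h7 := Nat.lt_of_mem_primesBelow hp
          have h8 := (Nat.prime_of_mem_primesBelow hp).two_le
          rw [mem_Icc]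
          omega
        have := rk_sum z
        linarith

theorem sm_dvd (z : ℕ) {u : ℕ} (hu : u ≠ 0) : sm z u ∣ u := by
  unfold sm
  conv_rhs => rw [← Nat.prod_factorization_pow_eq_self hu]
  exact prod_dvd_prod_of_subset _ _ _ (filter_subset _ _)

theorem sm_prime {z u p : ℕ} (hp : p.Prime) (h : p ∣ sm z u) : p ≤ z := by
  unfold sm at h
  rw [hp.prime.dvd_finsetProd_iff] at h
  obtain ⟨q, hq, hpq⟩ := h
  rw [mem_filter] at hq
  have h1 : p ∣ q := hp.dvd_of_dvd_pow hpq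
  have h2 : p = q := (Nat.prime_dvd_prime_iff_eq hp (Nat.prime_of_mem_primeFactors hq.1)).1 h1
  rw [h2]
  exact hq.2

/-- Numbers `u ≤ x` with large `z`-smooth part: each `u` is a multiple of `a = sm z u`,
`1 / a ≤ y ^ (-1/50) * a ^ (-49/50)` for `a ≥ y`. -/
theorem count_T1 {x z : ℕ} (hz : 1 ≤ z) {y : ℝ} (hy : 0 < y) (F : Finset ℕ)
    (hF : ∀ u ∈ F, 1 ≤ u ∧ u ≤ x ∧ y ≤ (sm z u : ℝ)) :
    (F.card : ℝ) ≤ x * (y ^ (-(1 / 50) : ℝ) * Real.exp (150 * (z : ℝ) ^ (1 / 50 : ℝ))) := by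
  classical
  set A : Finset ℕ := F.image (sm z) with hA
  have hA1 : ∀ a ∈ A, 1 ≤ a ∧ ∀ p, p.Prime → p ∣ a → p ≤ z := by
    intro a ha
    rw [hA, mem_image] at ha
    obtain ⟨u, hu, rfl⟩ := ha
    refine ⟨Nat.pos_of_dvd_of_pos (sm_dvd z (by have := (hF u hu).1; omega)) (hF u hu).1, ?_⟩
    intro p hp hpa
    exact sm_prime hp hpa
  have hAy : ∀ a ∈ A, y ≤ (a : ℝ) := by
    intro a ha
    rw [hA, mem_image] at ha
    obtain ⟨u, hu, rfl⟩ := ha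
    exact (hF u hu).2.2
  have h1 : (F.card : ℝ) ≤ ∑ a ∈ A, (((Icc 1 x).filter fun u => a ∣ u).card : ℝ) := by
    refine Union.card_biUnion_real A (fun a => (Icc 1 x).filter fun u => a ∣ u) F fun u hu => ?_
    refine ⟨sm z u, mem_image_of_mem _ hu, ?_⟩
    rw [mem_filter, mem_Icc]
    exact ⟨⟨(hF u hu).1, (hF u hu).2.1⟩, sm_dvd z (by have := (hF u hu).1; omega)⟩
  have h2 : ∀ a ∈ A, (((Icc 1 x).filter fun u => a ∣ u).card : ℝ) ≤
      (x * y ^ (-(1 / 50) : ℝ)) * (a : ℝ) ^ (-(49 / 50) : ℝ) := by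
    intro a ha
    have ha0 : (0 : ℝ) < a := by exact_mod_cast (hA1 a ha).1
    refine (Union.card_multiples x a).trans ?_
    have e1 : (x : ℝ) / a = x * ((a : ℝ) ^ (-(1 / 50) : ℝ) * (a : ℝ) ^ (-(49 / 50) : ℝ)) := by
      rw [← Real.rpow_add ha0, div_eq_mul_inv]
      congr 1
      norm_num
      rw [Real.rpow_neg_one]
    rw [e1, mul_assoc]
    refine mul_le_mul_of_nonneg_left ?_ (Nat.cast_nonneg _)
    refine mul_le_mul_of_nonneg_right ?_ (Real.rpow_nonneg ha0.le _)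
    exact Real.rpow_le_rpow_of_nonpos hy (hAy a ha) (by norm_num)
  calc (F.card : ℝ) ≤ ∑ a ∈ A, (((Icc 1 x).filter fun u => a ∣ u).card : ℝ) := h1
    _ ≤ ∑ a ∈ A, (x * y ^ (-(1 / 50) : ℝ)) * (a : ℝ) ^ (-(49 / 50) : ℝ) := sum_le_sum h2
    _ = (x * y ^ (-(1 / 50) : ℝ)) * ∑ a ∈ A, (a : ℝ) ^ (-(49 / 50) : ℝ) := by rw [mul_sum]
    _ ≤ (x * y ^ (-(1 / 50) : ℝ)) * Real.exp (150 * (z : ℝ) ^ (1 / 50 : ℝ)) :=
        mul_le_mul_of_nonneg_left (smooth_sum hz A hA1)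
          (mul_nonneg (Nat.cast_nonneg _) (Real.rpow_nonneg hy.le _))
    _ = _ := by ring

end P033
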