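import Vale.Agent.P033B.Defs
import Vale.Agent.P033.Union

/-!
# P033B, module RELCNT
-/

namespace P033

open Finset

private lemma rc_class {P : ℕ} (hP : P.Prime) :
    ((range (P ^ 2)).filter fun r => r % P = 1 ∨ r ^ (P - 1) % P ^ 2 = 1).card ≤ 2 * P := by
  rw [filter_or]
  refine (card_union_le _ _).trans ?_
  have h1 : ((range (P ^ 2)).filter fun r => r % P = 1).card ≤ P := by
    have hsub : (range (P ^ 2)).filter (fun r => r % P = 1) ⊆
        (range P).image (fun k => P * k + 1) := by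
      intro r hr
      rw [mem_filter, mem_range] at hr
      rw [mem_image]
      refine ⟨r / P, ?_, ?_⟩
      · rw [mem_range]
        exact Nat.div_lt_of_lt_mul (by rw [← sq]; exact hr.1)
      · conv_rhs => rw [← Nat.div_add_mod r P, hr.2]
    exact (card_le_card hsub).trans (card_image_le.trans (by rw [card_range]))
  have h2 : ((range (P ^ 2)).filter fun r => r ^ (P - 1) % P ^ 2 = 1).card ≤ P := by
    have h := card_wief_block hP 0
    rw [zero_mul, zero_add, one_mul] at h
    rwa [range_eq_Ico]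
  omega

/-- Each block of length `d ^ 2` contains at most `∏_{P ∣ d} (2 P) = 2 ^ ω(d) d` such `m`:
`m ↦ (m mod P ^ 2)_{P ∣ d}` is injective on the block (CRT) and `m mod P ^ 2` is `≡ 1 mod P`
(`P` classes) or satisfies `r ^ (P - 1) % P ^ 2 = 1` (at most `P` classes, `card_wief_block`). -/
theorem rel_block {d : ℕ} (hd : Squarefree d) {j : ℕ} (hj : 1 ≤ j) :
    ((Ico (j * d ^ 2) ((j + 1) * d ^ 2)).filter
      (fun m => ∀ P ∈ d.primeFactors, Rel m P)).card ≤ 2 ^ d.primeFactors.card * d := by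
  have hd0 : 0 < d := Nat.pos_of_ne_zero hd.ne_zero
  set A : ℕ → Finset ℕ := fun P =>
    (range (P ^ 2)).filter fun r => r % P = 1 ∨ r ^ (P - 1) % P ^ 2 = 1 with hA
  have h1 : ((Ico (j * d ^ 2) ((j + 1) * d ^ 2)).filter
      (fun m => ∀ P ∈ d.primeFactors, Rel m P)).card ≤ (d.primeFactors.pi A).card := by
    refine Finset.card_le_card_of_injOn (fun m => fun P _ => m % P ^ 2) ?_ ?_
    · intro m hm
      rw [mem_coe, mem_filter, mem_Ico] at hm
      rw [mem_coe, mem_pi]
      intro P hP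
      have hPp := Nat.prime_of_mem_primeFactors hP
      rw [hA, mem_filter, mem_range]
      refine ⟨Nat.mod_lt _ (pow_pos hPp.pos 2), ?_⟩
      have hm1 : 1 ≤ m := le_trans (by nlinarith [pow_pos hd0 2]) hm.1.1
      rcases hm.2 P hP with h | h
      · left
        rw [Nat.mod_mod_of_dvd _ (dvd_pow_self P (by norm_num : (2 : ℕ) ≠ 0))]
        have h3 : 1 ≡ m [MOD P] := (Nat.modEq_iff_dvd' hm1).2 h
        have h4 : m % P = 1 % P := h3.symm
        rw [h4, Nat.mod_eq_of_lt hPp.one_lt]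
      · right
        rw [← Nat.pow_mod]
        exact h
    · intro m hm m' hm' hmm
      rw [mem_coe, mem_filter, mem_Ico] at hm hm'
      have h3 : ∀ P ∈ d.primeFactors, ((P : ℤ) ^ 2) ∣ (m : ℤ) - m' := by
        intro P hP
        have h4 : m % P ^ 2 = m' % P ^ 2 := congrFun (congrFun hmm P) hP
        have h5 : m' ≡ m [MOD P ^ 2] := h4.symm
        have h6 := Nat.modEq_iff_dvd.1 h5
        rwa [Nat.cast_pow] at h6
      have h4 : (∏ P ∈ d.primeFactors, (P : ℤ) ^ 2) ∣ (m : ℤ) - m' := by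
        refine Finset.prod_dvd_of_coprime ?_ h3
        intro P hP Q hQ hPQ
        have hPp := Nat.prime_of_mem_primeFactors (mem_coe.1 hP)
        have hQp := Nat.prime_of_mem_primeFactors (mem_coe.1 hQ)
        have h5 : IsCoprime (P : ℤ) (Q : ℤ) :=
          Nat.isCoprime_iff_coprime.2 ((Nat.coprime_primes hPp hQp).2 hPQ)
        exact h5.pow
      have h5 : (∏ P ∈ d.primeFactors, (P : ℤ) ^ 2) = (d : ℤ) ^ 2 := by
        rw [prod_pow]
        congr 1
        conv_rhs => rw [← Nat.prod_primeFactors_of_squarefree hd]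
        rw [Nat.cast_prod]
      rw [h5] at h4
      obtain ⟨t, ht⟩ := h4
      have hb1 : ((j * d ^ 2 : ℕ) : ℤ) ≤ m := by exact_mod_cast hm.1.1
      have hb2 : (m : ℤ) < (((j + 1) * d ^ 2 : ℕ) : ℤ) := by exact_mod_cast hm.1.2
      have hb3 : ((j * d ^ 2 : ℕ) : ℤ) ≤ m' := by exact_mod_cast hm'.1.1
      have hb4 : (m' : ℤ) < (((j + 1) * d ^ 2 : ℕ) : ℤ) := by exact_mod_cast hm'.1.2
      push_cast at hb1 hb2 hb3 hb4
      have hPpos : (0 : ℤ) < (d : ℤ) ^ 2 := by
        have : (0 : ℤ) < d := by exact_mod_cast hd0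
        positivity
      have ht1 : t < 1 := by
        by_contra hcon
        push Not at hcon
        nlinarith
      have ht2 : -1 < t := by
        by_contra hcon
        push Not at hcon
        nlinarith
      have ht0 : t = 0 := by omega
      rw [ht0, mul_zero] at ht
      have : (m : ℤ) = m' := by linarith
      exact_mod_cast this
  refine h1.trans ?_
  rw [card_pi]
  calc ∏ P ∈ d.primeFactors, (A P).card ≤ ∏ P ∈ d.primeFactors, 2 * P :=
        prod_le_prod' fun P hP => rc_class (Nat.prime_of_mem_primeFactors hP)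
    _ = 2 ^ d.primeFactors.card * d := by
        rw [prod_mul_distrib, prod_const, Nat.prod_primeFactors_of_squarefree hd]

theorem rel_cnt {d x : ℕ} (hd : Squarefree d) :
    ∑ m ∈ (Icc (d ^ 2) x).filter (fun m => ∀ P ∈ d.primeFactors, Rel m P), (1 : ℝ) / m ≤
      2 ^ d.primeFactors.card * (1 + Real.log x) / d := by
  have hd0 : 0 < d := Nat.pos_of_ne_zero hd.ne_zero
  have hdR : (0 : ℝ) < d := by exact_mod_cast hd0
  have hd2 : 0 < d ^ 2 := pow_pos hd0 2
  set F := (Icc (d ^ 2) x).filter (fun m => ∀ P ∈ d.primeFactors, Rel m P) with hF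
  have hmap : ∀ m ∈ F, m / d ^ 2 ∈ Icc 1 (x / d ^ 2) := by
    intro m hm
    rw [hF, mem_filter, mem_Icc] at hm
    rw [mem_Icc]
    exact ⟨(Nat.one_le_div_iff hd2).2 hm.1.1, Nat.div_le_div_right hm.1.2⟩
  rw [← sum_fiberwise_of_maps_to hmap]
  have hblock : ∀ j ∈ Icc 1 (x / d ^ 2), ∑ m ∈ F.filter (fun m => m / d ^ 2 = j), (1 : ℝ) / m ≤
      (2 ^ d.primeFactors.card / d) * (1 / (j : ℝ)) := by
    intro j hj
    rw [mem_Icc] at hj
    have hjR : (0 : ℝ) < j := by exact_mod_cast hj.1
    have hsub : F.filter (fun m => m / d ^ 2 = j) ⊆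
        (Ico (j * d ^ 2) ((j + 1) * d ^ 2)).filter (fun m => ∀ P ∈ d.primeFactors, Rel m P) := by
      intro m hm
      rw [mem_filter, hF, mem_filter, mem_Icc] at hm
      rw [mem_filter, mem_Ico]
      refine ⟨⟨?_, ?_⟩, hm.1.2⟩
      · rw [← hm.2]; exact Nat.div_mul_le_self _ _
      · rw [← hm.2]; exact (Nat.div_lt_iff_lt_mul hd2).1 (Nat.lt_succ_self _)
    calc ∑ m ∈ F.filter (fun m => m / d ^ 2 = j), (1 : ℝ) / m
        ≤ ∑ m ∈ F.filter (fun m => m / d ^ 2 = j), (1 : ℝ) / (j * d ^ 2) := by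
          refine sum_le_sum fun m hm => ?_
          have h1 := hsub hm
          rw [mem_filter, mem_Ico] at h1
          have h2 : ((j * d ^ 2 : ℕ) : ℝ) ≤ m := by exact_mod_cast h1.1.1
          push_cast at h2
          exact one_div_le_one_div_of_le (by positivity) h2
      _ = (F.filter (fun m => m / d ^ 2 = j)).card * ((1 : ℝ) / (j * d ^ 2)) := by
          rw [sum_const, nsmul_eq_mul]
      _ ≤ (2 ^ d.primeFactors.card * d) * ((1 : ℝ) / (j * d ^ 2)) := by
          refine mul_le_mul_of_nonneg_right ?_ (by positivity)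
          exact_mod_cast (card_le_card hsub).trans (rel_block hd hj.1)
      _ = (2 ^ d.primeFactors.card / d) * (1 / (j : ℝ)) := by
          field_simp
  refine (sum_le_sum hblock).trans ?_
  rw [← mul_sum]
  have hH : ∑ j ∈ Icc 1 (x / d ^ 2), 1 / (j : ℝ) ≤ 1 + Real.log x := by
    rcases Nat.eq_zero_or_pos (x / d ^ 2) with h0 | h0
    · rw [h0]
      simp only [zero_lt_one, Icc_eq_empty_of_lt, sum_empty]
      have := Real.log_natCast_nonneg x
      linarith
    · have h1 := harmonic_le_one_add_log (x / d ^ 2)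
      rw [harmonic_eq_sum_Icc] at h1
      push_cast at h1
      have h2 : Real.log ((x / d ^ 2 : ℕ) : ℝ) ≤ Real.log x := by
        refine Real.log_le_log (by exact_mod_cast h0) ?_
        exact_mod_cast Nat.div_le_self x (d ^ 2)
      have h3 : ∑ j ∈ Icc 1 (x / d ^ 2), 1 / (j : ℝ) = ∑ j ∈ Icc 1 (x / d ^ 2), (j : ℝ)⁻¹ :=
        sum_congr rfl fun j _ => one_div _
      rw [h3]
      exact h1.trans (by linarith)
  calc (2 ^ d.primeFactors.card / (d : ℝ)) * ∑ j ∈ Icc 1 (x / d ^ 2), 1 / (j : ℝ)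
      ≤ (2 ^ d.primeFactors.card / (d : ℝ)) * (1 + Real.log x) :=
        mul_le_mul_of_nonneg_left hH (by positivity)
    _ = 2 ^ d.primeFactors.card * (1 + Real.log x) / d := by ring

end P033
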