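import Vale.Agent.P033B.Wief3

/-!
# P033B, module SIGA2
-/

namespace P033

open Finset

theorem SigA2.geom : ∀ n : ℕ, ∑ j ∈ range n, ((2 : ℝ) ^ (-(1 / 8) : ℝ)) ^ j ≤ 121 / 10 := by
  intro n
  have hr0 : (0 : ℝ) ≤ (2 : ℝ) ^ (-(1 / 8) : ℝ) := by positivity
  have hr : (2 : ℝ) ^ (-(1 / 8) : ℝ) ≤ 917007 / 1000000 := by
    have h1 : ((2 : ℝ) ^ (-(1 / 8) : ℝ)) ^ 8 = 1 / 2 := by
      rw [← Real.rpow_natCast, ← Real.rpow_mul (by norm_num)]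
      norm_num
    refine le_of_pow_le_pow_left₀ (n := 8) (by norm_num) (by norm_num) ?_
    rw [h1]
    norm_num
  have hr1 : (2 : ℝ) ^ (-(1 / 8) : ℝ) < 1 := by linarith
  have h2 := geom_sum_eq hr1.ne n
  rw [h2]
  have h3 : (((2 : ℝ) ^ (-(1 / 8) : ℝ)) ^ n - 1) / ((2 : ℝ) ^ (-(1 / 8) : ℝ) - 1) =
      (1 - ((2 : ℝ) ^ (-(1 / 8) : ℝ)) ^ n) / (1 - (2 : ℝ) ^ (-(1 / 8) : ℝ)) := by
    rw [← neg_sub, ← neg_sub 1 ((2 : ℝ) ^ (-(1 / 8) : ℝ)), neg_div_neg_eq]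
  rw [h3, div_le_iff₀ (by linarith)]
  have h4 : 0 ≤ ((2 : ℝ) ^ (-(1 / 8) : ℝ)) ^ n := by positivity
  linarith

theorem SigA2.two_pow : (2 : ℝ) ^ (1 / 8 : ℝ) ≤ 1091 / 1000 := by
  have h1 : ((2 : ℝ) ^ (1 / 8 : ℝ)) ^ 8 = 2 := by
    rw [← Real.rpow_natCast, ← Real.rpow_mul (by norm_num)]
    norm_num
  refine le_of_pow_le_pow_left₀ (n := 8) (by norm_num) (by norm_num) ?_
  rw [h1]
  norm_num

/-- one dyadic block -/
theorem SigA2.block {P b : ℕ} (hP : P.Prime) (hb : 2 ≤ b) (hbP : b ≤ P ^ 4) :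
    ∑ q ∈ (Ioc b (2 * b)).filter (fun q => q.Prime ∧ q ^ (P - 1) % P ^ 2 = 1),
      (q : ℝ) ^ (-(7 / 8) : ℝ) ≤
      1091 / 1000 * (1 + 13 * Real.log P) ^ 2 * (b : ℝ) ^ (-(1 / 8) : ℝ) := by
  have hb0 : (0 : ℝ) < b := by exact_mod_cast (by omega : 0 < b)
  have h1 : ∀ q ∈ (Ioc b (2 * b)).filter (fun q => q.Prime ∧ q ^ (P - 1) % P ^ 2 = 1),
      (q : ℝ) ^ (-(7 / 8) : ℝ) ≤ (2 * b : ℝ) ^ (1 / 8 : ℝ) * (1 / q) := by
    intro q hq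
    rw [mem_filter, mem_Ioc] at hq
    have hq0 : (0 : ℝ) < q := by exact_mod_cast (by omega : 0 < q)
    have hqb : (q : ℝ) ≤ 2 * b := by exact_mod_cast hq.1.2
    have h2 : (q : ℝ) ^ (-(7 / 8) : ℝ) = (q : ℝ) ^ (1 / 8 : ℝ) * (1 / q) := by
      have h8 : (1 : ℝ) / q = (q : ℝ) ^ (-1 : ℝ) := by
        rw [Real.rpow_neg_one, one_div]
      rw [h8, ← Real.rpow_add hq0]
      norm_num
    rw [h2]
    exact mul_le_mul_of_nonneg_right (Real.rpow_le_rpow hq0.le hqb (by norm_num)) (by positivity)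
  refine (sum_le_sum h1).trans ?_
  rw [← mul_sum]
  have h3 := wief3 hP hb hbP
  refine (mul_le_mul_of_nonneg_left h3 (by positivity)).trans ?_
  have h4 : (2 * b : ℝ) ^ (1 / 8 : ℝ) = (2 : ℝ) ^ (1 / 8 : ℝ) * (b : ℝ) ^ (1 / 8 : ℝ) :=
    Real.mul_rpow (by norm_num) hb0.le
  have h5 : (b : ℝ) ^ (1 / 8 : ℝ) / (b : ℝ) ^ (1 / 4 : ℝ) = (b : ℝ) ^ (-(1 / 8) : ℝ) := by
    rw [← Real.rpow_sub hb0]
    norm_num
  have h6 : (2 * b : ℝ) ^ (1 / 8 : ℝ) * ((1 + 13 * Real.log P) ^ 2 / (b : ℝ) ^ (1 / 4 : ℝ)) =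
      (2 : ℝ) ^ (1 / 8 : ℝ) * (1 + 13 * Real.log P) ^ 2 * (b : ℝ) ^ (-(1 / 8) : ℝ) := by
    rw [h4, ← h5]
    ring
  rw [h6]
  have h7 := SigA2.two_pow
  gcongr

theorem SigA2.ind {P b : ℕ} (hP : P.Prime) (hb : 2 ≤ b) : ∀ n : ℕ,
    ∑ q ∈ (Ioc b (min (2 ^ n * b) (P ^ 4))).filter
        (fun q => q.Prime ∧ q ^ (P - 1) % P ^ 2 = 1), (q : ℝ) ^ (-(7 / 8) : ℝ) ≤
      1091 / 1000 * (1 + 13 * Real.log P) ^ 2 * (b : ℝ) ^ (-(1 / 8) : ℝ) *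
        ∑ j ∈ range n, ((2 : ℝ) ^ (-(1 / 8) : ℝ)) ^ j := by
  intro n
  induction n with
  | zero =>
    rw [pow_zero, one_mul, Ioc_eq_empty (by omega)]
    simp
  | succ n ih =>
    have hb0 : (0 : ℝ) < b := by exact_mod_cast (by omega : 0 < b)
    rw [sum_range_succ, mul_add]
    rcases Nat.lt_or_ge (P ^ 4) (2 ^ n * b) with h | h
    · have h1 : min (2 ^ (n + 1) * b) (P ^ 4) = min (2 ^ n * b) (P ^ 4) := by
        have : 2 ^ n * b ≤ 2 ^ (n + 1) * b :=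
          Nat.mul_le_mul_right _ (Nat.pow_le_pow_right (by norm_num) (by omega))
        omega
      rw [h1]
      have h2 : 0 ≤ 1091 / 1000 * (1 + 13 * Real.log P) ^ 2 * (b : ℝ) ^ (-(1 / 8) : ℝ) *
        ((2 : ℝ) ^ (-(1 / 8) : ℝ)) ^ n := by positivity
      linarith
    · have hbn : 2 ≤ 2 ^ n * b := by
        have : 1 ≤ 2 ^ n := Nat.one_le_two_pow
        nlinarith
      have h1 := SigA2.block hP hbn h
      have h3 : ((2 ^ n * b : ℕ) : ℝ) ^ (-(1 / 8) : ℝ) =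
          (b : ℝ) ^ (-(1 / 8) : ℝ) * ((2 : ℝ) ^ (-(1 / 8) : ℝ)) ^ n := by
        push_cast
        rw [Real.mul_rpow (by positivity) hb0.le, mul_comm]
        congr 1
        rw [← Real.rpow_natCast, ← Real.rpow_natCast, ← Real.rpow_mul (by norm_num),
          ← Real.rpow_mul (by norm_num), mul_comm]
      rw [h3] at h1
      have hsub : (Ioc b (min (2 ^ (n + 1) * b) (P ^ 4))).filter
          (fun q => q.Prime ∧ q ^ (P - 1) % P ^ 2 = 1) ⊆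
          (Ioc b (min (2 ^ n * b) (P ^ 4))).filter
            (fun q => q.Prime ∧ q ^ (P - 1) % P ^ 2 = 1) ∪
          (Ioc (2 ^ n * b) (2 * (2 ^ n * b))).filter
            (fun q => q.Prime ∧ q ^ (P - 1) % P ^ 2 = 1) := by
        intro q hq
        rw [mem_filter, mem_Ioc] at hq
        rw [mem_union, mem_filter, mem_filter, mem_Ioc, mem_Ioc]
        have h4 : 2 ^ (n + 1) * b = 2 * (2 ^ n * b) := by ring
        rw [h4] at hq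
        rcases Nat.lt_or_ge (2 ^ n * b) q with h5 | h5
        · right
          exact ⟨⟨h5, hq.1.2.trans (min_le_left _ _)⟩, hq.2⟩
        · left
          exact ⟨⟨hq.1.1, le_min h5 (hq.1.2.trans (min_le_right _ _))⟩, hq.2⟩
      have h5 : ∀ s t : Finset ℕ, ∑ q ∈ s ∪ t, (q : ℝ) ^ (-(7 / 8) : ℝ) ≤
          ∑ q ∈ s, (q : ℝ) ^ (-(7 / 8) : ℝ) + ∑ q ∈ t, (q : ℝ) ^ (-(7 / 8) : ℝ) := by
        intro s t
        have h6 := sum_union_inter (s₁ := s) (s₂ := t) (f := fun q : ℕ => (q : ℝ) ^ (-(7 / 8) : ℝ))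
        have h7 : 0 ≤ ∑ q ∈ s ∩ t, (q : ℝ) ^ (-(7 / 8) : ℝ) :=
          sum_nonneg fun q _ => by positivity
        linarith
      refine (sum_le_sum_of_subset_of_nonneg hsub (fun q _ _ => by positivity)).trans ?_
      refine (h5 _ _).trans ?_
      have h8 : 1091 / 1000 * (1 + 13 * Real.log P) ^ 2 *
          ((b : ℝ) ^ (-(1 / 8) : ℝ) * ((2 : ℝ) ^ (-(1 / 8) : ℝ)) ^ n) =
          1091 / 1000 * (1 + 13 * Real.log P) ^ 2 * (b : ℝ) ^ (-(1 / 8) : ℝ) *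
          ((2 : ℝ) ^ (-(1 / 8) : ℝ)) ^ n := by ring
      rw [h8] at h1
      exact add_le_add ih h1

/-- Sum `wief3` over the dyadic intervals `(2 ^ j b, 2 ^ (j + 1) b]`:
`q ^ (-7/8) ≤ (2 ^ (j + 1) b) ^ (1/8) / q`, `∑_j 2 ^ (-j/8) ≤ 12.1`. -/
theorem sigA2 {P b : ℕ} (hP : P.Prime) (hb : 2 ≤ b) :
    ∑ q ∈ (Ioc b (P ^ 4)).filter (fun q => q.Prime ∧ q ^ (P - 1) % P ^ 2 = 1),
      (q : ℝ) ^ (-(7 / 8) : ℝ) ≤ 14 * (1 + 13 * Real.log P) ^ 2 / (b : ℝ) ^ (1 / 8 : ℝ) := by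
  have hb0 : (0 : ℝ) < b := by exact_mod_cast (by omega : 0 < b)
  have h1 := SigA2.ind hP hb (P ^ 4)
  have h2 : min (2 ^ (P ^ 4) * b) (P ^ 4) = P ^ 4 := by
    apply min_eq_right
    have h3 : P ^ 4 < 2 ^ (P ^ 4) := Nat.lt_two_pow_self
    calc P ^ 4 ≤ 2 ^ (P ^ 4) * 1 := by rw [mul_one]; exact h3.le
      _ ≤ 2 ^ (P ^ 4) * b := Nat.mul_le_mul_left _ (by omega)
  rw [h2] at h1
  refine h1.trans ?_
  have h3 := SigA2.geom (P ^ 4)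
  have h4 : 14 * (1 + 13 * Real.log P) ^ 2 / (b : ℝ) ^ (1 / 8 : ℝ) =
      14 * (1 + 13 * Real.log P) ^ 2 * (b : ℝ) ^ (-(1 / 8) : ℝ) := by
    rw [Real.rpow_neg hb0.le, div_eq_mul_inv]
  rw [h4]
  have h5 : 0 ≤ (1 + 13 * Real.log P) ^ 2 * (b : ℝ) ^ (-(1 / 8) : ℝ) := by positivity
  calc 1091 / 1000 * (1 + 13 * Real.log P) ^ 2 * (b : ℝ) ^ (-(1 / 8) : ℝ) *
        ∑ j ∈ range (P ^ 4), ((2 : ℝ) ^ (-(1 / 8) : ℝ)) ^ j
      ≤ 1091 / 1000 * (1 + 13 * Real.log P) ^ 2 * (b : ℝ) ^ (-(1 / 8) : ℝ) * (121 / 10) :=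
        mul_le_mul_of_nonneg_left h3 (by positivity)
    _ = 1091 / 1000 * (121 / 10) * ((1 + 13 * Real.log P) ^ 2 * (b : ℝ) ^ (-(1 / 8) : ℝ)) := by
        ring
    _ ≤ 14 * ((1 + 13 * Real.log P) ^ 2 * (b : ℝ) ^ (-(1 / 8) : ℝ)) :=
        mul_le_mul_of_nonneg_right (by norm_num) h5
    _ = _ := by ring

end P033
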