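import Mathlib

/-!
# P033B, module SIGB
-/

namespace P033

open Finset

/-- `∑_{d ∣ R, d > 1} 2 ^ ω(d) d ^ (-1/2) = ∏_{P ∣ R} (1 + 2 P ^ (-1/2)) - 1`, and
`exp t - 1 ≤ 2 t` for `0 ≤ t ≤ 1`. -/
theorem sigB {R : ℕ} (hR : Squarefree R) (h : 2 * ∑ P ∈ R.primeFactors, (P : ℝ) ^ (-(1 / 2) : ℝ) ≤ 1) :
    ∑ d ∈ R.divisors.filter (fun d => 1 < d), 2 ^ d.primeFactors.card * (d : ℝ) ^ (-(1 / 2) : ℝ) ≤
      4 * ∑ P ∈ R.primeFactors, (P : ℝ) ^ (-(1 / 2) : ℝ) := by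
  set f : ℕ → ℝ := fun P => 2 * (P : ℝ) ^ (-(1 / 2) : ℝ) with hf
  have hf0 : ∀ P, 0 ≤ f P := fun P => by
    rw [hf]
    have := Real.rpow_nonneg (Nat.cast_nonneg (α := ℝ) P) (-(1 / 2))
    positivity
  have hd : ∀ d ∈ R.divisors.filter (fun d => 1 < d),
      2 ^ d.primeFactors.card * (d : ℝ) ^ (-(1 / 2) : ℝ) = ∏ P ∈ d.primeFactors, f P := by
    intro d hd
    rw [mem_filter, Nat.mem_divisors] at hd
    have hsq : Squarefree d := hR.squarefree_of_dvd hd.1.1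
    have h1 : (d : ℝ) = ∏ P ∈ d.primeFactors, (P : ℝ) := by
      conv_lhs => rw [← Nat.prod_primeFactors_of_squarefree hsq]
      rw [Nat.cast_prod]
    rw [hf, prod_mul_distrib, prod_const]
    congr 1
    conv_lhs => rw [h1]
    rw [Real.finsetProd_rpow _ _ fun P _ => Nat.cast_nonneg P]
  rw [sum_congr rfl hd]
  have hinj : Set.InjOn Nat.primeFactors (R.divisors.filter (fun d => 1 < d) : Finset ℕ) := by
    intro a ha b hb hab
    rw [mem_coe, mem_filter, Nat.mem_divisors] at ha hb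
    rw [← Nat.prod_primeFactors_of_squarefree (hR.squarefree_of_dvd ha.1.1), hab,
      Nat.prod_primeFactors_of_squarefree (hR.squarefree_of_dvd hb.1.1)]
  have h2 : ∑ d ∈ R.divisors.filter (fun d => 1 < d), ∏ P ∈ d.primeFactors, f P =
      ∑ T ∈ (R.divisors.filter (fun d => 1 < d)).image Nat.primeFactors, ∏ P ∈ T, f P :=
    (sum_image (f := fun T : Finset ℕ => ∏ P ∈ T, f P) hinj).symm
  have h3 : (R.divisors.filter (fun d => 1 < d)).image Nat.primeFactors ⊆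
      R.primeFactors.powerset.erase ∅ := by
    intro T hT
    rw [mem_image] at hT
    obtain ⟨d, hd, rfl⟩ := hT
    rw [mem_filter, Nat.mem_divisors] at hd
    rw [mem_erase, mem_powerset]
    refine ⟨?_, Nat.primeFactors_mono hd.1.1 hd.1.2⟩
    intro h0
    rw [Nat.primeFactors_eq_empty] at h0
    omega
  have h4 : ∑ T ∈ R.primeFactors.powerset.erase ∅, ∏ P ∈ T, f P =
      ∏ P ∈ R.primeFactors, (1 + f P) - 1 := by
    rw [Finset.prod_one_add, ← sum_erase_add _ _ (empty_mem_powerset R.primeFactors)]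
    simp
  have h5 : ∏ P ∈ R.primeFactors, (1 + f P) ≤ Real.exp (∑ P ∈ R.primeFactors, f P) := by
    rw [Real.exp_sum]
    refine prod_le_prod (fun P _ => by linarith [hf0 P]) fun P _ => ?_
    linarith [Real.add_one_le_exp (f P)]
  have h6 : ∑ P ∈ R.primeFactors, f P = 2 * ∑ P ∈ R.primeFactors, (P : ℝ) ^ (-(1 / 2) : ℝ) := by
    rw [mul_sum]
  have h7 : 0 ≤ ∑ P ∈ R.primeFactors, f P := sum_nonneg fun P _ => hf0 P
  have h8 : |Real.exp (∑ P ∈ R.primeFactors, f P) - 1| ≤ 2 * |∑ P ∈ R.primeFactors, f P| :=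
    Real.abs_exp_sub_one_le (by rw [abs_of_nonneg h7, h6]; exact h)
  rw [abs_of_nonneg h7] at h8
  have h9 := (le_abs_self _).trans h8
  rw [h2]
  refine (sum_le_sum_of_subset_of_nonneg h3 fun T _ _ => prod_nonneg fun P _ => hf0 P).trans ?_
  rw [h4]
  rw [h6] at h9 h5
  linarith

end P033
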