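import Vale.Agent.P033B.SigA1
import Vale.Agent.P033B.SigA2
import Vale.Agent.P033B.SigB
import Vale.Agent.P033B.RelCnt
import Vale.Agent.P033B.ExD

/-!
# P033B, module SIGMA
-/

namespace P033

open Finset

private theorem sgm_term {R q : ℕ} (hR : Squarefree R) (hq : q.Prime) :
    (Real.exp (mW R.primeFactors q / 4) - 1) / q ≤
      (∑ P ∈ R.primeFactors, ((if P ∣ q - 1 ∧ q ≤ P ^ 4 then (q : ℝ) ^ (-(7 / 8) : ℝ) else 0) +
        (if q ^ (P - 1) % P ^ 2 = 1 ∧ q ≤ P ^ 4 then (q : ℝ) ^ (-(7 / 8) : ℝ) else 0))) +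
      ∑ d ∈ R.divisors.filter (fun d => 1 < d),
        (if d ^ 2 ≤ q ∧ ∀ P ∈ d.primeFactors, Rel q P then (d : ℝ) ^ (1 / 2 : ℝ) * (1 / q) else 0) := by
  have hq0 : (0:ℝ) < q := by exact_mod_cast hq.pos
  have hq1 : (1:ℝ) < q := by exact_mod_cast hq.one_lt
  have hA0 : ∀ P ∈ R.primeFactors, 0 ≤
      ((if P ∣ q - 1 ∧ q ≤ P ^ 4 then (q : ℝ) ^ (-(7 / 8) : ℝ) else 0) +
        (if q ^ (P - 1) % P ^ 2 = 1 ∧ q ≤ P ^ 4 then (q : ℝ) ^ (-(7 / 8) : ℝ) else 0)) := by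
    intro P _
    apply add_nonneg
    · split_ifs
      · positivity
      · exact le_rfl
    · split_ifs
      · positivity
      · exact le_rfl
  have hB0 : ∀ d ∈ R.divisors.filter (fun d => 1 < d), 0 ≤
        (if d ^ 2 ≤ q ∧ ∀ P ∈ d.primeFactors, Rel q P then (d : ℝ) ^ (1 / 2 : ℝ) * (1 / q) else 0) := by
    intro d _
    split_ifs
    · positivity
    · exact le_rfl
  by_cases hA : ∃ P ∈ R.primeFactors, P ≠ q ∧ Rel q P ∧ q < P ^ 4
  · obtain ⟨P, hP, hPq, hrel, hlt⟩ := hA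
    have h1 : (Real.exp (mW R.primeFactors q / 4) - 1) / q ≤ (q : ℝ) ^ (-(7 / 8) : ℝ) := by
      have h2 : mW R.primeFactors q / 4 ≤ Real.log q * (1 / 8) := by
        have := mW_le_half R.primeFactors q
        linarith
      have h3 : Real.exp (mW R.primeFactors q / 4) ≤ (q : ℝ) ^ (1 / 8 : ℝ) := by
        rw [Real.rpow_def_of_pos hq0]
        exact Real.exp_le_exp.2 h2
      rw [div_le_iff₀ hq0]
      have h4 : (q : ℝ) ^ (-(7 / 8) : ℝ) * q = (q : ℝ) ^ (1 / 8 : ℝ) := by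
        nth_rewrite 2 [← Real.rpow_one (q : ℝ)]
        rw [← Real.rpow_add hq0]
        norm_num
      rw [h4]
      linarith
    have h2 : (q : ℝ) ^ (-(7 / 8) : ℝ) ≤
        ((if P ∣ q - 1 ∧ q ≤ P ^ 4 then (q : ℝ) ^ (-(7 / 8) : ℝ) else 0) +
        (if q ^ (P - 1) % P ^ 2 = 1 ∧ q ≤ P ^ 4 then (q : ℝ) ^ (-(7 / 8) : ℝ) else 0)) := by
      have hpos : (0:ℝ) ≤ (q : ℝ) ^ (-(7 / 8) : ℝ) := by positivity
      rcases hrel with h | h
      · rw [if_pos ⟨h, hlt.le⟩]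
        split_ifs <;> linarith
      · rw [if_pos (show q ^ (P - 1) % P ^ 2 = 1 ∧ q ≤ P ^ 4 from ⟨h, hlt.le⟩)]
        split_ifs <;> linarith
    have h3 := single_le_sum hA0 hP
    have h4 := sum_nonneg hB0
    linarith
  · push Not at hA
    have hsA := sum_nonneg hA0
    by_cases hne : (R.primeFactors.filter (fun P => P ≠ q ∧ Rel q P)).Nonempty
    · obtain ⟨d, hdR, hdsq, hd1, hdq, hdrel, hmW⟩ := exists_d (Nat.pos_of_ne_zero hR.ne_zero)
        hq.one_lt.le hne hA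
      have hdmem : d ∈ R.divisors.filter (fun d => 1 < d) := by
        rw [mem_filter, Nat.mem_divisors]
        exact ⟨⟨hdR, hR.ne_zero⟩, hd1⟩
      have hd0 : (0:ℝ) < d := by
        have : 0 < d := by omega
        exact_mod_cast this
      have h1 : (Real.exp (mW R.primeFactors q / 4) - 1) / q ≤ (d : ℝ) ^ (1 / 2 : ℝ) * (1 / q) := by
        have h2 : Real.exp (mW R.primeFactors q / 4) ≤ (d : ℝ) ^ (1 / 2 : ℝ) := by
          rw [Real.rpow_def_of_pos hd0]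
          apply Real.exp_le_exp.2
          linarith
        rw [div_le_iff₀ hq0]
        have h3 : (d : ℝ) ^ (1 / 2 : ℝ) * (1 / q) * q = (d : ℝ) ^ (1 / 2 : ℝ) := by
          field_simp
        rw [h3]
        linarith
      have h2 := single_le_sum hB0 hdmem
      rw [if_pos ⟨hdq, hdrel⟩] at h2
      linarith
    · rw [not_nonempty_iff_eq_empty] at hne
      have h1 : Wt R.primeFactors q = 0 := by
        unfold Wt
        rw [hne, sum_empty]
      have h2 : mW R.primeFactors q = 0 := by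
        unfold mW
        rw [h1]
        apply min_eq_left
        have := Real.log_nonneg hq1.le
        linarith
      rw [h2]
      have h3 := sum_nonneg hB0
      simp only [zero_div, Real.exp_zero, sub_self]
      linarith

/-- Splitting of the Rankin sum.  For a prime `q` with `mW > 0` either some `P ∣ R`, `P ≠ q`,
`Rel q P` has `q < P ^ 4`, and `(exp (mW / 4) - 1) / q ≤ q ^ (-7/8)`, or `exists_d` applies and
`exp (mW / 4) - 1 ≤ d ^ (1/2)`. -/
theorem sg_split {R z x : ℕ} (hz : 2 ≤ z) (hR : Squarefree R) :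
    Sg R z x ≤ ∑ P ∈ R.primeFactors, (8 * (P : ℝ) ^ (-(1 / 2) : ℝ) +
        14 * (1 + 13 * Real.log P) ^ 2 / (z : ℝ) ^ (1 / 8 : ℝ)) +
      (1 + Real.log x) * ∑ d ∈ R.divisors.filter (fun d => 1 < d),
        2 ^ d.primeFactors.card * (d : ℝ) ^ (-(1 / 2) : ℝ) := by
  classical
  set Qs := (Ioc z x).filter (fun q => q.Prime ∧ ¬ q ∣ R) with hQs
  have h1 : Sg R z x ≤ ∑ q ∈ Qs,
      ((∑ P ∈ R.primeFactors, ((if P ∣ q - 1 ∧ q ≤ P ^ 4 then (q : ℝ) ^ (-(7 / 8) : ℝ) else 0) +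
        (if q ^ (P - 1) % P ^ 2 = 1 ∧ q ≤ P ^ 4 then (q : ℝ) ^ (-(7 / 8) : ℝ) else 0))) +
      ∑ d ∈ R.divisors.filter (fun d => 1 < d),
        (if d ^ 2 ≤ q ∧ ∀ P ∈ d.primeFactors, Rel q P then (d : ℝ) ^ (1 / 2 : ℝ) * (1 / q) else 0)) := by
    unfold Sg
    refine sum_le_sum fun q hq => ?_
    rw [mem_filter, mem_Ioc] at hq
    exact sgm_term hR hq.2.1
  refine h1.trans ?_
  rw [sum_add_distrib]
  apply add_le_add
  · rw [sum_comm]
    refine sum_le_sum fun P hP => ?_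
    have hPp := Nat.prime_of_mem_primeFactors hP
    rw [sum_add_distrib]
    apply add_le_add
    · refine le_trans ?_ (sigA1 hPp.two_le)
      rw [← sum_filter]
      refine sum_le_sum_of_subset_of_nonneg ?_ fun _ _ _ => by positivity
      intro q hq
      rw [mem_filter, hQs, mem_filter, mem_Ioc] at hq
      rw [mem_filter, mem_Ioc]
      exact ⟨⟨hq.1.2.1.one_lt, hq.2.2⟩, hq.2.1⟩
    · refine le_trans ?_ (sigA2 hPp hz)
      rw [← sum_filter]
      refine sum_le_sum_of_subset_of_nonneg ?_ fun _ _ _ => by positivity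
      intro q hq
      rw [mem_filter, hQs, mem_filter, mem_Ioc] at hq
      rw [mem_filter, mem_Ioc]
      exact ⟨⟨hq.1.1.1, hq.2.2⟩, hq.1.2.1, hq.2.1⟩
  · rw [sum_comm, mul_sum]
    refine sum_le_sum fun d hd => ?_
    rw [mem_filter, Nat.mem_divisors] at hd
    have hdsq : Squarefree d := hR.squarefree_of_dvd hd.1.1
    have hd0 : (0:ℝ) < d := by
      have : 0 < d := by omega
      exact_mod_cast this
    have h2 := rel_cnt (x := x) hdsq
    calc ∑ q ∈ Qs, (if d ^ 2 ≤ q ∧ ∀ P ∈ d.primeFactors, Rel q P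
          then (d : ℝ) ^ (1 / 2 : ℝ) * (1 / q) else 0)
        = ∑ q ∈ Qs.filter (fun q => d ^ 2 ≤ q ∧ ∀ P ∈ d.primeFactors, Rel q P),
          (d : ℝ) ^ (1 / 2 : ℝ) * (1 / q) := (sum_filter _ _).symm
      _ = (d : ℝ) ^ (1 / 2 : ℝ) *
          ∑ q ∈ Qs.filter (fun q => d ^ 2 ≤ q ∧ ∀ P ∈ d.primeFactors, Rel q P), (1 : ℝ) / q := by
          rw [mul_sum]
      _ ≤ (d : ℝ) ^ (1 / 2 : ℝ) * (2 ^ d.primeFactors.card * (1 + Real.log x) / d) := by
          apply mul_le_mul_of_nonneg_left _ (by positivity)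
          refine le_trans ?_ h2
          refine sum_le_sum_of_subset_of_nonneg ?_ fun _ _ _ => by positivity
          intro q hq
          rw [mem_filter, hQs, mem_filter, mem_Ioc] at hq
          rw [mem_filter, mem_Icc]
          exact ⟨⟨hq.2.1, hq.1.1.2⟩, hq.2.2⟩
      _ = (1 + Real.log x) * (2 ^ d.primeFactors.card * (d : ℝ) ^ (-(1 / 2) : ℝ)) := by
          have h3 : (d : ℝ) ^ (1 / 2 : ℝ) / d = (d : ℝ) ^ (-(1 / 2) : ℝ) := by
            nth_rewrite 2 [← Real.rpow_one (d : ℝ)]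
            rw [← Real.rpow_sub hd0]
            norm_num
          rw [← h3]
          ring

/-- Numerics: `ω(R) ≤ log₂ R ≤ 2 log x`, `P > z ≥ (log x) ^ 40`. -/
theorem sg_le {x z R : ℕ} (hL : 200 ≤ Real.log x) (hz : (Real.log x) ^ 40 ≤ z)
    (hRx : R ≤ x) (hR : Squarefree R) (hRz : ∀ P ∈ R.primeFactors, z < P) : Sg R z x ≤ 1 := by
  obtain ⟨L, hLdef⟩ : ∃ L, L = Real.log x := ⟨_, rfl⟩
  rw [← hLdef] at hL hz
  have hL0 : 0 < L := by linarith
  have hR0 : 0 < R := Nat.pos_of_ne_zero hR.ne_zero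
  have hz2 : 2 ≤ z := by
    have h1 : (2:ℝ) ≤ L ^ 40 := by
      calc (2:ℝ) ≤ L := by linarith
        _ = L ^ 1 := (pow_one L).symm
        _ ≤ L ^ 40 := pow_le_pow_right₀ (by linarith) (by norm_num)
    exact_mod_cast h1.trans hz
  have hzpos : (0:ℝ) < z := by
    have : 0 < z := by omega
    exact_mod_cast this
  -- size of the prime factors
  have hPz : ∀ P ∈ R.primeFactors, (P : ℝ) ^ (-(1 / 2) : ℝ) ≤ (L ^ 20)⁻¹ := by
    intro P hP
    have h1 : L ^ 40 ≤ (P : ℝ) := hz.trans (by exact_mod_cast (hRz P hP).le)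
    have h2 : (P : ℝ) ^ (-(1 / 2) : ℝ) ≤ (L ^ 40) ^ (-(1 / 2) : ℝ) :=
      Real.rpow_le_rpow_of_nonpos (by positivity) h1 (by norm_num)
    have h3 : (L ^ 40) ^ (-(1 / 2) : ℝ) = (L ^ 20)⁻¹ := by
      rw [← Real.rpow_natCast L 40, ← Real.rpow_mul hL0.le, ← Real.rpow_natCast L 20,
        ← Real.rpow_neg hL0.le]
      norm_num
    rwa [h3] at h2
  have hlogP : ∀ P ∈ R.primeFactors, 0 ≤ Real.log P ∧ Real.log P ≤ L := by
    intro P hP
    refine ⟨Real.log_natCast_nonneg P, ?_⟩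
    rw [hLdef]
    have hPp := Nat.prime_of_mem_primeFactors hP
    apply Real.log_le_log
    · exact_mod_cast hPp.pos
    · exact_mod_cast (Nat.le_of_dvd hR0 (Nat.dvd_of_mem_primeFactors hP)).trans hRx
  have hcard : (R.primeFactors.card : ℝ) ≤ L := by
    have h1 : (Real.log ((∏ p ∈ R.primeFactors, p : ℕ) : ℝ)) = ∑ p ∈ R.primeFactors, Real.log p := by
      push_cast
      rw [Real.log_prod]
      intro p hp
      exact_mod_cast (Nat.prime_of_mem_primeFactors hp).ne_zero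
    have h2 : ∑ p ∈ R.primeFactors, (1:ℝ) ≤ ∑ p ∈ R.primeFactors, Real.log p := by
      refine sum_le_sum fun p hp => ?_
      rw [Real.le_log_iff_exp_le (by exact_mod_cast (Nat.prime_of_mem_primeFactors hp).pos)]
      have h3 : (3:ℝ) ≤ p := by
        have : 3 ≤ p := by
          have := hRz p hp
          omega
        exact_mod_cast this
      linarith [Real.exp_one_lt_d9]
    have h3 : Real.log ((∏ p ∈ R.primeFactors, p : ℕ) : ℝ) ≤ L := by
      rw [hLdef]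
      apply Real.log_le_log
      · have : 0 < ∏ p ∈ R.primeFactors, p :=
          prod_pos fun p hp => (Nat.prime_of_mem_primeFactors hp).pos
        exact_mod_cast this
      · exact_mod_cast (Nat.le_of_dvd hR0 (Nat.prod_primeFactors_dvd R)).trans hRx
    rw [sum_const, nsmul_eq_mul, mul_one] at h2
    linarith
  have hsum : ∑ P ∈ R.primeFactors, (P : ℝ) ^ (-(1 / 2) : ℝ) ≤ L * (L ^ 20)⁻¹ := by
    calc ∑ P ∈ R.primeFactors, (P : ℝ) ^ (-(1 / 2) : ℝ) ≤ ∑ _P ∈ R.primeFactors, (L ^ 20)⁻¹ :=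
          sum_le_sum hPz
      _ = R.primeFactors.card * (L ^ 20)⁻¹ := by rw [sum_const, nsmul_eq_mul]
      _ ≤ L * (L ^ 20)⁻¹ := mul_le_mul_of_nonneg_right hcard (by positivity)
  have hL20 : L * (L ^ 20)⁻¹ ≤ 1 / 10000 * L⁻¹ := by
    have h1 : L * (L ^ 20)⁻¹ = (L ^ 18)⁻¹ * L⁻¹ := by
      field_simp
    rw [h1]
    apply mul_le_mul_of_nonneg_right _ (by positivity)
    rw [one_div]
    apply inv_anti₀ (by norm_num)
    calc (10000:ℝ) ≤ 200 ^ 2 := by norm_num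
      _ ≤ L ^ 2 := pow_le_pow_left₀ (by norm_num) hL 2
      _ ≤ L ^ 18 := pow_le_pow_right₀ (by linarith) (by norm_num)
  have hLinv : L⁻¹ ≤ 1 / 200 := by
    rw [one_div]
    exact inv_anti₀ (by norm_num) hL
  have hLL : L * L⁻¹ = 1 := mul_inv_cancel₀ hL0.ne'
  have hLi0 : 0 < L⁻¹ := by positivity
  -- first sum
  have hz8 : L ^ 5 ≤ (z : ℝ) ^ (1 / 8 : ℝ) := by
    have h1 : (L ^ 40) ^ (1 / 8 : ℝ) ≤ (z : ℝ) ^ (1 / 8 : ℝ) :=
      Real.rpow_le_rpow (by positivity) hz (by norm_num)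
    have h2 : (L ^ 40) ^ (1 / 8 : ℝ) = L ^ 5 := by
      rw [← Real.rpow_natCast L 40, ← Real.rpow_mul hL0.le, ← Real.rpow_natCast L 5]
      norm_num
    rwa [h2] at h1
  have hS2 : ∑ P ∈ R.primeFactors, (14 * (1 + 13 * Real.log P) ^ 2 / (z : ℝ) ^ (1 / 8 : ℝ)) ≤ 1 / 4 := by
    have hterm : ∀ P ∈ R.primeFactors,
        14 * (1 + 13 * Real.log P) ^ 2 / (z : ℝ) ^ (1 / 8 : ℝ) ≤ 2744 * (L ^ 3)⁻¹ := by
      intro P hP
      obtain ⟨h0, h1⟩ := hlogP P hP
      have h2 : (1 + 13 * Real.log P) ^ 2 ≤ (14 * L) ^ 2 :=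
        pow_le_pow_left₀ (by positivity) (by linarith) 2
      calc 14 * (1 + 13 * Real.log P) ^ 2 / (z : ℝ) ^ (1 / 8 : ℝ)
          ≤ 14 * (14 * L) ^ 2 / L ^ 5 :=
            div_le_div₀ (by positivity) (by linarith) (by positivity) hz8
        _ = 2744 * (L ^ 3)⁻¹ := by field_simp; ring
    calc ∑ P ∈ R.primeFactors, (14 * (1 + 13 * Real.log P) ^ 2 / (z : ℝ) ^ (1 / 8 : ℝ))
        ≤ ∑ _P ∈ R.primeFactors, 2744 * (L ^ 3)⁻¹ := sum_le_sum hterm
      _ = R.primeFactors.card * (2744 * (L ^ 3)⁻¹) := by rw [sum_const, nsmul_eq_mul]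
      _ ≤ L * (2744 * (L ^ 3)⁻¹) := mul_le_mul_of_nonneg_right hcard (by positivity)
      _ = 2744 * L⁻¹ * L⁻¹ := by field_simp
      _ ≤ 2744 * (1 / 200) * (1 / 200) := by
          apply mul_le_mul _ hLinv hLi0.le (by norm_num)
          exact mul_le_mul_of_nonneg_left hLinv (by norm_num)
      _ ≤ 1 / 4 := by norm_num
  have hsB := sigB hR (by nlinarith)
  have hsplit := sg_split (x := x) hz2 hR
  rw [sum_add_distrib, ← mul_sum, ← hLdef] at hsplit
  have hT : (1 + L) * ∑ d ∈ R.divisors.filter (fun d => 1 < d),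
        2 ^ d.primeFactors.card * (d : ℝ) ^ (-(1 / 2) : ℝ) ≤ 1 / 4 := by
    calc (1 + L) * ∑ d ∈ R.divisors.filter (fun d => 1 < d),
        2 ^ d.primeFactors.card * (d : ℝ) ^ (-(1 / 2) : ℝ)
        ≤ (1 + L) * (4 * (1 / 10000 * L⁻¹)) := by
          apply mul_le_mul_of_nonneg_left _ (by positivity)
          linarith
      _ = 4 / 10000 * L⁻¹ + 4 / 10000 * (L * L⁻¹) := by ring
      _ ≤ 1 / 4 := by rw [hLL]; linarith
  linarith

end P033
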