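import Vale.Agent.P033B.Det2
import Vale.Agent.P033B.Sigma
import Vale.Agent.P033B.CountM
import Vale.Agent.P033B.CountT
import Vale.Agent.P033B.Rank1
import Vale.Agent.P033B.Asym2

/-!
# P033B, module POWER
-/

namespace P033

open Finset

private theorem pwr_log_le {a x : ℕ} {c : ℝ} (hx : 0 < Real.log x) (hc : 0 ≤ c)
    (h : (a : ℝ) < (x : ℝ) ^ c) : Real.log a ≤ c * Real.log x := by
  have hx0 : (0:ℝ) < x := by
    rcases Nat.eq_zero_or_pos x with h0 | h0
    · rw [h0] at hx; simp at hx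
    · exact_mod_cast h0
  rcases Nat.eq_zero_or_pos a with h0 | h0
  · rw [h0]; simp only [Nat.cast_zero, Real.log_zero]; positivity
  · have ha : (0:ℝ) < a := by exact_mod_cast h0
    have h1 := Real.log_le_log ha h.le
    rwa [Real.log_rpow hx0] at h1

/-- The set splits into: `u < x ^ (1 - 1/900)`; `x ^ (1/15) ≤ sm z u` (`count_T1`);
`∃ s ≥ x ^ (1/900), s ^ 2 ∣ u` (`count_T2`); `∃ R, ...` with `s = log x / 120`
(`count_T3`, `sg_le`); the rest is empty by `det2`. -/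
theorem power : ∃ x₀ : ℕ, ∀ x ≥ x₀,
    (Nat.card {u : ℕ // u ∈ Icc 1 x ∧ HasPerf (4 * u ^ 2)} : ℝ) ≤
      (x : ℝ) ^ (1 - 1 / 1000 : ℝ) := by
  classical
  obtain ⟨x₀, hx₀⟩ := asym2
  refine ⟨x₀, fun x hx => ?_⟩
  obtain ⟨z, hL, hz, hsum⟩ := hx₀ x hx
  have hLpos : 0 < Real.log x := by linarith
  have hx0 : (0:ℝ) < x := by
    rcases Nat.eq_zero_or_pos x with h0 | h0
    · rw [h0] at hLpos; simp at hLpos
    · exact_mod_cast h0
  have hz1 : 1 ≤ z := by
    have h1 : (1:ℝ) ≤ (Real.log x) ^ 40 := one_le_pow₀ (by linarith)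
    exact_mod_cast h1.trans hz
  have hcard : Nat.card {u : ℕ // u ∈ Icc 1 x ∧ HasPerf (4 * u ^ 2)} =
      ((Icc 1 x).filter fun u => HasPerf (4 * u ^ 2)).card := by
    apply Nat.subtype_card
    intro u
    rw [mem_filter]
  rw [hcard]
  refine le_trans ?_ hsum
  set F0 := (Icc 1 x).filter fun u : ℕ => (u : ℝ) < (x : ℝ) ^ (1 - 1 / 900 : ℝ) with hF0
  set F1 := (Icc 1 x).filter fun u : ℕ => (x : ℝ) ^ (1 / 15 : ℝ) ≤ (sm z u : ℝ) with hF1
  set F2 := (Icc 1 x).filter fun u : ℕ => ∃ s : ℕ, (x : ℝ) ^ (1 / 900 : ℝ) ≤ s ∧ s ^ 2 ∣ u with hF2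
  set F3 := (Icc 1 x).filter fun u : ℕ => ∃ R, R ∣ u ∧ Squarefree R ∧
      (∀ P ∈ R.primeFactors, z < P) ∧ Real.log x / 120 ≤ GR z R (u / R) with hF3
  have hsub : ((Icc 1 x).filter fun u => HasPerf (4 * u ^ 2)) ⊆ F0 ∪ F1 ∪ F2 ∪ F3 := by
    intro u hu
    rw [mem_filter] at hu
    by_contra hcon
    rw [mem_union, mem_union, mem_union, not_or, not_or, not_or] at hcon
    obtain ⟨⟨⟨n0, n1⟩, n2⟩, n3⟩ := hcon
    rw [hF0, mem_filter, not_and, not_lt] at n0
    rw [hF1, mem_filter, not_and, not_le] at n1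
    rw [hF2, mem_filter, not_and] at n2
    rw [hF3, mem_filter, not_and] at n3
    have n0 := n0 hu.1
    have n1 := n1 hu.1
    have n2 := n2 hu.1
    have n3 := n3 hu.1
    push Not at n2 n3
    have hu1 := mem_Icc.1 hu.1
    refine det2 (x := x) (u := u) (z := z) hu1.1 hu1.2 hL hz ?_ ?_ ?_ ?_ hu.2
    · have h1 := Real.log_le_log (by positivity) n0
      rwa [Real.log_rpow hx0] at h1
    · have h1 := pwr_log_le hLpos (by norm_num) n1
      linarith
    · intro s hs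
      have h1 : (s : ℝ) < (x : ℝ) ^ (1 / 900 : ℝ) := by
        by_contra hge
        push Not at hge
        exact n2 s hge hs
      have h2 := pwr_log_le hLpos (by norm_num) h1
      linarith
    · intro R hR hsq hRz
      exact n3 R hR hsq hRz
  have c0 : (F0.card : ℝ) ≤ (x : ℝ) ^ (1 - 1 / 900 : ℝ) := by
    have hpos : (0:ℝ) ≤ (x : ℝ) ^ (1 - 1 / 900 : ℝ) := by positivity
    have h1 : F0 ⊆ Icc 1 ⌊(x : ℝ) ^ (1 - 1 / 900 : ℝ)⌋₊ := by
      intro u hu
      rw [hF0, mem_filter, mem_Icc] at hu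
      rw [mem_Icc]
      exact ⟨hu.1.1, Nat.le_floor hu.2.le⟩
    have h2 := card_le_card h1
    rw [Nat.card_Icc, Nat.add_sub_cancel] at h2
    calc (F0.card : ℝ) ≤ ((⌊(x : ℝ) ^ (1 - 1 / 900 : ℝ)⌋₊ : ℕ) : ℝ) := by exact_mod_cast h2
      _ ≤ _ := Nat.floor_le hpos
  have c1 := count_T1 (x := x) (z := z) hz1 (y := (x : ℝ) ^ (1 / 15 : ℝ)) (by positivity) F1
    (fun u hu => by
      rw [hF1, mem_filter, mem_Icc] at hu
      exact ⟨hu.1.1, hu.1.2, hu.2⟩)
  have c2 := count_T2 (x := x) (y := (x : ℝ) ^ (1 / 900 : ℝ)) (by positivity) F2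
    (fun u hu => by
      rw [hF2, mem_filter, mem_Icc] at hu
      exact ⟨hu.1.1, hu.1.2, hu.2⟩)
  have c3 := count_T3 (x := x) (z := z) (fun R h1 h2 h3 => sg_le hL hz h1 h2 h3)
    (Real.log x / 120) F3 (fun u hu => by
      rw [hF3, mem_filter, mem_Icc] at hu
      exact ⟨hu.1.1, hu.1.2, hu.2⟩)
  have c4 : (((Icc 1 x).filter fun u => HasPerf (4 * u ^ 2)).card : ℝ) ≤
      F0.card + F1.card + F2.card + F3.card := by
    have h1 := card_le_card hsub
    have h2 := card_union_le (F0 ∪ F1 ∪ F2) F3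
    have h3 := card_union_le (F0 ∪ F1) F2
    have h4 := card_union_le F0 F1
    have h5 : ((Icc 1 x).filter fun u => HasPerf (4 * u ^ 2)).card ≤
      F0.card + F1.card + F2.card + F3.card := by omega
    exact_mod_cast h5
  linarith

end P033
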