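import Vale.Agent.P033.Field

/-!
# P033B, module RAM0
-/

namespace P033

open NumberField

/-- In `𝓞 K`, `P` is a unit times `(1 - ω) ^ (P - 1)`, `ω` a primitive `P`-th root of unity:
`∏_{0 < j < P} (1 - ω ^ j) = P` and `(1 - ω ^ j) / (1 - ω)` is a unit. -/
theorem P_eq_unit_mul {K : Type*} [Field K] [NumberField K] {P : ℕ} (hP : P.Prime) {ω : K}
    (hω : IsPrimitiveRoot ω P) {lam : 𝓞 K} (hlam : (lam : K) = 1 - ω) :
    ∃ ε : (𝓞 K)ˣ, (P : 𝓞 K) = ε * lam ^ (P - 1) := by
  have hne : NeZero P := ⟨hP.ne_zero⟩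
  have hw : IsPrimitiveRoot hω.toInteger P := hω.toInteger_isPrimitiveRoot
  set w : 𝓞 K := hω.toInteger with hwdef
  have hl : lam = 1 - w := by
    apply RingOfIntegers.ext
    rw [hlam]
    rfl
  obtain ⟨n, rfl⟩ : ∃ n, P = n + 1 := ⟨P - 1, by have := hP.pos; omega⟩
  have hprod := hw.prod_one_sub_pow_eq_order
  have hass : Associated (∏ k ∈ Finset.range n, lam) (∏ k ∈ Finset.range n, (1 - w ^ (k + 1))) := by
    refine Associated.prod _ _ _ fun k hk => ?_
    rw [Finset.mem_range] at hk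
    have hcop : (k + 1).Coprime (n + 1) :=
      (Nat.coprime_comm.1 ((Nat.Prime.coprime_iff_not_dvd hP).2 fun h => by
        have := Nat.le_of_dvd (Nat.succ_pos k) h
        omega))
    obtain ⟨u, hu⟩ := hw.associated_sub_one_pow_sub_one_of_coprime hcop
    exact ⟨u, by rw [hl]; linear_combination -hu⟩
  rw [Finset.prod_const, Finset.card_range, hprod] at hass
  obtain ⟨u, hu⟩ := hass
  refine ⟨u, ?_⟩
  rw [Nat.add_sub_cancel, mul_comm, hu]
  push_cast
  rfl

end P033
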