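import Vale.Agent.P033B.Ram0

/-!
# P033B, module RAMA
-/

namespace P033

open NumberField IsDedekindDomain

variable {N : ℕ} [NeZero N] {K : Type*} [Field K] [NumberField K]
  [IsCyclotomicExtension {N} ℚ K] {ζ : K}

omit [IsCyclotomicExtension {N} ℚ K] in
/-- If `P ^ 2 ∣ N` then `λ = 1 - ω`, `ω = ζ ^ (N / P)`, lies in `𝔔 ^ (P - 1)` for every prime `𝔔`
over `P`.  Proof: `θ = ζ ^ (N / P ^ 2)` has `θ ^ P = ω`; `P` is a unit times `λ ^ (P - 1)`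
(`P_eq_unit_mul`), so `λ ∈ 𝔔` and `P ∈ 𝔔 ^ (P - 1)`; `(1 - θ) ^ P ≡ 1 - θ ^ P = λ mod P`
(`sub_pow_char`-style / `exists_add_pow_prime_eq`), so `1 - θ ∈ 𝔔`, `(1 - θ) ^ P ∈ 𝔔 ^ P` and
`λ ∈ 𝔔 ^ (P - 1)`. -/
theorem lam_mem (hζ : IsPrimitiveRoot ζ N) {P : ℕ} (hP : P.Prime) (hPN : P ^ 2 ∣ N) {ω : K}
    (hω : ω = ζ ^ (N / P)) {lam : 𝓞 K} (hlam : (lam : K) = 1 - ω)
    (v : HeightOneSpectrum (𝓞 K)) (hv : (P : 𝓞 K) ∈ v.asIdeal) :
    lam ∈ v.asIdeal ^ (P - 1) := by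
  have hN0 : 0 < N := NeZero.pos N
  have hPN1 : P ∣ N := (dvd_pow_self P two_ne_zero).trans hPN
  have hprim : IsPrimitiveRoot ω P := by
    rw [hω]
    refine hζ.pow hN0 ?_
    exact (Nat.div_mul_cancel hPN1).symm
  obtain ⟨ε, hε⟩ := P_eq_unit_mul hP hprim hlam
  have hP1 : P - 1 ≠ 0 := by have := hP.two_le; omega
  -- `λ ∈ 𝔔`
  have hlamv : lam ∈ v.asIdeal := by
    rw [hε] at hv
    rcases v.isPrime.mem_or_mem hv with h | h
    · exact absurd (Ideal.eq_top_of_isUnit_mem _ h ε.isUnit) v.isPrime.ne_top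
    · exact v.isPrime.mem_of_pow_mem _ h
  have hPpow : (P : 𝓞 K) ∈ v.asIdeal ^ (P - 1) := by
    rw [hε]
    exact Ideal.mul_mem_left _ _ (Ideal.pow_mem_pow hlamv _)
  -- the root `θ`
  set θ : 𝓞 K := hζ.toInteger ^ (N / P ^ 2) with hθ
  have hθP : lam = 1 - θ ^ P := by
    apply RingOfIntegers.ext
    rw [hlam, hω]
    have h1 : N / P ^ 2 * P = N / P := by
      obtain ⟨m, hm⟩ := hPN
      rw [hm, Nat.mul_div_cancel_left _ (pow_pos hP.pos 2), pow_two, mul_assoc,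
        Nat.mul_div_cancel_left _ hP.pos, mul_comm]
    rw [hθ, ← pow_mul, h1]
    simp
    rfl
  obtain ⟨r, hr⟩ : ∃ r : 𝓞 K, (1 - θ) ^ P = lam + P * r := by
    obtain ⟨r, hr⟩ := exists_add_pow_prime_eq hP (1 : 𝓞 K) (-θ)
    rcases hP.eq_two_or_odd' with h2 | hodd
    · subst h2
      refine ⟨-θ * r + θ ^ 2, ?_⟩
      rw [sub_eq_add_neg, hr, hθP]
      push_cast
      ring
    · refine ⟨-θ * r, ?_⟩
      rw [sub_eq_add_neg, hr, hθP, hodd.neg_pow]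
      ring
  have h1 : (1 - θ) ∈ v.asIdeal := by
    refine v.isPrime.mem_of_pow_mem P ?_
    rw [hr]
    exact Ideal.add_mem _ hlamv (Ideal.mul_mem_right _ _ hv)
  have h2 : (1 - θ) ^ P ∈ v.asIdeal ^ (P - 1) :=
    Ideal.pow_le_pow_right (Nat.sub_le P 1) (Ideal.pow_mem_pow h1 P)
  have h3 : lam = (1 - θ) ^ P - P * r := by
    rw [hr]
    ring
  rw [h3]
  exact Ideal.sub_mem _ h2 (Ideal.mul_mem_right _ _ hPpow)

end P033
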