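import Vale.Agent.P033B.Ram0
import Vale.Agent.P033.Frob

/-!
# P033B, module RAMB
-/

namespace P033

open NumberField IsDedekindDomain

variable {N : ℕ} [NeZero N] {K : Type*} [Field K] [NumberField K]
  [IsCyclotomicExtension {N} ℚ K] {ζ : K}

/-- `lam ∈ 𝔔` for every prime `𝔔` over `P` -/
theorem rb_lam_mem {K : Type*} [Field K] [NumberField K] {P : ℕ} (hP : P.Prime) {ω : K}
    (hω : IsPrimitiveRoot ω P) {lam : 𝓞 K} (hlam : (lam : K) = 1 - ω)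
    (v : HeightOneSpectrum (𝓞 K)) (hv : (P : 𝓞 K) ∈ v.asIdeal) : lam ∈ v.asIdeal := by
  obtain ⟨ε, hε⟩ := P_eq_unit_mul hP hω hlam
  have h1 : (ε : 𝓞 K) * lam ^ (P - 1) ∈ v.asIdeal := by rw [← hε]; exact hv
  rcases v.isPrime.mem_or_mem h1 with h2 | h2
  · exact absurd (Ideal.eq_top_of_isUnit_mem _ h2 ε.isUnit) v.isPrime.ne_top
  · exact v.isPrime.mem_of_pow_mem _ h2

omit [NeZero N] [NumberField K] [IsCyclotomicExtension {N} ℚ K] in
theorem rb_prim (hζ : IsPrimitiveRoot ζ N) (hN : 0 < N) {P : ℕ} (hPN : P ∣ N) {ω : K}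
    (hω : ω = ζ ^ (N / P)) : IsPrimitiveRoot ω P := by
  rw [hω]
  exact hζ.pow hN (Nat.div_mul_cancel hPN).symm

/-- the case `k = 0` -/
theorem rb_base (hζ : IsPrimitiveRoot ζ N) {σ : K ≃ₐ[ℚ] K} {ω : K} (hσ : σ ζ = ω * ζ)
    {lam : 𝓞 K} (hlam : (lam : K) = 1 - ω) (x : 𝓞 K) : ∃ y : 𝓞 K, rI σ x - x = lam * y := by
  have htop := IsCyclotomicExtension.Rat.adjoin_singleton_eq_top hζ
  have hx : x ∈ Algebra.adjoin ℤ {hζ.toInteger} := by rw [htop]; trivial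
  induction hx using Algebra.adjoin_induction with
  | mem x hx =>
    rw [Set.mem_singleton_iff] at hx
    subst hx
    refine ⟨-hζ.toInteger, ?_⟩
    apply RingOfIntegers.ext
    have h1 : ((rI σ hζ.toInteger - hζ.toInteger : 𝓞 K) : K) = σ ζ - ζ := by
      rw [RingOfIntegers.coe_eq_algebraMap, map_sub]
      rfl
    have h2 : ((lam * -hζ.toInteger : 𝓞 K) : K) = (lam : K) * (-ζ) := by
      rw [RingOfIntegers.coe_eq_algebraMap, map_mul, map_neg]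
      rfl
    rw [h1, h2, hlam, hσ]; ring
  | algebraMap r =>
    refine ⟨0, ?_⟩
    simp
  | add x y _ _ hx hy =>
    obtain ⟨a, ha⟩ := hx
    obtain ⟨b, hb⟩ := hy
    refine ⟨a + b, ?_⟩
    rw [map_add, mul_add, ← ha, ← hb]; ring
  | mul x y _ _ hx hy =>
    obtain ⟨a, ha⟩ := hx
    obtain ⟨b, hb⟩ := hy
    refine ⟨a * rI σ y + x * b, ?_⟩
    have : lam * (a * rI σ y + x * b) = (lam * a) * rI σ y + x * (lam * b) := by ring
    rw [map_mul, this, ← ha, ← hb]; ring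

/-- `(σ - 1) 𝔔 ^ k ⊆ λ 𝔔 ^ (k - 1)` for `𝔔` over `P` (`λ = 1 - ω ∈ 𝔔`, `σ ζ = ω ζ`).
Proof: `k = 0`: `(σ - 1) ζ ^ a = (ω ^ a - 1) ζ ^ a` (`mem_span_of_isIntegral`).
`k + 1`: for `a ∈ 𝔔 ^ k`, `b ∈ 𝔔`:
`(σ - 1)(a b) = (σ - 1) a * σ b + a * (σ - 1) b`, and `σ b ∈ 𝔔` because `(σ - 1) b ∈ λ 𝓞 ⊆ 𝔔`.
(`Submodule.mul_induction_on` on `𝔔 ^ (k + 1) = 𝔔 ^ k * 𝔔`; mind the case `k = 0`.) -/
theorem twist_sub (hζ : IsPrimitiveRoot ζ N) {P : ℕ} (hP : P.Prime) (hPN : P ∣ N)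
    {σ : K ≃ₐ[ℚ] K} {ω : K} (hω : ω = ζ ^ (N / P)) (hσ : σ ζ = ω * ζ)
    {lam : 𝓞 K} (hlam : (lam : K) = 1 - ω) (v : HeightOneSpectrum (𝓞 K))
    (hv : (P : 𝓞 K) ∈ v.asIdeal) (k : ℕ) {x : 𝓞 K} (hx : x ∈ v.asIdeal ^ k) :
    ∃ y ∈ v.asIdeal ^ (k - 1), rI σ x - x = lam * y := by
  have hlv : lam ∈ v.asIdeal :=
    rb_lam_mem hP (rb_prim hζ (Nat.pos_of_ne_zero (NeZero.ne N)) hPN hω) hlam v hv
  induction k generalizing x with
  | zero =>
    obtain ⟨y, hy⟩ := rb_base hζ hσ hlam x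
    exact ⟨y, by simp, hy⟩
  | succ k ih =>
    rw [Nat.add_sub_cancel]
    rw [pow_succ] at hx
    induction hx using Submodule.mul_induction_on' with
    | mem_mul_mem a ha b hb =>
      obtain ⟨y, hy, hy'⟩ := ih ha
      obtain ⟨z, hz⟩ := rb_base hζ hσ hlam b
      have hσb : rI σ b ∈ v.asIdeal := by
        have : rI σ b = b + lam * z := by rw [← hz]; ring
        rw [this]
        exact Ideal.add_mem _ hb (Ideal.mul_mem_right _ _ hlv)
      refine ⟨y * rI σ b + a * z, ?_, ?_⟩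
      · refine Ideal.add_mem _ ?_ (Ideal.mul_mem_right _ _ ha)
        rcases Nat.eq_zero_or_pos k with h0 | h0
        · subst h0; simp
        · have h1 := Ideal.mul_mem_mul hy hσb
          rw [← pow_succ, Nat.sub_add_cancel h0] at h1
          exact h1
      · have : lam * (y * rI σ b + a * z) = (lam * y) * rI σ b + a * (lam * z) := by ring
        rw [map_mul, this, ← hy', ← hz]; ring
    | add x hx y hy hx' hy' =>
      obtain ⟨a, ha, ha'⟩ := hx'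
      obtain ⟨b, hb, hb'⟩ := hy'
      refine ⟨a + b, Ideal.add_mem _ ha hb, ?_⟩
      rw [map_add, mul_add, ← ha', ← hb']; ring

end P033
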