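import Vale.Agent.P033B.RamA
import Vale.Agent.P033B.RamB
import Vale.Agent.P033.Supp

/-!
# P033B, module RAMC
-/

namespace P033

open NumberField IsDedekindDomain

/-- `(X - 1) ^ (P - 1) = ∑ X ^ i + P g` in `ℤ[X]` -/
theorem rc_poly {P : ℕ} (hP : P.Prime) : ∃ g : Polynomial ℤ,
    (Polynomial.X - 1) ^ (P - 1) = ∑ i ∈ Finset.range P, (Polynomial.X : Polynomial ℤ) ^ i +
      Polynomial.C (P : ℤ) * g := by
  have : Fact P.Prime := ⟨hP⟩
  have h1 : ((Polynomial.X - 1 : Polynomial (ZMod P))) ^ (P - 1) =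
      ∑ i ∈ Finset.range P, (Polynomial.X : Polynomial (ZMod P)) ^ i := by
    have h2 : (Polynomial.X - 1 : Polynomial (ZMod P)) ≠ 0 := by
      have := Polynomial.X_sub_C_ne_zero (1 : ZMod P)
      rwa [Polynomial.C_1] at this
    apply mul_right_cancel₀ h2
    rw [← pow_succ, Nat.sub_add_cancel hP.one_lt.le, geom_sum_mul, sub_pow_char]
    rw [one_pow]
  have h3 : Polynomial.C (P : ℤ) ∣ (Polynomial.X - 1) ^ (P - 1) -
      ∑ i ∈ Finset.range P, (Polynomial.X : Polynomial ℤ) ^ i := by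
    rw [Polynomial.C_dvd_iff_dvd_coeff]
    intro i
    have h4 : Polynomial.map (Int.castRingHom (ZMod P)) ((Polynomial.X - 1) ^ (P - 1) -
      ∑ i ∈ Finset.range P, (Polynomial.X : Polynomial ℤ) ^ i) = 0 := by
      simp only [Polynomial.map_sub, Polynomial.map_pow, Polynomial.map_X, Polynomial.map_one,
        Polynomial.map_sum]
      rw [h1, sub_self]
    have h5 := congrArg (fun p => Polynomial.coeff p i) h4
    simp only [Polynomial.coeff_map, Polynomial.coeff_zero] at h5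
    exact (ZMod.intCast_zmod_eq_zero_iff_dvd _ P).1 h5
  obtain ⟨g, hg⟩ := h3
  exact ⟨g, by rw [← hg]; ring⟩

variable {N : ℕ} [NeZero N] {K : Type*} [Field K] [NumberField K]
  [IsCyclotomicExtension {N} ℚ K] {ζ : K}

/-- the twisted operator `T y = w σ y` -/
noncomputable def rcT {K : Type*} [Field K] [NumberField K] (σ : K ≃ₐ[ℚ] K) (w : 𝓞 K) :
    Module.End ℤ (𝓞 K) :=
  (LinearMap.mulLeft ℤ w) ∘ₗ (rI σ).toRingHom.toAddMonoidHom.toIntLinearMap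

theorem rcT_apply {K : Type*} [Field K] [NumberField K] (σ : K ≃ₐ[ℚ] K) (w x : 𝓞 K) :
    rcT σ w x = w * rI σ x := rfl

/-- one step -/
theorem rc_step (hζ : IsPrimitiveRoot ζ N) {P : ℕ} (hP : P.Prime) (hPN : P ∣ N)
    {σ : K ≃ₐ[ℚ] K} {ω : K} (hω : ω = ζ ^ (N / P)) (hσ : σ ζ = ω * ζ)
    {lam : 𝓞 K} (hlam : (lam : K) = 1 - ω) (v : HeightOneSpectrum (𝓞 K))
    (hv : (P : 𝓞 K) ∈ v.asIdeal) {w c : 𝓞 K} (hw : w - 1 = lam * c) (k : ℕ) {x : 𝓞 K}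
    (hx : x ∈ v.asIdeal ^ k) :
    ∃ y ∈ v.asIdeal ^ (k - 1), (rcT σ w - 1) x = lam * y := by
  obtain ⟨y, hy, hy'⟩ := twist_sub hζ hP hPN hω hσ hlam v hv k hx
  refine ⟨w * y + c * x, Ideal.add_mem _ (Ideal.mul_mem_left _ _ hy) (Ideal.mul_mem_left _ _
    (Ideal.pow_le_pow_right (Nat.sub_le k 1) hx)), ?_⟩
  have h1 : (rcT σ w - 1) x = w * rI σ x - x := rfl
  have h2 : lam * (w * y + c * x) = w * (lam * y) + (lam * c) * x := by ring
  rw [h1, h2, ← hy', ← hw]; ring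

/-- iterated steps -/
theorem rc_steps (hζ : IsPrimitiveRoot ζ N) {P : ℕ} (hP : P.Prime) (hPN : P ∣ N)
    {σ : K ≃ₐ[ℚ] K} {ω : K} (hω : ω = ζ ^ (N / P)) (hσ : σ ζ = ω * ζ)
    {lam : 𝓞 K} (hlam : (lam : K) = 1 - ω) (hσl : rI σ lam = lam) (v : HeightOneSpectrum (𝓞 K))
    (hv : (P : 𝓞 K) ∈ v.asIdeal) {w c : 𝓞 K} (hw : w - 1 = lam * c) (k : ℕ) {x : 𝓞 K}
    (hx : x ∈ v.asIdeal ^ k) (j : ℕ) :
    ∃ y ∈ v.asIdeal ^ (k - j), ((rcT σ w - 1) ^ j) x = lam ^ j * y := by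
  induction j with
  | zero => exact ⟨x, hx, by simp⟩
  | succ j ih =>
    obtain ⟨y, hy, hy'⟩ := ih
    obtain ⟨z, hz, hz'⟩ := rc_step hζ hP hPN hω hσ hlam v hv hw (k - j) hy
    refine ⟨z, by rwa [Nat.sub_sub] at hz, ?_⟩
    rw [pow_succ', Module.End.mul_apply, hy']
    have h1 : (rcT σ w - 1) (lam ^ j * y) = lam ^ j * (rcT σ w - 1) y := by
      have e1 : (rcT σ w - 1) (lam ^ j * y) = w * rI σ (lam ^ j * y) - lam ^ j * y := rfl
      have e2 : (rcT σ w - 1) y = w * rI σ y - y := rfl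
      rw [e1, e2, map_mul, map_pow, hσl]; ring
    rw [h1, hz']; ring

/-- `T` preserves the powers of `𝔔` -/
theorem rc_pres (hζ : IsPrimitiveRoot ζ N) {P : ℕ} (hP : P.Prime) (hPN : P ∣ N)
    {σ : K ≃ₐ[ℚ] K} {ω : K} (hω : ω = ζ ^ (N / P)) (hσ : σ ζ = ω * ζ)
    {lam : 𝓞 K} (hlam : (lam : K) = 1 - ω) (v : HeightOneSpectrum (𝓞 K))
    (hv : (P : 𝓞 K) ∈ v.asIdeal) {w c : 𝓞 K} (hw : w - 1 = lam * c) (k : ℕ) {x : 𝓞 K}
    (hx : x ∈ v.asIdeal ^ k) : rcT σ w x ∈ v.asIdeal ^ k := by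
  have hlv : lam ∈ v.asIdeal :=
    rb_lam_mem hP (rb_prim hζ (Nat.pos_of_ne_zero (NeZero.ne N)) hPN hω) hlam v hv
  obtain ⟨y, hy, hy'⟩ := rc_step hζ hP hPN hω hσ hlam v hv hw k hx
  have h1 : rcT σ w x = x + lam * y := by
    rw [← hy']
    show _ = x + (w * rI σ x - x)
    rw [rcT_apply]; ring
  rw [h1]
  refine Ideal.add_mem _ hx ?_
  rcases Nat.eq_zero_or_pos k with h0 | h0
  · subst h0; simp
  · have h2 := Ideal.mul_mem_mul hy hlv
    rw [← pow_succ, Nat.sub_add_cancel h0, mul_comm] at h2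
    exact h2

theorem rc_aeval {R : Type*} [CommRing R] (I : Ideal R) (T : Module.End ℤ R)
    (hT : ∀ x ∈ I, T x ∈ I) (g : Polynomial ℤ) {x : R} (hx : x ∈ I) :
    (Polynomial.aeval T g) x ∈ I := by
  have hpow : ∀ i : ℕ, ∀ x ∈ I, (T ^ i) x ∈ I := by
    intro i
    induction i with
    | zero => intro x hx; simpa using hx
    | succ i ih =>
      intro x hx
      rw [pow_succ, Module.End.mul_apply]
      exact ih _ (hT x hx)
  rw [Polynomial.aeval_eq_sum_range]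
  rw [LinearMap.sum_apply]
  refine Ideal.sum_mem _ fun i _ => ?_
  rw [LinearMap.smul_apply]
  rw [zsmul_eq_mul]
  exact Ideal.mul_mem_left _ _ (hpow i x hx)

/-- The ramified case: `(1 - ω) * proj l` does not increase the valuation at a prime over `P`.
Proof: let `x ∈ 𝔔 ^ k` be integral, `λ = 1 - ω`.  `T y = ω ^ (-l) σ y` satisfies
`P * proj l x = ∑_{i < P} T ^ i x = (T - 1) ^ (P - 1) x + P * g(T) x` with `g ∈ ℤ[T]`
(`(X - 1) ^ (P - 1) ≡ ∑ X ^ i mod P`, since `(X - 1) ^ P ≡ X ^ P - 1`), or alternatively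
`P * proj l x = unit * ∏_{j ≠ l} (σ - ω ^ j) x`.  By `twist_sub` (and `1 - ω ^ j ∈ λ 𝓞`) each
factor `T - 1` (resp. `σ - ω ^ j`) maps `𝔔 ^ m` into `λ 𝔔 ^ (m - 1)`, commutes with `λ`, and `P` is
a unit times `λ ^ (P - 1)`; so `proj l x ∈ 𝔔 ^ (k - (P - 1))`.  With `lam_mem`,
`λ * proj l x ∈ 𝔔 ^ k`. -/
theorem ram_val (hζ : IsPrimitiveRoot ζ N) {P : ℕ} [NeZero P] (hPN : P ^ 2 ∣ N)
    {σ : K ≃ₐ[ℚ] K} {ω : K} (G : Grd P σ ω) (hω : ω = ζ ^ (N / P)) (hσ : σ ζ = ω * ζ)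
    (v : HeightOneSpectrum (𝓞 K)) (hv : (P : 𝓞 K) ∈ v.asIdeal) {x : K} (hx : IsIntegral ℤ x)
    (l : ZMod P) :
    v.valuation K ((1 - ω) * proj P σ ω l x) ≤ v.valuation K x := by
  have hP := G.hP
  have hN : 0 < N := Nat.pos_of_ne_zero (NeZero.ne N)
  have hPN' : P ∣ N := (dvd_pow_self P two_ne_zero).trans hPN
  have hprim := rb_prim hζ hN hPN' hω
  have hωi : IsIntegral ℤ ω := hprim.isIntegral hP.pos
  let O : 𝓞 K := ⟨ω, hωi⟩
  have hO : (O : K) = ω := rfl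
  obtain ⟨lam, hlamdef⟩ : ∃ lam : 𝓞 K, lam = 1 - O := ⟨_, rfl⟩
  have hlam : (lam : K) = 1 - ω := by
    rw [hlamdef, RingOfIntegers.coe_eq_algebraMap, map_sub, map_one]
    rfl
  have hσl : rI σ lam = lam := by
    apply RingOfIntegers.ext
    rw [coe_rI, hlam, map_sub, map_one, G.fix]
  have hlv : lam ∈ v.asIdeal := rb_lam_mem hP hprim hlam v hv
  -- the twist
  obtain ⟨w, hwdef⟩ : ∃ w : 𝓞 K, w = O ^ ((P - 1) * l.val) := ⟨_, rfl⟩
  have hw : ∃ c, w - 1 = lam * c := by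
    have h1 : (1 - O) ∣ (1 - O ^ ((P - 1) * l.val)) := by
      have := sub_dvd_pow_sub_pow (1 : 𝓞 K) O ((P - 1) * l.val)
      rwa [one_pow] at this
    obtain ⟨c, hc⟩ := h1
    refine ⟨-c, ?_⟩
    rw [hwdef, hlamdef, mul_neg, ← hc]; ring
  obtain ⟨c, hw⟩ := hw
  have hwK : (w : K) = (ω ^ l.val)⁻¹ := by
    have h0 : ω ^ l.val ≠ 0 := pow_ne_zero _ G.ne_zero
    apply eq_inv_of_mul_eq_one_left
    rw [hwdef, RingOfIntegers.coe_eq_algebraMap, map_pow]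
    have : algebraMap (𝓞 K) K O = ω := rfl
    rw [this, ← pow_add]
    have h2 : (P - 1) * l.val + l.val = P * l.val := by
      have := hP.pos
      conv_lhs => rw [← Nat.succ_mul]
      rw [Nat.succ_eq_add_one, Nat.sub_add_cancel this]
    rw [h2, pow_mul, hprim.pow_eq_one, one_pow]
  by_cases hx0 : x = 0
  · rw [hx0, proj_zero, mul_zero]
  let Xi : 𝓞 K := ⟨x, hx⟩
  have hXi : (Xi : K) = x := rfl
  have hXi0 : Xi ≠ 0 := by
    intro h
    apply hx0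
    rw [← hXi, h]; rfl
  obtain ⟨k, hk⟩ : ∃ k : ℕ, v.intValuation Xi = WithZero.exp (-(k : ℤ)) := by
    rw [v.intValuation_if_neg hXi0]
    exact ⟨_, rfl⟩
  have hXk : Xi ∈ v.asIdeal ^ k := by
    rw [← v.intValuation_le_pow_iff_mem, hk]
  -- the main computation
  obtain ⟨g, hg⟩ := rc_poly hP
  obtain ⟨y, hy, hy'⟩ := rc_steps hζ hP hPN' hω hσ hlam hσl v hv hw k hXk (P - 1)
  have hgx : (Polynomial.aeval (rcT σ w) g) Xi ∈ v.asIdeal ^ k :=
    rc_aeval _ _ (fun x hx => rc_pres hζ hP hPN' hω hσ hlam v hv hw k hx) g hXk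
  obtain ⟨ε, hε⟩ := P_eq_unit_mul hP hprim hlam
  have hsum : (∑ i ∈ Finset.range P, (rcT σ w) ^ i) Xi =
      (P : 𝓞 K) * (((ε⁻¹ : (𝓞 K)ˣ) : 𝓞 K) * y - (Polynomial.aeval (rcT σ w) g) Xi) := by
    have h1 := congrArg (fun p => (Polynomial.aeval (rcT σ w) p) Xi) hg
    simp only [map_pow, map_sub, Polynomial.aeval_X, map_one, map_add, map_sum, map_mul,
      Polynomial.aeval_C, LinearMap.add_apply, Module.End.mul_apply] at h1
    rw [hy'] at h1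
    have h2 : (algebraMap ℤ (Module.End ℤ (𝓞 K)) (P : ℤ)) ((Polynomial.aeval (rcT σ w) g) Xi) =
        (P : 𝓞 K) * (Polynomial.aeval (rcT σ w) g) Xi := by
      rw [Module.algebraMap_end_apply]
      simp
    rw [h2] at h1
    have h3 : (P : 𝓞 K) * (((ε⁻¹ : (𝓞 K)ˣ) : 𝓞 K) * y) = lam ^ (P - 1) * y := by
      rw [hε]
      have : (ε : 𝓞 K) * ((ε⁻¹ : (𝓞 K)ˣ) : 𝓞 K) = 1 := by rw [← Units.val_mul]; simp
      calc (ε : 𝓞 K) * lam ^ (P - 1) * (((ε⁻¹ : (𝓞 K)ˣ) : 𝓞 K) * y) =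
          ((ε : 𝓞 K) * ((ε⁻¹ : (𝓞 K)ˣ) : 𝓞 K)) * (lam ^ (P - 1) * y) := by ring
        _ = _ := by rw [this, one_mul]
    rw [mul_sub, h3, h1]; ring
  have hTi : ∀ i : ℕ, ((((rcT σ w) ^ i) Xi : 𝓞 K) : K) = (ω ^ (i * l.val))⁻¹ * (σ ^ i) x := by
    intro i
    induction i with
    | zero => simp [hXi]
    | succ i ih =>
      rw [pow_succ', Module.End.mul_apply, rcT_apply]
      have h1 : ((w * rI σ (((rcT σ w) ^ i) Xi) : 𝓞 K) : K) =
          (w : K) * σ ((((rcT σ w) ^ i) Xi : 𝓞 K) : K) := by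
        rw [RingOfIntegers.coe_eq_algebraMap, map_mul]
        rfl
      rw [h1, ih, hwK, map_mul, map_inv₀, map_pow, G.fix, pow_succ' σ i, AlgEquiv.mul_apply,
        Nat.succ_mul, pow_add, mul_inv]
      ring
  have hproj : proj P σ ω l x =
      ((((ε⁻¹ : (𝓞 K)ˣ) : 𝓞 K) * y - (Polynomial.aeval (rcT σ w) g) Xi : 𝓞 K) : K) := by
    have h1 := congrArg (fun z : 𝓞 K => (z : K)) hsum
    simp only [LinearMap.sum_apply] at h1
    rw [RingOfIntegers.coe_eq_algebraMap, map_sum] at h1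
    unfold proj
    have h2 : ∑ i ∈ Finset.range P, (ω ^ (i * l.val))⁻¹ * (σ ^ i) x =
        ∑ i ∈ Finset.range P, algebraMap (𝓞 K) K (((rcT σ w) ^ i) Xi) :=
      Finset.sum_congr rfl fun i _ => (hTi i).symm
    rw [h2, h1, RingOfIntegers.coe_eq_algebraMap, map_mul, map_natCast, ← mul_assoc,
      inv_mul_cancel₀ G.cast_ne_zero, one_mul]
  set Y : 𝓞 K := ((ε⁻¹ : (𝓞 K)ˣ) : 𝓞 K) * y - (Polynomial.aeval (rcT σ w) g) Xi with hYdef
  have hYm : Y ∈ v.asIdeal ^ (k - (P - 1)) :=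
    Ideal.sub_mem _ (Ideal.mul_mem_left _ _ hy) (Ideal.pow_le_pow_right (Nat.sub_le _ _) hgx)
  have hlP := lam_mem hζ hP hPN hω hlam v hv
  have hmem : lam * Y ∈ v.asIdeal ^ k := by
    have h1 := Ideal.mul_mem_mul hlP hYm
    rw [← pow_add] at h1
    exact Ideal.pow_le_pow_right (by omega) h1
  have hfin : (1 - ω) * proj P σ ω l x = algebraMap (𝓞 K) K (lam * Y) := by
    rw [hproj, ← hlam, map_mul]
  rw [hfin, ← hXi, RingOfIntegers.coe_eq_algebraMap, v.valuation_of_algebraMap,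
    v.valuation_of_algebraMap, hk, v.intValuation_le_pow_iff_mem]
  exact hmem

end P033
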