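import Mathlib

/-!
# P033B, module SIGA1
-/

namespace P033

open Finset

private lemma sa1_sum (K : ℕ) : ∑ k ∈ Icc 1 K, (k : ℝ) ^ (-(7 / 8) : ℝ) ≤
    8 * (K : ℝ) ^ ((1 / 8) : ℝ) := by
  induction K with
  | zero => simp
  | succ K ih =>
    rw [sum_Icc_succ_top (by omega)]
    have hK : (0 : ℝ) < (K : ℝ) + 1 := by positivity
    have h1 : ((K : ℝ) / (K + 1)) ^ ((1 / 8) : ℝ) ≤ 1 + (1 / 8) * (-(1 / ((K : ℝ) + 1))) := by
      have h2 : (K : ℝ) / (K + 1) = 1 + (-(1 / ((K : ℝ) + 1))) := by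
        field_simp
        ring
      rw [h2]
      refine _root_.rpow_one_add_le_one_add_mul_self ?_ (by norm_num) (by norm_num)
      rw [neg_le_neg_iff, div_le_one hK]
      have : (0 : ℝ) ≤ K := Nat.cast_nonneg K
      linarith
    have h3 : (K : ℝ) ^ ((1 / 8) : ℝ) = ((K : ℝ) / (K + 1)) ^ ((1 / 8) : ℝ) *
        ((K : ℝ) + 1) ^ ((1 / 8) : ℝ) := by
      rw [← Real.mul_rpow (by positivity) hK.le]
      congr 1
      field_simp
    have h4 : ((K : ℝ) + 1) ^ (-(7 / 8) : ℝ) = ((K : ℝ) + 1) ^ ((1 / 8) : ℝ) / (K + 1) := by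
      rw [← Real.rpow_sub_one hK.ne']
      norm_num
    push_cast
    rw [h4]
    have h5 : (0 : ℝ) < ((K : ℝ) + 1) ^ ((1 / 8) : ℝ) := Real.rpow_pos_of_pos hK _
    have h6 : (K : ℝ) ^ ((1 / 8) : ℝ) ≤ (1 + (1 / 8) * (-(1 / ((K : ℝ) + 1)))) *
        ((K : ℝ) + 1) ^ ((1 / 8) : ℝ) := by
      rw [h3]
      exact mul_le_mul_of_nonneg_right h1 h5.le
    have h7 : (1 + (1 / 8) * (-(1 / ((K : ℝ) + 1)))) * ((K : ℝ) + 1) ^ ((1 / 8) : ℝ) =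
        ((K : ℝ) + 1) ^ ((1 / 8) : ℝ) - (1 / 8) * (((K : ℝ) + 1) ^ ((1 / 8) : ℝ) / (K + 1)) := by
      field_simp
      ring
    rw [h7] at h6
    linarith

/-- `q = 1 + k P`, `1 ≤ k ≤ P ^ 3`; `∑_{k ≤ K} k ^ (-7/8) ≤ 8 K ^ (1/8)`. -/
theorem sigA1 {P : ℕ} (hP : 2 ≤ P) :
    ∑ q ∈ (Ioc 1 (P ^ 4)).filter (fun q => P ∣ q - 1), (q : ℝ) ^ (-(7 / 8) : ℝ) ≤
      8 * (P : ℝ) ^ (-(1 / 2) : ℝ) := by
  have hP0 : (0 : ℝ) < P := by exact_mod_cast (by omega : 0 < P)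
  have hsub : (Ioc 1 (P ^ 4)).filter (fun q => P ∣ q - 1) ⊆
      (Icc 1 (P ^ 3)).image (fun k => 1 + k * P) := by
    intro q hq
    rw [mem_filter, mem_Ioc] at hq
    obtain ⟨⟨h1, h2⟩, k, hk⟩ := hq
    rw [mem_image]
    refine ⟨k, ?_, by rw [mul_comm]; omega⟩
    rw [mem_Icc]
    constructor
    · rcases Nat.eq_zero_or_pos k with h | h
      · rw [h] at hk; omega
      · exact h
    · by_contra hlt
      push Not at hlt
      have h3 : P ^ 4 < P * k := by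
        calc P ^ 4 = P * P ^ 3 := by ring
          _ < P * k := Nat.mul_lt_mul_of_pos_left hlt (by omega)
      omega
  calc ∑ q ∈ (Ioc 1 (P ^ 4)).filter (fun q => P ∣ q - 1), (q : ℝ) ^ (-(7 / 8) : ℝ)
      ≤ ∑ q ∈ (Icc 1 (P ^ 3)).image (fun k => 1 + k * P), (q : ℝ) ^ (-(7 / 8) : ℝ) :=
        sum_le_sum_of_subset_of_nonneg hsub fun q _ _ => Real.rpow_nonneg (Nat.cast_nonneg q) _
    _ = ∑ k ∈ Icc 1 (P ^ 3), ((1 + k * P : ℕ) : ℝ) ^ (-(7 / 8) : ℝ) := by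
        refine sum_image ?_
        intro a _ b _ hab
        have h : a * P = b * P := by simpa using hab
        exact Nat.eq_of_mul_eq_mul_right (by omega) h
    _ ≤ ∑ k ∈ Icc 1 (P ^ 3), (k : ℝ) ^ (-(7 / 8) : ℝ) * (P : ℝ) ^ (-(7 / 8) : ℝ) := by
        refine sum_le_sum fun k hk => ?_
        rw [mem_Icc] at hk
        have hk0 : (0 : ℝ) < k := by exact_mod_cast hk.1
        rw [← Real.mul_rpow hk0.le hP0.le]
        refine Real.rpow_le_rpow_of_nonpos (mul_pos hk0 hP0) ?_ (by norm_num)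
        push_cast
        linarith
    _ = (∑ k ∈ Icc 1 (P ^ 3), (k : ℝ) ^ (-(7 / 8) : ℝ)) * (P : ℝ) ^ (-(7 / 8) : ℝ) := by
        rw [sum_mul]
    _ ≤ (8 * ((P ^ 3 : ℕ) : ℝ) ^ ((1 / 8) : ℝ)) * (P : ℝ) ^ (-(7 / 8) : ℝ) :=
        mul_le_mul_of_nonneg_right (sa1_sum _) (Real.rpow_nonneg hP0.le _)
    _ = 8 * (P : ℝ) ^ (-(1 / 2) : ℝ) := by
        rw [Nat.cast_pow, ← Real.rpow_natCast, ← Real.rpow_mul hP0.le, mul_assoc,
          ← Real.rpow_add hP0]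
        norm_num

end P033
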