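import Vale.Agent.P033B.IterProj
import Vale.Agent.P033B.XB
import Vale.Agent.P033B.EmbPar
import Vale.Agent.P033.AMGM
import Vale.Agent.P033.ThmAF

/-!
# P033B, module THMB
-/

namespace P033

open Finset NumberField IsDedekindDomain

theorem thmB_aux {u N R : ℕ} [NeZero N] (K : Type*) [Field K] [NumberField K]
    [IsCyclotomicExtension {N} ℚ K] (hu : 0 < u) (hR : Squarefree R) (hRu : R ∣ u)
    (hRN : R ^ 2 ∣ N) (hN1 : 1 < N) (hNn : N ∣ 4 * u ^ 2)
    (hgood : ∀ P ∈ R.primeFactors, ∀ p ∈ R.primeFactors, p ≠ P →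
      ∃ k, 1 + N / P ≡ p ^ k [MOD ordCompl[p] N])
    (hperf : HasPerf (4 * u ^ 2)) :
    (R : ℝ) ^ 5 * N.totient ≤ 4 ^ (R.primeFactors.card + 1) * (u : ℝ) ^ 6 := by
  have hn0 : N ≠ 0 := NeZero.ne N
  have hR0 : R ≠ 0 := hR.ne_zero
  have hRd : R ∣ N := (dvd_pow_self R (by norm_num)).trans hRN
  have hRn : NeZero R := ⟨hR0⟩
  obtain ⟨ζ, hζ⟩ : ∃ ζ : K, IsPrimitiveRoot ζ N :=
    ⟨_, IsCyclotomicExtension.zeta_spec N ℚ K⟩
  have hcopc : (N - 1).Coprime N := by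
    have h1 : N = (N - 1) + 1 := by omega
    have h2 : (N - 1).Coprime ((N - 1) + 1) := by simp
    rwa [← h1] at h2
  obtain ⟨c, hcs⟩ := exists_aut hζ hcopc
  have hc : c ζ = ζ⁻¹ := by
    rw [hcs]
    apply eq_inv_of_mul_eq_one_left
    rw [← pow_succ, Nat.sub_add_cancel hN1.le, hζ.pow_eq_one]
  obtain ⟨X, H, hXint, hX2, hXc, hH⟩ := exists_XB hζ hu hN1 hNn hc hperf
  have huK : (u : K) ≠ 0 := Nat.cast_ne_zero.2 hu.ne'
  have hRK : (R : K) ≠ 0 := Nat.cast_ne_zero.2 hR0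
  have hX0 : X ≠ 0 := by
    rintro rfl
    rw [zero_mul] at hXc
    exact (pow_ne_zero 2 huK) hXc.symm
  have hcX0 : c X ≠ 0 := (map_ne_zero c).2 hX0
  have hcXint : IsIntegral ℤ (c X) := hXint.map (c.restrictScalars ℤ : K →ₐ[ℤ] K)
  obtain ⟨l, Z, L, hZ0, hL0, hZint, hLint, hZ2, hLn, hv⟩ :=
    iter_proj hζ hR hRN hgood hXint hX0 hX2
  obtain ⟨Y, hY⟩ : ∃ Y : K, Y = L * Z * c X / (R : K) ^ 2 := ⟨_, rfl⟩
  have hY0 : Y ≠ 0 := by
    rw [hY]
    exact div_ne_zero (mul_ne_zero (mul_ne_zero hL0 hZ0) hcX0) (pow_ne_zero 2 hRK)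
  have hnum : IsIntegral ℤ (L * Z * c X) := (hLint.mul hZint).mul hcXint
  have hYint : IsIntegral ℤ Y := by
    have key : ∀ v : HeightOneSpectrum (𝓞 K), v.valuation K Y ≤ 1 := by
      intro v
      by_cases hvR : (R : 𝓞 K) ∈ v.asIdeal
      · have h1 : v.valuation K (X * c X) ≤ v.valuation K ((R : K) ^ 2) := by
          rw [hXc]
          obtain ⟨w, hw⟩ := hRu
          have h2 : (u : K) ^ 2 = (R : K) ^ 2 * (w : K) ^ 2 := by
            rw [hw]
            push_cast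
            ring
          rw [h2, map_mul]
          have h3 : v.valuation K ((w : K) ^ 2) ≤ 1 := by
            have h4 := v.valuation_le_one (K := K) ((w : 𝓞 K) ^ 2)
            simpa using h4
          exact mul_le_of_le_one_right' h3
        have hR2 : v.valuation K ((R : K) ^ 2) ≠ 0 := by
          rw [ne_eq, map_eq_zero]
          exact pow_ne_zero 2 hRK
        have h5 : v.valuation K (L * Z * c X) ≤ v.valuation K ((R : K) ^ 2) := by
          refine le_trans ?_ h1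
          rw [map_mul, map_mul _ X]
          exact mul_le_mul_left (hv v hvR) _
        rw [hY, map_div₀]
        exact div_le_one_of_le₀ h5 zero_le
      · have h1 : v.valuation K ((R : K) ^ 2) = 1 := by
          have := (v.valuation_eq_one_iff_notMem (K := K) (r := (R : 𝓞 K))).2 hvR
          have h2 : v.valuation K (R : K) = 1 := by simpa using this
          rw [map_pow, h2, one_pow]
        rw [hY, map_div₀, h1, div_one]
        exact v.valuation_le_one (⟨_, hnum⟩ : 𝓞 K)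
    obtain ⟨a, ha⟩ := HeightOneSpectrum.mem_integers_of_valuation_le_one K _ key
    rw [← ha]
    exact a.2
  have hfin : (Module.finrank ℚ K : ℝ) = N.totient := by
    rw [IsCyclotomicExtension.finrank (n := N) K
      (Polynomial.cyclotomic.irreducible_rat (Nat.pos_of_ne_zero hn0))]
  have ham := amgm hYint hY0
  rw [hfin] at ham
  -- norms of `Y`
  have hR0' : (0 : ℝ) < R := by exact_mod_cast Nat.pos_of_ne_zero hR0
  have hu0' : (0 : ℝ) < u := by exact_mod_cast hu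
  have hcXn : ∀ φ : K →+* ℂ, ‖φ (c X)‖ ^ 2 = (u : ℝ) ^ 2 := by
    intro φ
    have h1 := congrArg φ hXc
    rw [map_mul, emb_conj hζ hc, Complex.mul_conj, map_pow, map_natCast,
      Complex.normSq_eq_norm_sq] at h1
    rw [emb_conj hζ hc, RCLike.norm_conj]
    exact_mod_cast h1
  have hYn : ∀ φ : K →+* ℂ, ‖φ Y‖ ^ 2 ≤
      4 ^ R.primeFactors.card * ((u : ℝ) ^ 2 / (R : ℝ) ^ 4) * ‖φ Z‖ ^ 2 := by
    intro φ
    have h1 : ‖φ Y‖ ^ 2 = ‖φ L‖ ^ 2 * ((u : ℝ) ^ 2 / (R : ℝ) ^ 4) * ‖φ Z‖ ^ 2 := by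
      rw [hY, map_div₀, map_mul, map_mul, norm_div, norm_mul, norm_mul, div_pow, mul_pow, mul_pow,
        hcXn φ, map_pow, map_natCast, norm_pow, Complex.norm_natCast]
      field_simp
    rw [h1]
    have h2 : ‖φ L‖ ^ 2 ≤ 4 ^ R.primeFactors.card := by
      calc ‖φ L‖ ^ 2 ≤ (2 ^ R.primeFactors.card) ^ 2 :=
            pow_le_pow_left₀ (norm_nonneg _) (hLn φ) 2
        _ = 4 ^ R.primeFactors.card := by
            rw [← pow_mul, mul_comm, pow_mul]
            norm_num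
    gcongr
  -- Parseval
  obtain ⟨b, hb⟩ : ∃ b : ZMod N → ℤ, b = fun y => if y.val ≡ l [MOD R] then H y else 0 := ⟨_, rfl⟩
  have hW : 2 * Z = ∑ y : ZMod N, (b y : K) * ζ ^ y.val := by
    rw [hZ2, sum_filter]
    refine sum_congr rfl fun y _ => ?_
    rw [hb]
    dsimp only
    split_ifs
    · rfl
    · rw [Int.cast_zero, zero_mul]
  have hpar := emb_parseval_le hζ b hW
  have hHr : ∀ y, (H y : ℝ) ^ 2 ≤ (4 * (u : ℝ) ^ 2 / N) ^ 2 := by
    intro y
    have hN0' : (0 : ℝ) < N := by exact_mod_cast Nat.pos_of_ne_zero hn0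
    have h1 : |(H y : ℝ)| * N ≤ 4 * (u : ℝ) ^ 2 := by exact_mod_cast hH y
    have h2 : |(H y : ℝ)| ≤ 4 * (u : ℝ) ^ 2 / N := by
      rw [le_div_iff₀ hN0']
      exact h1
    rw [← sq_abs]
    exact pow_le_pow_left₀ (abs_nonneg _) h2 2
  have hcard : ((univ.filter (fun y : ZMod N => y.val ≡ l [MOD R])).card : ℝ) ≤ (N : ℝ) / R := by
    have h1 : univ.filter (fun y : ZMod N => y.val ≡ l [MOD R]) =
        univ.filter (fun y : ZMod N => ((y.val : ℕ) : ZMod R) = (l : ZMod R)) := by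
      apply filter_congr
      intro y _
      exact (ZMod.natCast_eq_natCast_iff _ _ _).symm
    rw [h1]
    have h2 := card_res_le hRd (l : ZMod R)
    have h3 : ((N / R : ℕ) : ℝ) ≤ (N : ℝ) / R := Nat.cast_div_le
    exact le_trans (by exact_mod_cast h2) h3
  have hsumb : ∑ y, (b y : ℝ) ^ 2 ≤ (N : ℝ) / R * (4 * (u : ℝ) ^ 2 / N) ^ 2 := by
    have h1 : ∑ y, (b y : ℝ) ^ 2 =
        ∑ y ∈ univ.filter (fun y : ZMod N => y.val ≡ l [MOD R]), (H y : ℝ) ^ 2 := by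
      rw [sum_filter]
      refine sum_congr rfl fun y _ => ?_
      rw [hb]
      dsimp only
      split_ifs
      · rfl
      · simp
    rw [h1]
    calc ∑ y ∈ univ.filter (fun y : ZMod N => y.val ≡ l [MOD R]), (H y : ℝ) ^ 2
        ≤ ∑ y ∈ univ.filter (fun y : ZMod N => y.val ≡ l [MOD R]), (4 * (u : ℝ) ^ 2 / N) ^ 2 :=
          sum_le_sum fun y _ => hHr y
      _ = ((univ.filter (fun y : ZMod N => y.val ≡ l [MOD R])).card : ℝ) *
          (4 * (u : ℝ) ^ 2 / N) ^ 2 := by rw [sum_const, nsmul_eq_mul]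
      _ ≤ _ := mul_le_mul_of_nonneg_right hcard (by positivity)
  have hZn : ∑ φ : K →+* ℂ, ‖φ Z‖ ^ 2 ≤ 4 * (u : ℝ) ^ 4 / R := by
    have h1 : ∑ φ : K →+* ℂ, ‖φ (2 * Z)‖ ^ 2 = 4 * ∑ φ : K →+* ℂ, ‖φ Z‖ ^ 2 := by
      rw [mul_sum]
      refine sum_congr rfl fun φ _ => ?_
      rw [map_mul, map_ofNat, norm_mul, mul_pow]
      norm_num
    rw [h1] at hpar
    have hN0' : (0 : ℝ) < N := by exact_mod_cast Nat.pos_of_ne_zero hn0
    have h2 : (N : ℝ) * ((N : ℝ) / R * (4 * (u : ℝ) ^ 2 / N) ^ 2) = 16 * (u : ℝ) ^ 4 / R := by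
      field_simp
      ring
    have h3 := hpar.trans (mul_le_mul_of_nonneg_left hsumb hN0'.le)
    rw [h2] at h3
    have h4 : 16 * (u : ℝ) ^ 4 / R = 4 * (4 * (u : ℝ) ^ 4 / R) := by ring
    rw [h4] at h3
    linarith
  have hfinal : (N.totient : ℝ) ≤
      4 ^ R.primeFactors.card * ((u : ℝ) ^ 2 / (R : ℝ) ^ 4) * (4 * (u : ℝ) ^ 4 / R) := by
    refine ham.trans ?_
    refine (sum_le_sum fun φ _ => hYn φ).trans ?_
    rw [← mul_sum]
    exact mul_le_mul_of_nonneg_left hZn (by positivity)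
  calc (R : ℝ) ^ 5 * N.totient ≤ (R : ℝ) ^ 5 *
        (4 ^ R.primeFactors.card * ((u : ℝ) ^ 2 / (R : ℝ) ^ 4) * (4 * (u : ℝ) ^ 4 / R)) :=
        mul_le_mul_of_nonneg_left hfinal (by positivity)
    _ = 4 ^ (R.primeFactors.card + 1) * (u : ℝ) ^ 6 := by
        field_simp
        ring

/-- `Y = L * Z * c X / R ^ 2` is integral (`v (L Z c X) ≤ v (X c X) = v (u ^ 2) ≤ v (R ^ 2)` at all
`v` over `R`), nonzero; `amgm`, `emb_parseval_le` for `W = 2 Z` and
`card_res_le` give `φ(N) ≤ 4 ^ ω(R) * (u ^ 2 / R ^ 4) * (4 * u ^ 4 / R)`. -/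
theorem thmB {u N R : ℕ} (hu : 0 < u) (hR : Squarefree R) (hRu : R ∣ u) (hRN : R ^ 2 ∣ N)
    (hN1 : 1 < N) (hNn : N ∣ 4 * u ^ 2)
    (hgood : ∀ P ∈ R.primeFactors, ∀ p ∈ R.primeFactors, p ≠ P →
      ∃ k, 1 + N / P ≡ p ^ k [MOD ordCompl[p] N])
    (hperf : HasPerf (4 * u ^ 2)) :
    R ^ 5 * N.totient ≤ 4 ^ (R.primeFactors.card + 1) * u ^ 6 := by
  have hne : NeZero N := ⟨by omega⟩
  have iC : IsCyclotomicExtension {N} ℚ (CyclotomicField N ℚ) :=
    CyclotomicField.isCyclotomicExtension N ℚ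
  have iN : NumberField (CyclotomicField N ℚ) :=
    IsCyclotomicExtension.numberField {N} ℚ (CyclotomicField N ℚ)
  have h := thmB_aux (CyclotomicField N ℚ) hu hR hRu hRN hN1 hNn hgood hperf
  exact_mod_cast h

end P033
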