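import Vale.Agent.P033B.Defs
import Vale.Agent.P033B.ThmB
import Vale.Agent.P033B.GoodPair

/-!
# P033B, module THMBF
-/

namespace P033

/-- Theorem B, general form: `N = R ^ 2 * M`. -/
theorem thmB_gen {u R M : ℕ} (hu : 0 < u) (hR : Squarefree R) (hRu : R ∣ u)
    (hcop : R.Coprime M) (hN1 : 1 < R ^ 2 * M) (hN : R ^ 2 * M ∣ 4 * u ^ 2)
    (h1 : ∀ P ∈ R.primeFactors, ∀ r ∈ (R * M).primeFactors, r ≠ P → ¬ P ∣ r - 1)
    (h2 : ∀ P ∈ R.primeFactors, ∀ p ∈ R.primeFactors, p ≠ P → p ^ (P - 1) % P ^ 2 ≠ 1)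
    (hperf : HasPerf (4 * u ^ 2)) :
    R ^ 5 * (R ^ 2 * M).totient ≤ 4 ^ (R.primeFactors.card + 1) * u ^ 6 := by
  have hR0 : R ≠ 0 := hR.ne_zero
  have hM0 : M ≠ 0 := by
    rintro rfl
    simp at hN1
  refine thmB hu hR hRu (dvd_mul_right _ _) hN1 hN ?_ hperf
  intro P hP p hp hpP
  have hPp := Nat.prime_of_mem_primeFactors hP
  have hpp := Nat.prime_of_mem_primeFactors hp
  have hPR := Nat.dvd_of_mem_primeFactors hP
  refine good_pair (by omega) hPp ((pow_dvd_pow_of_dvd hPR 2).mul_right M) ?_ hpp hpP ?_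
    (h2 P hP p hp hpP)
  · intro h3
    have hPM : P.Coprime M := hcop.coprime_dvd_left hPR
    have h4 : P ^ 3 ∣ R ^ 2 := (hPM.pow_left 3).dvd_of_dvd_mul_right h3
    obtain ⟨w, hw⟩ := hPR
    have h5 : P ∣ w := by
      rw [hw, mul_pow] at h4
      have h6 : P ^ 2 * P ∣ P ^ 2 * w ^ 2 := by
        have : P ^ 2 * P = P ^ 3 := by ring
        rw [this]
        exact h4
      have h7 : P ∣ w ^ 2 := Nat.dvd_of_mul_dvd_mul_left (by have := hPp.pos; positivity) h6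
      exact hPp.dvd_of_dvd_pow h7
    have h8 : P * P ∣ R := by
      rw [hw]
      exact mul_dvd_mul_left P h5
    have h9 := hR P h8
    rw [Nat.isUnit_iff] at h9
    exact hPp.one_lt.ne' h9
  · intro r hr hrP
    apply h1 P hP r _ hrP
    rw [Nat.mem_primeFactors] at hr ⊢
    refine ⟨hr.1, ?_, mul_ne_zero hR0 hM0⟩
    rcases hr.1.dvd_mul.1 hr.2.1 with h3 | h3
    · exact (hr.1.dvd_of_dvd_pow h3).mul_right M
    · exact h3.mul_left R

/-- Theorem B for `N = R ^ 2` (`φ(R ^ 2) = R φ(R)`). -/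
theorem thmB_rel {u R : ℕ} (hu : 0 < u) (hR : Squarefree R) (hR1 : 1 < R) (hRu : R ∣ u)
    (hrel : ∀ p ∈ R.primeFactors, ∀ P ∈ R.primeFactors, p ≠ P → ¬ Rel p P)
    (hperf : HasPerf (4 * u ^ 2)) :
    R ^ 6 * R.totient ≤ 4 ^ (R.primeFactors.card + 1) * u ^ 6 := by
  have h := thmB_gen hu hR hRu (M := 1) (Nat.coprime_one_right R)
    (by rw [mul_one]; exact Nat.one_lt_pow (by norm_num) hR1)
    (by rw [mul_one]; exact (pow_dvd_pow_of_dvd hRu 2).mul_left 4)
    (by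
      intro P hP r hr hrP hd
      rw [mul_one] at hr
      exact hrel r hr P hP hrP (Or.inl hd))
    (by
      intro P hP p hp hpP hd
      exact hrel p hp P hP hpP (Or.inr hd)) hperf
  rw [mul_one] at h
  have h2 : (R ^ 2).totient = R * R.totient := by
    have h3 := Nat.totient_gcd_mul_totient_mul R R
    rw [Nat.gcd_self] at h3
    have h4 : 0 < R.totient := Nat.totient_pos.2 (by omega)
    rw [pow_two]
    refine Nat.eq_of_mul_eq_mul_left h4 ?_
    rw [h3]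
    ring
  calc R ^ 6 * R.totient = R ^ 5 * (R * R.totient) := by ring
    _ ≤ _ := by rw [← h2]; exact h

end P033
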