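import Vale.Agent.P033B.IterProj
import Vale.Agent.P033B.XB
import Vale.Agent.P033B.EmbPar
import Vale.Agent.P033.AMGM
import Vale.Agent.P033.ThmAF

/-!
# P033B, module THMD: the general criterion
-/

namespace P033

open Finset NumberField IsDedekindDomain

section iter

variable {N : ℕ} [NeZero N] {K : Type*} [Field K] [NumberField K]
  [IsCyclotomicExtension {N} ℚ K] {ζ : K}

omit [NumberField K] in
theorem ip_prime_memD {D : ℕ} (hD : D ≠ 0) (v : HeightOneSpectrum (𝓞 K))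
    (hv : (D : 𝓞 K) ∈ v.asIdeal) : ∃ p ∈ D.primeFactors, (p : 𝓞 K) ∈ v.asIdeal := by
  have h1 : (D : 𝓞 K) = ∏ p ∈ D.primeFactors, (p : 𝓞 K) ^ D.factorization p := by
    conv_lhs => rw [← Nat.prod_factorization_pow_eq_self hD]
    rw [Finsupp.prod, Nat.support_factorization, Nat.cast_prod]
    refine prod_congr rfl fun p _ => ?_
    rw [Nat.cast_pow]
  rw [h1] at hv
  obtain ⟨p, hp, h2⟩ := (v.isPrime.prod_mem_iff).1 hv
  exact ⟨p, hp, v.isPrime.mem_of_pow_mem _ h2⟩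

/-- the induction for `iter_proj` -/
theorem iter_projD_aux (hζ : IsPrimitiveRoot ζ N) {R D : ℕ} (hR : Squarefree R) (hRN : R ^ 2 ∣ N) (hD : D ≠ 0)
    (hgood : ∀ P ∈ R.primeFactors, ∀ p ∈ D.primeFactors, p ≠ P →
      ∃ k, 1 + N / P ≡ p ^ k [MOD ordCompl[p] N])
    {H : ZMod N → ℤ} {X : K} (hX : IsIntegral ℤ X) (hX0 : X ≠ 0)
    (hH : 2 * X = ∑ y : ZMod N, (H y : K) * ζ ^ y.val) (s : Finset ℕ) (hs : s ⊆ R.primeFactors) :
    ∃ (l : ℕ) (Z L : K), Z ≠ 0 ∧ L ≠ 0 ∧ IsIntegral ℤ Z ∧ IsIntegral ℤ L ∧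
      2 * Z = ∑ y ∈ univ.filter (fun y : ZMod N => y.val ≡ l [MOD ∏ p ∈ s, p]), (H y : K) * ζ ^ y.val ∧
      (∀ φ : K →+* ℂ, ‖φ L‖ ≤ 2 ^ s.card) ∧
      ∀ v : HeightOneSpectrum (𝓞 K), (D : 𝓞 K) ∈ v.asIdeal →
        v.valuation K (L * Z) ≤ v.valuation K X := by
  classical
  induction s using Finset.induction_on with
  | empty =>
    refine ⟨0, X, 1, hX0, one_ne_zero, hX, isIntegral_one, ?_, ?_, ?_⟩
    · rw [hH]
      refine sum_congr ?_ fun _ _ => rfl
      ext y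
      simp [Nat.modEq_one]
    · intro φ
      simp
    · intro v _
      rw [one_mul]
  | insert P s hPs ih =>
    obtain ⟨l, Z, L, hZ0, hL0, hZi, hLi, hZ, hLn, hv⟩ := ih ((subset_insert _ _).trans hs)
    have hPR : P ∈ R.primeFactors := hs (mem_insert_self _ _)
    have hP : P.Prime := Nat.prime_of_mem_primeFactors hPR
    have hPN : P ^ 2 ∣ N := (pow_dvd_pow_of_dvd (Nat.dvd_of_mem_primeFactors hPR) 2).trans hRN
    have hPN1 : P ∣ N := (dvd_pow_self P two_ne_zero).trans hPN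
    have : NeZero P := ⟨hP.ne_zero⟩
    obtain ⟨σ, hσ1, hσ2, G⟩ := exists_grd (K := K) hζ hP hPN
    set ω := ζ ^ (N / P) with hω
    obtain ⟨j, hj⟩ := supp_nonempty G hZ0
    rw [mem_supp] at hj
    -- congruences
    have hcop : Nat.Coprime (∏ p ∈ s, p) P := by
      refine Nat.Coprime.prod_left fun p hp => ?_
      have hp' : p.Prime := Nat.prime_of_mem_primeFactors (hs (mem_insert_of_mem hp))
      rw [Nat.coprime_primes hp' hP]
      rintro rfl
      exact hPs hp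
    obtain ⟨l', hl1, hl2⟩ := Nat.chineseRemainder hcop l j.val
    have hωi : IsIntegral ℤ ω := (hζ.isIntegral (NeZero.pos N)).pow _
    have h1ω : IsIntegral ℤ (1 - ω) := isIntegral_one.sub hωi
    have h1ω0 : 1 - ω ≠ 0 := by
      intro h
      exact G.prim.ne_one hP.one_lt (sub_eq_zero.1 h).symm
    refine ⟨l', proj P σ ω j Z, (1 - ω) * L, hj, mul_ne_zero h1ω0 hL0,
      proj_integral hζ hPN1 G hω hσ2 hZi j, h1ω.mul hLi, ?_, ?_, ?_⟩
    · have h2 : 2 * proj P σ ω j Z = proj P σ ω j (2 * Z) := by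
        have := proj_zmul (P := P) (σ := σ) (ω := ω) j 2 Z
        simpa using this.symm
      rw [h2, hZ, proj_sum]
      have h3 : ∀ y : ZMod N, proj P σ ω j ((H y : K) * ζ ^ y.val) =
          if y.val ≡ j.val [MOD P] then (H y : K) * ζ ^ y.val else 0 := by
        intro y
        rw [proj_zmul]
        have heig : σ (ζ ^ y.val) = ω ^ ((y.val : ZMod P)).val * ζ ^ y.val := by
          rw [map_pow, hσ2, mul_pow]
          congr 1
          apply G.pow_congr
          simp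
        have hiff : y.val ≡ j.val [MOD P] ↔ j = (y.val : ZMod P) := by
          rw [← ZMod.natCast_eq_natCast_iff]
          rw [ZMod.natCast_val, ZMod.natCast_val, ZMod.cast_id]
          exact eq_comm
        by_cases hy : y.val ≡ j.val [MOD P]
        · rw [if_pos hy, hiff.1 hy, proj_of_eig G heig]
        · rw [if_neg hy]
          have hne : j ≠ (y.val : ZMod P) := fun h => hy (hiff.2 h)
          rw [proj_of_eig_ne G heig hne, mul_zero]
      rw [sum_congr rfl fun y _ => h3 y, ← sum_filter, filter_filter]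
      refine sum_congr ?_ fun _ _ => rfl
      ext y
      simp only [mem_filter, mem_univ, true_and]
      rw [prod_insert hPs, mul_comm P]
      constructor
      · rintro ⟨a, b⟩
        exact (Nat.modEq_and_modEq_iff_modEq_mul hcop).1 ⟨a.trans hl1.symm, b.trans hl2.symm⟩
      · intro h
        obtain ⟨a, b⟩ := (Nat.modEq_and_modEq_iff_modEq_mul hcop).2 h
        exact ⟨a.trans hl1, b.trans hl2⟩
    · intro φ
      rw [map_mul, norm_mul, card_insert_of_notMem hPs, pow_succ, mul_comm]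
      refine mul_le_mul (hLn φ) ?_ (norm_nonneg _) (by positivity)
      have hωn : ‖φ ω‖ = 1 := by
        have h1 : (φ ω) ^ P = 1 := by rw [← map_pow, G.prim.pow_eq_one, map_one]
        exact Complex.norm_eq_one_of_pow_eq_one h1 hP.ne_zero
      calc ‖φ (1 - ω)‖ = ‖1 - φ ω‖ := by rw [map_sub, map_one]
        _ ≤ ‖(1 : ℂ)‖ + ‖φ ω‖ := norm_sub_le _ _
        _ = 2 := by rw [hωn, norm_one]; norm_num
    · intro v hvR
      have key : v.valuation K ((1 - ω) * proj P σ ω j Z) ≤ v.valuation K Z := by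
        by_cases hvP : (P : 𝓞 K) ∈ v.asIdeal
        · exact ram_val hζ hPN G hω hσ2 v hvP hZi j
        · obtain ⟨p, hp, hpv⟩ := ip_prime_memD hD v hvR
          have hpP : p ≠ P := by
            rintro rfl
            exact hvP hpv
          obtain ⟨k, hk⟩ := hgood P hPR p hp hpP
          have hval : ∀ y : K, IsIntegral ℤ y → v.valuation K (σ y) ≤ v.valuation K y :=
            fun y hy => val_aut_le hζ (Nat.prime_of_mem_primeFactors hp) hσ1 hk v hpv hy
          have h1 := unram_val G v hvP hval hZi j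
          rw [map_mul]
          calc v.valuation K (1 - ω) * v.valuation K (proj P σ ω j Z)
              ≤ 1 * v.valuation K Z := mul_le_mul' (ip_valuation_le_one v h1ω) h1
            _ = _ := one_mul _
      have e1 : (1 - ω) * L * proj P σ ω j Z = L * ((1 - ω) * proj P σ ω j Z) := by ring
      rw [e1, map_mul]
      calc v.valuation K L * v.valuation K ((1 - ω) * proj P σ ω j Z)
          ≤ v.valuation K L * v.valuation K Z := mul_le_mul_right key _
        _ = v.valuation K (L * Z) := (map_mul _ _ _).symm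
        _ ≤ _ := hv v hvR

/-- Successive projections.  Induction over subsets `s` of `R.primeFactors`: there are `l`, `Z ≠ 0`,
`L = ∏_{P ∈ s} (1 - ζ ^ (N / P))` with
`2 Z = ∑_{y ≡ l mod ∏ s} H y ζ ^ y` and `v (L Z) ≤ v X` at all `v` over `R`.  Step: for `P ∉ s`
take `σ` from `exists_grd`; some `proj P σ ω j Z ≠ 0` (`sum_proj`); `proj (ζ ^ y) = ζ ^ y` or `0`
according to `y ≡ j mod P` (as in `proj_integral`); `Nat.chineseRemainder`; valuations: `ram_val` if
`P ∈ v`, otherwise some `p ∣ R`, `p ≠ P` has `p ∈ v` and `val_aut_le`, `unram_val` apply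
(`v (1 - ω) ≤ 1`). -/
theorem iter_projD (hζ : IsPrimitiveRoot ζ N) {R D : ℕ} (hR : Squarefree R) (hRN : R ^ 2 ∣ N) (hD : D ≠ 0)
    (hgood : ∀ P ∈ R.primeFactors, ∀ p ∈ D.primeFactors, p ≠ P →
      ∃ k, 1 + N / P ≡ p ^ k [MOD ordCompl[p] N])
    {H : ZMod N → ℤ} {X : K} (hX : IsIntegral ℤ X) (hX0 : X ≠ 0)
    (hH : 2 * X = ∑ y : ZMod N, (H y : K) * ζ ^ y.val) :
    ∃ (l : ℕ) (Z L : K), Z ≠ 0 ∧ L ≠ 0 ∧ IsIntegral ℤ Z ∧ IsIntegral ℤ L ∧
      2 * Z = ∑ y ∈ univ.filter (fun y : ZMod N => y.val ≡ l [MOD R]), (H y : K) * ζ ^ y.val ∧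
      (∀ φ : K →+* ℂ, ‖φ L‖ ≤ 2 ^ R.primeFactors.card) ∧
      ∀ v : HeightOneSpectrum (𝓞 K), (D : 𝓞 K) ∈ v.asIdeal →
        v.valuation K (L * Z) ≤ v.valuation K X := by
  have h := iter_projD_aux hζ hR hRN hD hgood hX hX0 hH R.primeFactors Subset.rfl
  rwa [Nat.prod_primeFactors_of_squarefree hR] at h

end iter

theorem thmD_aux {u N R D : ℕ} [NeZero N] (K : Type*) [Field K] [NumberField K]
    [IsCyclotomicExtension {N} ℚ K] (hu : 0 < u) (hR : Squarefree R) (hDu : D ∣ u)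
    (hRN : R ^ 2 ∣ N) (hN1 : 1 < N) (hNn : N ∣ 4 * u ^ 2)
    (hgood : ∀ P ∈ R.primeFactors, ∀ p ∈ D.primeFactors, p ≠ P →
      ∃ k, 1 + N / P ≡ p ^ k [MOD ordCompl[p] N])
    (hperf : HasPerf (4 * u ^ 2)) :
    (D : ℝ) ^ 4 * R * N.totient ≤ 4 ^ (R.primeFactors.card + 1) * (u : ℝ) ^ 6 := by
  have hn0 : N ≠ 0 := NeZero.ne N
  have hR0 : R ≠ 0 := hR.ne_zero
  have hRd : R ∣ N := (dvd_pow_self R (by norm_num)).trans hRN
  have hRn : NeZero R := ⟨hR0⟩
  obtain ⟨ζ, hζ⟩ : ∃ ζ : K, IsPrimitiveRoot ζ N :=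
    ⟨_, IsCyclotomicExtension.zeta_spec N ℚ K⟩
  have hcopc : (N - 1).Coprime N := by
    have h1 : N = (N - 1) + 1 := by omega
    have h2 : (N - 1).Coprime ((N - 1) + 1) := by simp
    rwa [← h1] at h2
  obtain ⟨c, hcs⟩ := exists_aut hζ hcopc
  have hc : c ζ = ζ⁻¹ := by
    rw [hcs]
    apply eq_inv_of_mul_eq_one_left
    rw [← pow_succ, Nat.sub_add_cancel hN1.le, hζ.pow_eq_one]
  obtain ⟨X, H, hXint, hX2, hXc, hH⟩ := exists_XB hζ hu hN1 hNn hc hperf
  have huK : (u : K) ≠ 0 := Nat.cast_ne_zero.2 hu.ne'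
  have hD0 : D ≠ 0 := ne_zero_of_dvd_ne_zero hu.ne' hDu
  have hDK : (D : K) ≠ 0 := Nat.cast_ne_zero.2 hD0
  have hX0 : X ≠ 0 := by
    rintro rfl
    rw [zero_mul] at hXc
    exact (pow_ne_zero 2 huK) hXc.symm
  have hcX0 : c X ≠ 0 := (map_ne_zero c).2 hX0
  have hcXint : IsIntegral ℤ (c X) := hXint.map (c.restrictScalars ℤ : K →ₐ[ℤ] K)
  obtain ⟨l, Z, L, hZ0, hL0, hZint, hLint, hZ2, hLn, hv⟩ :=
    iter_projD hζ hR hRN hD0 hgood hXint hX0 hX2
  obtain ⟨Y, hY⟩ : ∃ Y : K, Y = L * Z * c X / (D : K) ^ 2 := ⟨_, rfl⟩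
  have hY0 : Y ≠ 0 := by
    rw [hY]
    exact div_ne_zero (mul_ne_zero (mul_ne_zero hL0 hZ0) hcX0) (pow_ne_zero 2 hDK)
  have hnum : IsIntegral ℤ (L * Z * c X) := (hLint.mul hZint).mul hcXint
  have hYint : IsIntegral ℤ Y := by
    have key : ∀ v : HeightOneSpectrum (𝓞 K), v.valuation K Y ≤ 1 := by
      intro v
      by_cases hvR : (D : 𝓞 K) ∈ v.asIdeal
      · have h1 : v.valuation K (X * c X) ≤ v.valuation K ((D : K) ^ 2) := by
          rw [hXc]
          obtain ⟨w, hw⟩ := hDu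
          have h2 : (u : K) ^ 2 = (D : K) ^ 2 * (w : K) ^ 2 := by
            rw [hw]
            push_cast
            ring
          rw [h2, map_mul]
          have h3 : v.valuation K ((w : K) ^ 2) ≤ 1 := by
            have h4 := v.valuation_le_one (K := K) ((w : 𝓞 K) ^ 2)
            simpa using h4
          exact mul_le_of_le_one_right' h3
        have hR2 : v.valuation K ((D : K) ^ 2) ≠ 0 := by
          rw [ne_eq, map_eq_zero]
          exact pow_ne_zero 2 hDK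
        have h5 : v.valuation K (L * Z * c X) ≤ v.valuation K ((D : K) ^ 2) := by
          refine le_trans ?_ h1
          rw [map_mul, map_mul _ X]
          exact mul_le_mul_left (hv v hvR) _
        rw [hY, map_div₀]
        exact div_le_one_of_le₀ h5 zero_le
      · have h1 : v.valuation K ((D : K) ^ 2) = 1 := by
          have := (v.valuation_eq_one_iff_notMem (K := K) (r := (D : 𝓞 K))).2 hvR
          have h2 : v.valuation K (D : K) = 1 := by simpa using this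
          rw [map_pow, h2, one_pow]
        rw [hY, map_div₀, h1, div_one]
        exact v.valuation_le_one (⟨_, hnum⟩ : 𝓞 K)
    obtain ⟨a, ha⟩ := HeightOneSpectrum.mem_integers_of_valuation_le_one K _ key
    rw [← ha]
    exact a.2
  have hfin : (Module.finrank ℚ K : ℝ) = N.totient := by
    rw [IsCyclotomicExtension.finrank (n := N) K
      (Polynomial.cyclotomic.irreducible_rat (Nat.pos_of_ne_zero hn0))]
  have ham := amgm hYint hY0
  rw [hfin] at ham
  -- norms of `Y`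
  have hR0' : (0 : ℝ) < R := by exact_mod_cast Nat.pos_of_ne_zero hR0
  have hD0' : (0 : ℝ) < D := by exact_mod_cast Nat.pos_of_ne_zero hD0
  have hu0' : (0 : ℝ) < u := by exact_mod_cast hu
  have hcXn : ∀ φ : K →+* ℂ, ‖φ (c X)‖ ^ 2 = (u : ℝ) ^ 2 := by
    intro φ
    have h1 := congrArg φ hXc
    rw [map_mul, emb_conj hζ hc, Complex.mul_conj, map_pow, map_natCast,
      Complex.normSq_eq_norm_sq] at h1
    rw [emb_conj hζ hc, RCLike.norm_conj]
    exact_mod_cast h1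
  have hYn : ∀ φ : K →+* ℂ, ‖φ Y‖ ^ 2 ≤
      4 ^ R.primeFactors.card * ((u : ℝ) ^ 2 / (D : ℝ) ^ 4) * ‖φ Z‖ ^ 2 := by
    intro φ
    have h1 : ‖φ Y‖ ^ 2 = ‖φ L‖ ^ 2 * ((u : ℝ) ^ 2 / (D : ℝ) ^ 4) * ‖φ Z‖ ^ 2 := by
      rw [hY, map_div₀, map_mul, map_mul, norm_div, norm_mul, norm_mul, div_pow, mul_pow, mul_pow,
        hcXn φ, map_pow, map_natCast, norm_pow, Complex.norm_natCast]
      field_simp
    rw [h1]
    have h2 : ‖φ L‖ ^ 2 ≤ 4 ^ R.primeFactors.card := by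
      calc ‖φ L‖ ^ 2 ≤ (2 ^ R.primeFactors.card) ^ 2 :=
            pow_le_pow_left₀ (norm_nonneg _) (hLn φ) 2
        _ = 4 ^ R.primeFactors.card := by
            rw [← pow_mul, mul_comm, pow_mul]
            norm_num
    gcongr
  -- Parseval
  obtain ⟨b, hb⟩ : ∃ b : ZMod N → ℤ, b = fun y => if y.val ≡ l [MOD R] then H y else 0 := ⟨_, rfl⟩
  have hW : 2 * Z = ∑ y : ZMod N, (b y : K) * ζ ^ y.val := by
    rw [hZ2, sum_filter]
    refine sum_congr rfl fun y _ => ?_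
    rw [hb]
    dsimp only
    split_ifs
    · rfl
    · rw [Int.cast_zero, zero_mul]
  have hpar := emb_parseval_le hζ b hW
  have hHr : ∀ y, (H y : ℝ) ^ 2 ≤ (4 * (u : ℝ) ^ 2 / N) ^ 2 := by
    intro y
    have hN0' : (0 : ℝ) < N := by exact_mod_cast Nat.pos_of_ne_zero hn0
    have h1 : |(H y : ℝ)| * N ≤ 4 * (u : ℝ) ^ 2 := by exact_mod_cast hH y
    have h2 : |(H y : ℝ)| ≤ 4 * (u : ℝ) ^ 2 / N := by
      rw [le_div_iff₀ hN0']
      exact h1
    rw [← sq_abs]
    exact pow_le_pow_left₀ (abs_nonneg _) h2 2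
  have hcard : ((univ.filter (fun y : ZMod N => y.val ≡ l [MOD R])).card : ℝ) ≤ (N : ℝ) / R := by
    have h1 : univ.filter (fun y : ZMod N => y.val ≡ l [MOD R]) =
        univ.filter (fun y : ZMod N => ((y.val : ℕ) : ZMod R) = (l : ZMod R)) := by
      apply filter_congr
      intro y _
      exact (ZMod.natCast_eq_natCast_iff _ _ _).symm
    rw [h1]
    have h2 := card_res_le hRd (l : ZMod R)
    have h3 : ((N / R : ℕ) : ℝ) ≤ (N : ℝ) / R := Nat.cast_div_le
    exact le_trans (by exact_mod_cast h2) h3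
  have hsumb : ∑ y, (b y : ℝ) ^ 2 ≤ (N : ℝ) / R * (4 * (u : ℝ) ^ 2 / N) ^ 2 := by
    have h1 : ∑ y, (b y : ℝ) ^ 2 =
        ∑ y ∈ univ.filter (fun y : ZMod N => y.val ≡ l [MOD R]), (H y : ℝ) ^ 2 := by
      rw [sum_filter]
      refine sum_congr rfl fun y _ => ?_
      rw [hb]
      dsimp only
      split_ifs
      · rfl
      · simp
    rw [h1]
    calc ∑ y ∈ univ.filter (fun y : ZMod N => y.val ≡ l [MOD R]), (H y : ℝ) ^ 2
        ≤ ∑ y ∈ univ.filter (fun y : ZMod N => y.val ≡ l [MOD R]), (4 * (u : ℝ) ^ 2 / N) ^ 2 :=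
          sum_le_sum fun y _ => hHr y
      _ = ((univ.filter (fun y : ZMod N => y.val ≡ l [MOD R])).card : ℝ) *
          (4 * (u : ℝ) ^ 2 / N) ^ 2 := by rw [sum_const, nsmul_eq_mul]
      _ ≤ _ := mul_le_mul_of_nonneg_right hcard (by positivity)
  have hZn : ∑ φ : K →+* ℂ, ‖φ Z‖ ^ 2 ≤ 4 * (u : ℝ) ^ 4 / R := by
    have h1 : ∑ φ : K →+* ℂ, ‖φ (2 * Z)‖ ^ 2 = 4 * ∑ φ : K →+* ℂ, ‖φ Z‖ ^ 2 := by
      rw [mul_sum]
      refine sum_congr rfl fun φ _ => ?_
      rw [map_mul, map_ofNat, norm_mul, mul_pow]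
      norm_num
    rw [h1] at hpar
    have hN0' : (0 : ℝ) < N := by exact_mod_cast Nat.pos_of_ne_zero hn0
    have h2 : (N : ℝ) * ((N : ℝ) / R * (4 * (u : ℝ) ^ 2 / N) ^ 2) = 16 * (u : ℝ) ^ 4 / R := by
      field_simp
      ring
    have h3 := hpar.trans (mul_le_mul_of_nonneg_left hsumb hN0'.le)
    rw [h2] at h3
    have h4 : 16 * (u : ℝ) ^ 4 / R = 4 * (4 * (u : ℝ) ^ 4 / R) := by ring
    rw [h4] at h3
    linarith
  have hfinal : (N.totient : ℝ) ≤
      4 ^ R.primeFactors.card * ((u : ℝ) ^ 2 / (D : ℝ) ^ 4) * (4 * (u : ℝ) ^ 4 / R) := by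
    refine ham.trans ?_
    refine (sum_le_sum fun φ _ => hYn φ).trans ?_
    rw [← mul_sum]
    exact mul_le_mul_of_nonneg_left hZn (by positivity)
  calc (D : ℝ) ^ 4 * R * N.totient ≤ (D : ℝ) ^ 4 * R *
        (4 ^ R.primeFactors.card * ((u : ℝ) ^ 2 / (D : ℝ) ^ 4) * (4 * (u : ℝ) ^ 4 / R)) :=
        mul_le_mul_of_nonneg_left hfinal (by positivity)
    _ = 4 ^ (R.primeFactors.card + 1) * (u : ℝ) ^ 6 := by
        field_simp
        ring

/-- General form of Theorem B: `D ∣ u` collects the primes which are good for all `P ∣ R`. -/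
theorem thmD {u N R D : ℕ} (hu : 0 < u) (hR : Squarefree R) (hDu : D ∣ u) (hRN : R ^ 2 ∣ N)
    (hN1 : 1 < N) (hNn : N ∣ 4 * u ^ 2)
    (hgood : ∀ P ∈ R.primeFactors, ∀ p ∈ D.primeFactors, p ≠ P →
      ∃ k, 1 + N / P ≡ p ^ k [MOD ordCompl[p] N])
    (hperf : HasPerf (4 * u ^ 2)) :
    D ^ 4 * R * N.totient ≤ 4 ^ (R.primeFactors.card + 1) * u ^ 6 := by
  have hne : NeZero N := ⟨by omega⟩
  have iC : IsCyclotomicExtension {N} ℚ (CyclotomicField N ℚ) :=
    CyclotomicField.isCyclotomicExtension N ℚ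
  have iN : NumberField (CyclotomicField N ℚ) :=
    IsCyclotomicExtension.numberField {N} ℚ (CyclotomicField N ℚ)
  have h := thmD_aux (CyclotomicField N ℚ) hu hR hDu hRN hN1 hNn hgood hperf
  exact_mod_cast h

end P033
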