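import Vale.Agent.P033.Wief2

/-!
# P033B, module WIEF3
-/

namespace P033

open Finset

/-- `k`-fold products, general form. -/
theorem Wief3.pow {P b C k n : ℕ} (hP : P.Prime) (hk : 1 ≤ k) (hn : 2 ≤ n) (hbk : P ^ 2 ≤ b ^ k)
    (hC : C ^ k ≤ P ^ n) (A : Finset ℕ)
    (hA : ∀ q ∈ A, (b < q ∧ q < C) ∧ (q.Prime ∧ q ^ (P - 1) % P ^ 2 = 1)) :
    (∑ q ∈ A, (1 : ℝ) / q) ^ k ≤ k.factorial * ((1 + n * Real.log P) / P) := by
  rw [Finset.sum_pow]
  have h1 : ∀ κ ∈ A.sym k, ((κ.1.countPerms : ℕ) : ℝ) *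
      (κ.1.map (fun q : ℕ => (1 : ℝ) / q)).prod ≤
      (k.factorial : ℝ) * (1 / ((κ.1.prod : ℕ) : ℝ)) := by
    intro κ _
    rw [prod_one_div']
    have h2 := countPerms_le' κ.1
    have h3 : κ.1.card = k := κ.2
    rw [h3] at h2
    have h4 : ((κ.1.countPerms : ℕ) : ℝ) ≤ (k.factorial : ℝ) := by exact_mod_cast h2
    exact mul_le_mul_of_nonneg_right h4 (by positivity)
  refine (Finset.sum_le_sum h1).trans ?_
  rw [← Finset.mul_sum]
  refine mul_le_mul_of_nonneg_left ?_ (by positivity)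
  refine le_trans ?_ (sum_wief_large hP hn)
  have hmem : ∀ κ ∈ A.sym k, ∀ q ∈ κ.1, (b < q ∧ q < C) ∧
      (q.Prime ∧ q ^ (P - 1) % P ^ 2 = 1) := by
    intro κ hκ q hq
    exact hA q (Finset.mem_sym_iff.1 hκ q hq)
  have hinj : Set.InjOn (fun κ : Sym ℕ k => κ.1.prod) (A.sym k : Set (Sym ℕ k)) := by
    intro κ hκ κ' hκ' he
    have h6 := hmem κ (Finset.mem_coe.1 hκ)
    have h7 := hmem κ' (Finset.mem_coe.1 hκ')
    exact Subtype.ext (primes_prod_inj (fun p hp => (h6 p hp).2.1)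
      (fun p hp => (h7 p hp).2.1) he)
  have h8 : ∑ κ ∈ A.sym k, (1 : ℝ) / ((κ.1.prod : ℕ) : ℝ) =
      ∑ m ∈ (A.sym k).image (fun κ : Sym ℕ k => κ.1.prod), (1 : ℝ) / m := by
    rw [Finset.sum_image hinj]
  rw [h8]
  refine Finset.sum_le_sum_of_subset_of_nonneg ?_ (fun _ _ _ => by positivity)
  intro m hm
  rw [Finset.mem_image] at hm
  obtain ⟨κ, hκ, rfl⟩ := hm
  have h9 := hmem κ hκ
  have hcard : κ.1.card = k := κ.2
  have h10 := prod_between b C κ.1 (fun q hq => (h9 q hq).1)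
  rw [hcard] at h10
  have hne : κ.1 ≠ 0 := by
    intro h0
    rw [h0, Multiset.card_zero] at hcard
    omega
  rw [Finset.mem_filter, Finset.mem_Ico]
  refine ⟨⟨hbk.trans h10.1, (h10.2 hne).trans_le hC⟩, ?_⟩
  exact pow_mod_one (Nat.one_lt_pow (by norm_num) hP.one_lt) κ.1 (fun q hq => (h9 q hq).2.2)

/-- Dyadic version of `wief_bound` up to `P ^ 4`.  Take the least `k` with `P ^ 2 ≤ b ^ k`.
`k = 1`: directly `sum_wief_large` (`2 b + 1 ≤ P ^ 5`, `b ≤ P ^ 4`).  `k ≥ 2`: as in `wief_pow`,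
the `k`-th power of the sum is `≤ k! ∑ 1 / m` over the `m` in `[P ^ 2, P ^ 12]` with
`m ^ (P - 1) % P ^ 2 = 1` (`(2 b) ^ k ≤ b ^ (2 k) < P ^ 12`), so the sum is at most
`k (1 + 12 log P) P ^ (-1/k)`, `P ^ (1/k) ≥ b ^ (1/4)` and `k ≤ 1 + 3 log P`. -/
theorem wief3 {P b : ℕ} (hP : P.Prime) (hb : 2 ≤ b) (hbP : b ≤ P ^ 4) :
    ∑ q ∈ (Ioc b (2 * b)).filter (fun q => q.Prime ∧ q ^ (P - 1) % P ^ 2 = 1), (1 : ℝ) / q ≤
      (1 + 13 * Real.log P) ^ 2 / (b : ℝ) ^ (1 / 4 : ℝ) := by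
  have hbR : (2 : ℝ) ≤ b := by exact_mod_cast hb
  have hP2 : 2 ≤ P := hP.two_le
  have hPR2 : (2 : ℝ) ≤ P := by exact_mod_cast hP2
  have hPR : (0 : ℝ) < P := by linarith
  have hb0 : (0 : ℝ) < b := by linarith
  have hlP : 0 < Real.log P := Real.log_pos (by linarith)
  have hlb : Real.log 2 ≤ Real.log b := Real.log_le_log (by norm_num) hbR
  have hl2 := Real.log_two_gt_d9
  have hlb0 : 0 < Real.log b := by linarith
  have hlbP : Real.log b ≤ 4 * Real.log P := by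
    have h1 : (b : ℝ) ≤ (P : ℝ) ^ 4 := by exact_mod_cast hbP
    have h2 := Real.log_le_log hb0 h1
    rw [Real.log_pow] at h2
    exact_mod_cast h2
  obtain ⟨k, hk⟩ : ∃ k, k = ⌈2 * Real.log P / Real.log b⌉₊ := ⟨_, rfl⟩
  have hk1 : 2 * Real.log P / Real.log b ≤ k := by rw [hk]; exact Nat.le_ceil _
  have hk2 : (k : ℝ) < 2 * Real.log P / Real.log b + 1 := by
    rw [hk]; exact Nat.ceil_lt_add_one (by positivity)
  have hk3 : 2 * Real.log P ≤ k * Real.log b := by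
    rwa [div_le_iff₀ hlb0] at hk1
  have hk4 : (k : ℝ) * Real.log b < 2 * Real.log P + Real.log b := by
    have := mul_lt_mul_of_pos_right hk2 hlb0
    have h2 : (2 * Real.log P / Real.log b + 1) * Real.log b = 2 * Real.log P + Real.log b := by
      field_simp
    linarith
  have hk5 : 1 ≤ k := by
    rw [hk, Nat.one_le_ceil_iff]
    positivity
  have hk6 : (k : ℝ) ≤ 1 + 3 * Real.log P := by
    have h4 : 2 * Real.log P / Real.log b ≤ 3 * Real.log P := by
      rw [div_le_iff₀ hlb0]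
      nlinarith
    linarith
  have hbk : P ^ 2 ≤ b ^ k := by
    have h5 : Real.log ((P : ℝ) ^ 2) ≤ Real.log ((b : ℝ) ^ k) := by
      rw [Real.log_pow, Real.log_pow]; push_cast; exact hk3
    have h6 := (Real.log_le_log_iff (by positivity) (by positivity)).1 h5
    exact_mod_cast h6
  -- upper bound for the products
  have hC : (2 * b + 1) ^ k ≤ P ^ 12 := by
    have h3 : 2 * b + 1 ≤ b ^ 3 := by nlinarith [sq_nonneg b]
    have h4 : b ^ k ≤ P ^ 4 := by
      rcases Nat.lt_or_ge 1 k with h1 | h1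
      · have h5 : b ^ (k - 1) < P ^ 2 := by
          have h6 : Real.log ((b : ℝ) ^ (k - 1)) < Real.log ((P : ℝ) ^ 2) := by
            rw [Real.log_pow, Real.log_pow]
            push_cast [Nat.cast_sub hk5]
            linarith
          have h7 := (Real.log_lt_log_iff (by positivity) (by positivity)).1 h6
          exact_mod_cast h7
        have h8 : b ≤ b ^ (k - 1) := Nat.le_self_pow (by omega) b
        calc b ^ k = b ^ (k - 1) * b := by
              rw [← pow_succ, Nat.sub_add_cancel hk5]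
          _ ≤ P ^ 2 * P ^ 2 := Nat.mul_le_mul h5.le (h8.trans h5.le)
          _ = P ^ 4 := by ring
      · have h2 : k = 1 := by omega
        rw [h2, pow_one]
        exact hbP
    calc (2 * b + 1) ^ k ≤ (b ^ 3) ^ k := Nat.pow_le_pow_left h3 k
      _ = (b ^ k) ^ 3 := by rw [← pow_mul, ← pow_mul, mul_comm]
      _ ≤ (P ^ 4) ^ 3 := Nat.pow_le_pow_left h4 3
      _ = P ^ 12 := by rw [← pow_mul]
  have hmain := Wief3.pow (P := P) (b := b) (C := 2 * b + 1) (k := k) (n := 12) hP hk5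
    (by norm_num) hbk hC
    ((Ioc b (2 * b)).filter (fun q => q.Prime ∧ q ^ (P - 1) % P ^ 2 = 1)) (by
      intro q hq
      rw [mem_filter, mem_Ioc] at hq
      exact ⟨⟨hq.1.1, by omega⟩, hq.2⟩)
  have hRHS0 : 0 ≤ (1 + 13 * Real.log P) ^ 2 / (b : ℝ) ^ (1 / 4 : ℝ) := by positivity
  refine le_of_pow_le_pow_left₀ (n := k) (by omega) hRHS0 (hmain.trans ?_)
  rw [div_pow, mul_div_assoc']
  have hfac : (k.factorial : ℝ) ≤ (1 + 13 * Real.log P) ^ k := by
    have h7 : (k.factorial : ℝ) ≤ (k : ℝ) ^ k := by exact_mod_cast Nat.factorial_le_pow k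
    exact h7.trans (pow_le_pow_left₀ (by positivity) (by linarith) k)
  have hlog : 1 + ((12 : ℕ) : ℝ) * Real.log P ≤ (1 + 13 * Real.log P) ^ k := by
    have h8 : 1 + ((12 : ℕ) : ℝ) * Real.log P ≤ 1 + 13 * Real.log P := by
      push_cast
      linarith
    exact h8.trans (le_self_pow₀ (by linarith) (by omega))
  have hPb : ((b : ℝ) ^ (1 / 4 : ℝ)) ^ k ≤ P := by
    have h9 : (0 : ℝ) < ((b : ℝ) ^ (1 / 4 : ℝ)) ^ k := by positivity
    rw [← Real.log_le_log_iff h9 hPR, Real.log_pow, Real.log_rpow hb0]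
    rcases Nat.lt_or_ge 1 k with h1 | h1
    · have h2 : (2 : ℝ) ≤ k := by exact_mod_cast h1
      nlinarith
    · have h2 : k = 1 := by omega
      rw [h2]
      push_cast
      linarith
  have hnum : (k.factorial : ℝ) * (1 + ((12 : ℕ) : ℝ) * Real.log P) ≤
      ((1 + 13 * Real.log P) ^ 2) ^ k := by
    calc (k.factorial : ℝ) * (1 + ((12 : ℕ) : ℝ) * Real.log P) ≤
        (1 + 13 * Real.log P) ^ k * (1 + 13 * Real.log P) ^ k :=
          mul_le_mul hfac hlog (by positivity) (by positivity)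
      _ = ((1 + 13 * Real.log P) ^ 2) ^ k := by rw [← mul_pow]; ring_nf
  exact div_le_div₀ (by positivity) hnum (by positivity) hPb

end P033
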